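import Crest.Agent.R213.E.CPoly
import Crest.Agent.R213.E.CertData

-- ▼ part R213/E/CKron
section

/-!
# Row 213, part E: Kronecker substitution for kernel checks (helper223)

A formal integer polynomial `p` (product/sum of lists) is never expanded: its value at `X = 2^W` is
computed with a few big integer operations, the coefficients are read off as digits `digs`, and
`l¹ p < X` (from norms) shows that the digits are the coefficients.
-/

set_option autoImplicit false

open Set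

namespace Crest.Agent.R213.E.C.Kr

/-! ### `evI` is a ring homomorphism -/

theorem evI_add (p q : List Int) (x : Int) : evI (add p q) x = evI p x + evI q x := by
  induction p generalizing q with
  | nil => simp [add, evI]
  | cons a p ih =>
    cases q with
    | nil => simp [add, evI]
    | cons b q => simp [add, evI, ih]; ring

theorem evI_smul (c : Int) (p : List Int) (x : Int) : evI (smul c p) x = c * evI p x := by
  induction p with
  | nil => simp [smul, evI]
  | cons a p ih => simp [smul, evI, ih]; ring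

theorem evI_mul (p q : List Int) (x : Int) : evI (mul p q) x = evI p x * evI q x := by
  induction p with
  | nil => simp [mul, evI]
  | cons a p ih => simp [mul, evI_add, evI_smul, evI, ih]; ring

theorem evI_sub (p q : List Int) (x : Int) : evI (sub p q) x = evI p x - evI q x := by
  simp [sub, evI_add, evI_smul]; ring

/-! ### norms -/

theorem l1_add (p q : List Int) : l1 (add p q) ≤ l1 p + l1 q := by
  induction p generalizing q with
  | nil => simp [add, l1]
  | cons a p ih =>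
    cases q with
    | nil => simp [add, l1]
    | cons b q =>
      have := ih q
      have h2 := Int.natAbs_add_le a b
      simp only [add, l1]; omega

theorem l1_smul (c : Int) (p : List Int) : l1 (smul c p) = c.natAbs * l1 p := by
  induction p with
  | nil => simp [smul, l1]
  | cons a p ih => simp [smul, l1, ih, Int.natAbs_mul]; ring

theorem l1_mul (p q : List Int) : l1 (mul p q) ≤ l1 p * l1 q := by
  induction p with
  | nil => simp [mul, l1]
  | cons a p ih =>
    simp only [mul]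
    refine (l1_add _ _).trans ?_
    rw [l1_smul]
    simp only [l1]
    have : Int.natAbs 0 + l1 (mul p q) ≤ l1 p * l1 q := by simpa using ih
    calc a.natAbs * l1 q + (Int.natAbs 0 + l1 (mul p q)) ≤ a.natAbs * l1 q + l1 p * l1 q := by omega
      _ = (a.natAbs + l1 p) * l1 q := by ring

theorem l1_sub (p q : List Int) : l1 (sub p q) ≤ l1 p + l1 q := by
  have h := l1_add p (smul (-1) q)
  rw [l1_smul] at h
  simpa [sub] using h

/-! ### uniqueness -/

theorem ev_eq_zero_of_evI {X : ℕ} (hX : 0 < X) : ∀ (d : List Int), l1 d < X → evI d X = 0 →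
    ∀ t : ℝ, ev d t = 0 := by
  intro d
  induction d with
  | nil => intro _ _ t; rfl
  | cons a p ih =>
    intro h1 h2 t
    simp only [l1] at h1
    simp only [evI] at h2
    have ha : a = 0 := by
      have hdvd : (X : Int) ∣ a := ⟨-evI p X, by linarith⟩
      by_contra hne
      have := Int.natAbs_le_of_dvd_ne_zero hdvd hne
      simp at this
      omega
    subst ha
    have h3 : evI p X = 0 := by
      have hX' : (X : Int) ≠ 0 := by exact_mod_cast hX.ne'
      have : (X : Int) * evI p X = 0 := by linarith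
      rcases mul_eq_zero.1 this with h | h
      · exact absurd h hX'
      · exact h
    have := ih (by simpa using h1) h3 t
    simp [this]

/-- two polynomials with small norms which agree at `X` are equal. -/
theorem ev_eq_of_evI {X : ℕ} (hX : 0 < X) (p q : List Int) (h : l1 p + l1 q < X)
    (he : evI p X = evI q X) (t : ℝ) : ev p t = ev q t := by
  have h1 : l1 (sub p q) < X := (l1_sub p q).trans_lt h
  have h2 : evI (sub p q) X = 0 := by rw [evI_sub, he, sub_self]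
  have := ev_eq_zero_of_evI hX (sub p q) h1 h2 t
  rw [ev_sub] at this
  linarith

/-! ### digits -/

/-- `i`-th digit (balanced) of `N` in base `2^W`. -/
def dig (W N i : ℕ) : Int := (((N / 2 ^ (W * i)) % 2 ^ W : ℕ) : Int) - (2 ^ (W - 1) : ℕ)

/-- digits `i, i+1, …, i+n-1` -/
def digs (W N : ℕ) : ℕ → ℕ → List Int
  | _, 0 => []
  | i, n + 1 => dig W N i :: digs W N (i + 1) n

/-- `2^(W-1) (1 + X + … + X^(n-1))` -/
def offs (W : ℕ) : ℕ → ℕ
  | 0 => 0
  | n + 1 => 2 ^ (W - 1) + 2 ^ W * offs W n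

theorem evI_digs (W N : ℕ) : ∀ (n i : ℕ), evI (digs W N i n) ((2 ^ W : ℕ) : Int) =
    (((N / 2 ^ (W * i)) % 2 ^ (W * n) : ℕ) : Int) - (offs W n : ℕ) := by
  intro n
  induction n with
  | zero => intro i; simp [digs, evI, offs, Nat.mod_one]
  | succ n ih =>
    intro i
    have h1 : N / 2 ^ (W * (i + 1)) = (N / 2 ^ (W * i)) / 2 ^ W := by
      rw [Nat.div_div_eq_div_mul, ← pow_add]; ring_nf
    have h2 : (N / 2 ^ (W * i)) % 2 ^ (W * (n + 1)) =
        (N / 2 ^ (W * i)) % 2 ^ W + 2 ^ W * ((N / 2 ^ (W * i)) / 2 ^ W % 2 ^ (W * n)) := by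
      rw [show W * (n + 1) = W + W * n by ring, pow_add, Nat.mod_mul]
    simp only [digs, evI, offs, ih, h1, h2, dig]
    push_cast
    ring

/-- norm of the digits, directly. -/
def l1digs (W N : ℕ) : ℕ → ℕ → ℕ
  | _, 0 => 0
  | i, n + 1 => (dig W N i).natAbs + l1digs W N (i + 1) n

theorem l1_digs (W N : ℕ) : ∀ (n i : ℕ), l1 (digs W N i n) = l1digs W N i n := by
  intro n
  induction n with
  | zero => intro i; rfl
  | succ n ih => intro i; simp [digs, l1, l1digs, ih]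

/-- KRONECKER: `p` is a formal polynomial with value `V` at `X = 2^W` and norm `≤ nrm`; then for
`N = V + offs` its coefficients are the digits of `N`. -/
theorem kron {W n : ℕ} {p : List Int} {V : Int} {nrm : ℕ} (hV : evI p ((2 ^ W : ℕ) : Int) = V)
    (hn : l1 p ≤ nrm) (N : ℕ) (hN : (N : Int) = V + offs W n) (hN2 : N < 2 ^ (W * n))
    (hs : nrm + l1digs W N 0 n < 2 ^ W) (t : ℝ) : ev p t = ev (digs W N 0 n) t := by
  refine ev_eq_of_evI (X := 2 ^ W) (by positivity) _ _ ?_ ?_ t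
  · rw [l1_digs]; omega
  · rw [hV, evI_digs]
    simp only [Nat.mul_zero, pow_zero, Nat.div_one]
    rw [Nat.mod_eq_of_lt hN2, hN]; ring

/-! ### forcing evaluation in the kernel -/

/-- `f N`, evaluating `N` first. -/
def force (N : ℕ) (f : ℕ → Bool) : Bool :=
  match N with
  | 0 => f 0
  | k + 1 => f (k + 1)

theorem force_eq (N : ℕ) (f : ℕ → Bool) : force N f = f N := by cases N <;> rfl

/-- `f z`, evaluating `z` first. -/
def forceI (z : Int) (f : Int → Bool) : Bool :=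
  match z with
  | Int.ofNat n => force n fun n => f (Int.ofNat n)
  | Int.negSucc n => force n fun n => f (Int.negSucc n)

theorem forceI_eq (z : Int) (f : Int → Bool) : forceI z f = f z := by
  cases z <;> simp [forceI, force_eq]

/-- check via Kronecker: computes the exact `l¹` norm `r` of the polynomial with value `V` at `2^W`,
and passes it to `f`. -/
def kb (W n : ℕ) (V : Int) (nrm : ℕ) (f : ℕ → Bool) : Bool :=
  forceI (V + offs W n) fun Z =>
    match Z with
    | Int.negSucc _ => false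
    | Int.ofNat N =>
      decide (N < 2 ^ (W * n)) &&
        force (l1digs W N 0 n) fun r => decide (nrm + r < 2 ^ W) && f r

theorem kb_sound {W n : ℕ} {p : List Int} {V : Int} {nrm : ℕ} {f : ℕ → Bool}
    (hV : evI p ((2 ^ W : ℕ) : Int) = V) (hn : l1 p ≤ nrm) (h : kb W n V nrm f = true) :
    ∃ r : ℕ, f r = true ∧ ∀ t : ℝ, |t| ≤ 1 → |ev p t| ≤ r := by
  rw [kb, forceI_eq] at h
  generalize hZ : V + (offs W n : ℕ) = Z at h
  cases Z with
  | negSucc m => simp at h
  | ofNat N =>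
    simp only [Bool.and_eq_true, decide_eq_true_eq, force_eq] at h
    obtain ⟨h1, h2, h3⟩ := h
    refine ⟨_, h3, fun t ht => ?_⟩
    rw [kron hV hn N (by rw [hZ]; rfl) h1 h2 t, ← l1_digs]
    exact abs_ev_le _ ht

/-- positivity check via Kronecker, bisection depth `d`. -/
def kpos (W n : ℕ) (V : Int) (nrm : ℕ) (d : ℕ) : Bool :=
  forceI (V + offs W n) fun Z =>
    match Z with
    | Int.negSucc _ => false
    | Int.ofNat N =>
      decide (N < 2 ^ (W * n)) && decide (nrm + l1digs W N 0 n < 2 ^ W) && posB d (digs W N 0 n)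

theorem kpos_sound {W n : ℕ} {p : List Int} {V : Int} {nrm d : ℕ}
    (hV : evI p ((2 ^ W : ℕ) : Int) = V) (hn : l1 p ≤ nrm) (h : kpos W n V nrm d = true) :
    ∀ t : ℝ, |t| ≤ 1 → 0 < ev p t := by
  rw [kpos, forceI_eq] at h
  generalize hZ : V + (offs W n : ℕ) = Z at h
  cases Z with
  | negSucc m => simp at h
  | ofNat N =>
    simp only [Bool.and_eq_true, decide_eq_true_eq] at h
    obtain ⟨⟨h1, h2⟩, h3⟩ := h
    intro t ht
    rw [kron hV hn N (by rw [hZ]; rfl) h1 h2 t]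
    exact posB_sound d _ h3 ht

/-! ### restriction to the subinterval of centre `σ/2^d`, radius `2^-d` -/

/-- `ev (restr d σ p) t = 2^(d len p) · ev p ((t+σ)/2^d)` -/
def restr (d : ℕ) (σ : Int) : List Int → List Int
  | [] => []
  | a :: p => add [a * 2 ^ (d * (p.length + 1))] (add (smul σ (restr d σ p)) (0 :: restr d σ p))

theorem ev_restr (d : ℕ) (σ : Int) (p : List Int) (t : ℝ) :
    ev (restr d σ p) t = 2 ^ (d * p.length) * ev p ((t + σ) / 2 ^ d) := by
  induction p with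
  | nil => simp [restr]
  | cons a p ih =>
    simp only [restr, ev_add, ev_cons, ev_nil, ev_smul, ih, List.length_cons]
    push_cast
    have h : (2 : ℝ) ^ (d * (p.length + 1)) = 2 ^ d * 2 ^ (d * p.length) := by
      rw [← pow_add]; ring_nf
    rw [h]
    field_simp
    ring

/-- value of `restr` at `x` -/
def evR (d : ℕ) (xσ : Int) : List Int → Int
  | [] => 0
  | a :: p => a * 2 ^ (d * (p.length + 1)) + xσ * evR d xσ p

theorem evI_restr (d : ℕ) (σ : Int) (p : List Int) (x : Int) :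
    evI (restr d σ p) x = evR d (x + σ) p := by
  induction p with
  | nil => rfl
  | cons a p ih =>
    simp only [restr, evI_add, evI, evI_smul, ih, evR]
    ring

theorem l1_restr (d : ℕ) (σ : Int) (hσ : σ.natAbs + 1 ≤ 2 ^ d) (p : List Int) :
    l1 (restr d σ p) ≤ 2 ^ (d * p.length) * l1 p := by
  induction p with
  | nil => simp [restr, l1]
  | cons a p ih =>
    simp only [restr, List.length_cons]
    refine (l1_add _ _).trans ?_
    have h1 : l1 (add (smul σ (restr d σ p)) (0 :: restr d σ p)) ≤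
        2 ^ (d * (p.length + 1)) * l1 p := by
      refine (l1_add _ _).trans ?_
      rw [l1_smul]
      simp only [l1]
      have h : 2 ^ (d * (p.length + 1)) = 2 ^ d * 2 ^ (d * p.length) := by
        rw [← pow_add]; ring_nf
      calc σ.natAbs * l1 (restr d σ p) + (Int.natAbs 0 + l1 (restr d σ p))
          = (σ.natAbs + 1) * l1 (restr d σ p) := by simp; ring
        _ ≤ 2 ^ d * (2 ^ (d * p.length) * l1 p) := Nat.mul_le_mul hσ ih
        _ = _ := by rw [h]; ring
    have h2 : l1 [a * 2 ^ (d * (p.length + 1))] = 2 ^ (d * (p.length + 1)) * a.natAbs := by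
      simp [l1, Int.natAbs_mul, Int.natAbs_pow]; ring
    rw [h2]
    simp only [l1]
    calc _ ≤ 2 ^ (d * (p.length + 1)) * a.natAbs + 2 ^ (d * (p.length + 1)) * l1 p := by omega
      _ = _ := by ring

end Crest.Agent.R213.E.C.Kr
private theorem rz_987582aaec : type_of% @_root_.Crest.Agent.R213.E.C.Kr.digs.eq_def := @_root_.Crest.Agent.R213.E.C.Kr.digs.eq_def -- L117
private theorem rz_99971edbdf : type_of% @_root_.Crest.Agent.R213.E.C.Kr.digs.eq_1 := @_root_.Crest.Agent.R213.E.C.Kr.digs.eq_1 -- L117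
private theorem rz_f31ed0e407 : type_of% @_root_.Crest.Agent.R213.E.C.Kr.evR.eq_def := @_root_.Crest.Agent.R213.E.C.Kr.evR.eq_def -- L250
private theorem rz_d649f1d8fa : type_of% @_root_.Crest.Agent.R213.E.C.Kr.evR.eq_1 := @_root_.Crest.Agent.R213.E.C.Kr.evR.eq_1 -- L250
private theorem rz_5ea2cf0f35 : type_of% @_root_.Crest.Agent.R213.E.C.Kr.forceI.eq_1 := @_root_.Crest.Agent.R213.E.C.Kr.forceI.eq_1 -- L175
private theorem rz_424b9eda3a : type_of% @_root_.Crest.Agent.R213.E.C.Kr.l1digs.eq_def := @_root_.Crest.Agent.R213.E.C.Kr.l1digs.eq_def -- L143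
private theorem rz_c5244da587 : type_of% @_root_.Crest.Agent.R213.E.C.Kr.l1digs.eq_1 := @_root_.Crest.Agent.R213.E.C.Kr.l1digs.eq_1 -- L143
private theorem rz_b844fc23dd : type_of% @_root_.Crest.Agent.R213.E.C.Kr.offs.eq_def := @_root_.Crest.Agent.R213.E.C.Kr.offs.eq_def -- L122
private theorem rz_f91726b13b : type_of% @_root_.Crest.Agent.R213.E.C.Kr.offs.eq_1 := @_root_.Crest.Agent.R213.E.C.Kr.offs.eq_1 -- L122
private theorem rz_6d1ecb9378 : type_of% @_root_.Crest.Agent.R213.E.C.Kr.restr.eq_def := @_root_.Crest.Agent.R213.E.C.Kr.restr.eq_def -- L232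
private theorem rz_d76577c9e2 : type_of% @_root_.Crest.Agent.R213.E.C.Kr.restr.eq_1 := @_root_.Crest.Agent.R213.E.C.Kr.restr.eq_1 -- L232
end

-- ▼ part R213/E/CCheck0

/-!
# Row 213, part E: the kernel checks of the cells (helper223): formal polynomials and checks
-/

set_option autoImplicit false

namespace Crest.Agent.R213.E.C.Kr

/-- `2^6 y²` -/
def yy (c : Cell) : List Int :=
  [((c.H * c.M) ^ 2 : Nat), (2 * c.H ^ 2 * c.M : Nat), (c.H ^ 2 : Nat)]

/-- `2^(67+2S) · (c0 g (P(θ)g + 90) + (y²/2)(g - c0))` -/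
def resI (c : Cell) : List Int :=
  add (smul (2 ^ 7 * C0) (mul c.G (add (Pth c.M c.G) [90 * 2 ^ SE])))
    (smul (2 ^ SE) (mul (yy c) (sub (smul (2 ^ 60) c.G) [C0 * 2 ^ SE])))

/-- `2^(127+3S) · (c0² g² P(θ)k + (y²/2)(c0² k - g²))` -/
def FkI (c : Cell) : List Int :=
  add (smul (2 ^ 7 * C0 ^ 2) (mul (mul c.G c.G) (Pth c.M c.Kd)))
    (mul (yy c) (sub (smul (2 ^ (2 * SE) * C0 ^ 2) c.Kd) (smul (2 ^ (120 + SE)) (mul c.G c.G))))

/-- `2^(186+3S) · y² (g³ - c0³ k²)` -/
def XI (c : Cell) : List Int :=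
  mul (yy c) (sub (smul (2 ^ 180) (mul c.G (mul c.G c.G)))
    (smul (2 ^ SE * C0 ^ 3) (mul c.Kd c.Kd)))

/-! values at `X` and norms -/

def vres (g pg yy : Int) : Int :=
  2 ^ 7 * C0 * (g * (pg + 90 * 2 ^ SE)) + 2 ^ SE * (yy * (2 ^ 60 * g - C0 * 2 ^ SE))
def nres (g pg yy : ℕ) : ℕ :=
  2 ^ 7 * C0 * (g * (pg + 90 * 2 ^ SE)) + 2 ^ SE * (yy * (2 ^ 60 * g + C0 * 2 ^ SE))
def vF (g k pk yy : Int) : Int :=
  2 ^ 7 * C0 ^ 2 * (g * g * pk) + yy * (2 ^ (2 * SE) * C0 ^ 2 * k - 2 ^ (120 + SE) * (g * g))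
def nF (g k pk yy : ℕ) : ℕ :=
  2 ^ 7 * C0 ^ 2 * (g * g * pk) + yy * (2 ^ (2 * SE) * C0 ^ 2 * k + 2 ^ (120 + SE) * (g * g))
def vX (g k yy : Int) : Int := yy * (2 ^ 180 * (g * (g * g)) - 2 ^ SE * C0 ^ 3 * (k * k))
def nX (g k yy : ℕ) : ℕ := yy * (2 ^ 180 * (g * (g * g)) + 2 ^ SE * C0 ^ 3 * (k * k))

/-- bounds of `g0` and `k` -/
def okG (c : Cell) : Bool :=
  decide ((c.gl4 * 2 ^ SE : Nat) ≤ 10 ^ 4 * lo c.G) &&
  decide (10 ^ 4 * hi c.G ≤ (c.gh4 * 2 ^ SE : Nat)) &&
  decide (10 ^ 3 * l1 c.Kd ≤ c.kb3 * 2 ^ SE) && decide (0 < c.gl4) && decide (0 < c.H) &&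
  decide (0 < c.M)

/-- Kronecker parameters -/
def WE : ℕ := 1792
def nE : ℕ := 90
def XE : Int := ((2 ^ WE : ℕ) : Int)

/-! the coercivity bound `B` on the subcell `(d, σ)` -/

def yd (c : Cell) (d : ℕ) (σ : Int) : List Int :=
  [(c.H * (2 ^ d * c.M + σ)) ^ 2, 2 * c.H ^ 2 * (2 ^ d * c.M + σ), c.H ^ 2]

def Wd (c : Cell) (d : ℕ) (σ : Int) : List Int := add [2 ^ (10 + 2 * d)] (yd c d σ)

def BI (c : Cell) (d : ℕ) (σ : Int) : List Int :=
  add (smul 1000 (mul (mul (restr d σ c.G) (restr d σ c.G))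
      (add (smul (-525 * 2 ^ (4 + 2 * d)) (mul (Wd c d σ) (mul (Wd c d σ) (Wd c d σ))))
      (add (smul (387 * 2 ^ (15 + 4 * d)) (mul (Wd c d σ) (Wd c d σ)))
      (add (smul (45 * 2 ^ (26 + 6 * d)) (Wd c d σ)) [-51 * 2 ^ (37 + 8 * d)])))))
    (mul (mul (mul (Wd c d σ) (mul (Wd c d σ) (Wd c d σ))) (yd c d σ))
      (add [1000 * 2 ^ (2 * (SE + d * c.G.length))]
        (smul (-2 * c.B3) (mul (restr d σ c.G) (restr d σ c.G)))))

def vB (d : ℕ) (g y w : Int) (L B : ℕ) : Int :=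
  1000 * (g * g * (-525 * 2 ^ (4 + 2 * d) * (w * (w * w)) + (387 * 2 ^ (15 + 4 * d) * (w * w)
      + (45 * 2 ^ (26 + 6 * d) * w + (-51 * 2 ^ (37 + 8 * d))))))
  + w * (w * w) * y * (1000 * 2 ^ (2 * (SE + d * L)) + -2 * B * (g * g))
def nB (d g y w L B : ℕ) : ℕ :=
  1000 * (g * g * (525 * 2 ^ (4 + 2 * d) * (w * (w * w)) + (387 * 2 ^ (15 + 4 * d) * (w * w)
      + (45 * 2 ^ (26 + 6 * d) * w + (51 * 2 ^ (37 + 8 * d))))))
  + w * (w * w) * y * (1000 * 2 ^ (2 * (SE + d * L)) + 2 * B * (g * g))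

/-- centres of the subcells of depth `d` -/
def sig : ℕ → List Int
  | 0 => [0]
  | 1 => [-1, 1]
  | _ => [-3, -1, 1, 3]

def okB1 (c : Cell) (d : ℕ) (σ : Int) : Bool :=
  decide (σ.natAbs + 1 ≤ 2 ^ d) &&
  forceI (evR d (XE + σ) c.G) fun g =>
  forceI (evI (yd c d σ) XE) fun y =>
  force (l1 c.G) fun ng =>
  force (l1 (yd c d σ)) fun ny =>
  force (2 * c.G.length + 12) fun n =>
  kpos WE n (vB d g y (2 ^ (10 + 2 * d) + y) c.G.length c.B3)
    (nB d (2 ^ (d * c.G.length) * ng) ny (2 ^ (10 + 2 * d) + ny) c.G.length c.B3) 0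

def okB (c : Cell) : Bool :=
  (sig 0).all (okB1 c 0) || (sig 1).all (okB1 c 1) || (sig 2).all (okB1 c 2)

/-- the rational bound of the residual, from the norms `r f x` of `resI FkI XI` -/
def Rsum (c : Cell) (r f x : ℕ) : ℚ :=
  (r : ℚ) / 2 ^ (67 + 2 * SE) / ((C0 / 2 ^ 60) * (c.gl4 / 10 ^ 4))
    + 1 / 2 ^ 26 * ((f : ℚ) / 2 ^ (127 + 3 * SE) / ((C0 / 2 ^ 60) ^ 2 * (c.gl4 / 10 ^ 4) ^ 2))
    + (1 / 2 ^ 26) ^ 2 *
      ((x : ℚ) / 2 ^ (186 + 3 * SE) / (2 * (C0 / 2 ^ 60) ^ 3 * (c.gl4 / 10 ^ 4) ^ 3))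
    + (1 / 2 ^ 26) ^ 3 * (((c.H * (c.M + 1)) / 2 ^ KE) ^ 2 / 2) *
      (1 / ((C0 / 2 ^ 60 - 1 / 2 ^ 26) * (C0 / 2 ^ 60) ^ 3)
        + (c.kb3 / 10 ^ 3) ^ 3 /
          ((c.gl4 / 10 ^ 4 - 1 / 2 ^ 26 * (c.kb3 / 10 ^ 3)) * (c.gl4 / 10 ^ 4) ^ 3))

def okR (c : Cell) : Bool :=
  forceI (evI c.G XE) fun g =>
  forceI (evI (Pth c.M c.G) XE) fun pg =>
  forceI (evI c.Kd XE) fun k =>
  forceI (evI (Pth c.M c.Kd) XE) fun pk =>
  forceI (evI (yy c) XE) fun y =>
  force (l1 c.G) fun ng => force (l1 (Pth c.M c.G)) fun npg =>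
  force (l1 c.Kd) fun nk => force (l1 (Pth c.M c.Kd)) fun npk =>
  force (l1 (yy c)) fun ny =>
  force (2 * c.G.length + 4) fun n1 => force (2 * c.G.length + c.Kd.length + 4) fun n2 =>
  force (3 * c.G.length + 4) fun n3 =>
  kb WE n1 (vres g pg y) (nres ng npg ny) fun r =>
  kb WE n2 (vF g k pk y) (nF ng nk npk ny) fun f =>
  kb WE n3 (vX g k y) (nX ng nk ny) fun x =>
  decide (Rsum c r f x ≤ (c.R20 : ℚ) / 10 ^ 20) &&
  decide (0 < (c.gl4 / 10 ^ 4 - 1 / 2 ^ 26 * (c.kb3 / 10 ^ 3) : ℚ))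

/-- first cell: the residual divided by `(1+t)²` -/
def okZ (c : Cell) : Bool :=
  decide (c.H = 8) && decide (c.M = 1) && decide (c.Ki = []) &&
  forceI (vres (evI c.G XE) (evI (Pth c.M c.G) XE) (evI (yy c) XE)) fun V =>
  forceI (V / (1 + XE) ^ 2) fun VQ =>
  decide (VQ * (1 + XE) ^ 2 = V) &&
  forceI (VQ + offs WE nE) fun Z =>
    match Z with
    | Int.negSucc _ => false
    | Int.ofNat N =>
      decide (N < 2 ^ (WE * nE)) &&
        force (l1digs WE N 0 nE) fun q =>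
          decide (nres (l1 c.G) (l1 (Pth c.M c.G)) (l1 (yy c)) + 4 * q < 2 ^ WE) &&
          decide ((q : ℚ) / 2 ^ (67 + 2 * SE) / ((C0 / 2 ^ 60) * (c.gl4 / 10 ^ 4))
            + 1 / 2 ^ 26 / (2 * (C0 / 2 ^ 60 - 1 / 2 ^ 26) * (C0 / 2 ^ 60)) ≤ 2 / 10 ^ 8)

end Crest.Agent.R213.E.C.Kr
private theorem rz_395123b371 : type_of% @_root_.Crest.Agent.R213.E.C.Kr.sig.eq_1 := @_root_.Crest.Agent.R213.E.C.Kr.sig.eq_1 -- L82
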