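import Mathlib

/-!
# Row 213, part E, certificate tooling: integer polynomials as lists (helper223)

`List Int`, low order first, evaluated at real points by Horner; everything used by the kernel
checks (`add`, `smul`, `mul`, `der`, `th1` …) is structurally recursive on lists with `Int`
arithmetic, so that boolean checks can be closed by `decide +kernel`.
-/

set_option autoImplicit false

open Set

namespace Crest.Agent.R213.E.C

/-- value of the integer polynomial `p` at `t`. -/
noncomputable def ev : List Int → ℝ → ℝ
  | [], _ => 0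
  | a :: p, t => (a : ℝ) + t * ev p t

@[simp] theorem ev_nil (t : ℝ) : ev [] t = 0 := rfl
@[simp] theorem ev_cons (a : Int) (p : List Int) (t : ℝ) : ev (a :: p) t = a + t * ev p t := rfl

/-- integer value. -/
def evI : List Int → Int → Int
  | [], _ => 0
  | a :: p, t => a + t * evI p t

theorem ev_int (p : List Int) (t : Int) : ev p (t : ℝ) = (evI p t : ℝ) := by
  induction p with
  | nil => simp [evI]
  | cons a p ih => simp [evI, ih]

theorem ev_one (p : List Int) : ev p 1 = (evI p 1 : ℝ) := by simpa using ev_int p 1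
theorem ev_neg_one (p : List Int) : ev p (-1) = (evI p (-1) : ℝ) := by simpa using ev_int p (-1)

/-- sum -/
def add : List Int → List Int → List Int
  | [], q => q
  | a :: p, [] => a :: p
  | a :: p, b :: q => (a + b) :: add p q

@[simp] theorem ev_add (p q : List Int) (t : ℝ) : ev (add p q) t = ev p t + ev q t := by
  induction p generalizing q with
  | nil => simp [add]
  | cons a p ih =>
    cases q with
    | nil => simp [add]
    | cons b q => simp [add, ih]; ring

/-- scalar multiple -/
def smul (c : Int) : List Int → List Int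
  | [] => []
  | a :: p => (c * a) :: smul c p

@[simp] theorem ev_smul (c : Int) (p : List Int) (t : ℝ) : ev (smul c p) t = c * ev p t := by
  induction p with
  | nil => simp [smul]
  | cons a p ih => simp [smul, ih]; ring

/-- product -/
def mul : List Int → List Int → List Int
  | [], _ => []
  | a :: p, q => add (smul a q) (0 :: mul p q)

@[simp] theorem ev_mul (p q : List Int) (t : ℝ) : ev (mul p q) t = ev p t * ev q t := by
  induction p with
  | nil => simp [mul]
  | cons a p ih => simp [mul, ih]; ring

/-- difference -/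
def sub (p q : List Int) : List Int := add p (smul (-1) q)

@[simp] theorem ev_sub (p q : List Int) (t : ℝ) : ev (sub p q) t = ev p t - ev q t := by
  simp [sub]; ring

/-- auxiliary for `der`: `k p + t p'`. -/
def derAux : Int → List Int → List Int
  | _, [] => []
  | k, a :: p => (k * a) :: derAux (k + 1) p

/-- derivative -/
def der : List Int → List Int
  | [] => []
  | _ :: p => derAux 1 p

theorem ev_derAux (k : Int) (p : List Int) (t : ℝ) :
    ev (derAux k p) t = k * ev p t + t * ev (der p) t := by
  induction p generalizing k with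
  | nil => simp [derAux, der]
  | cons a p ih =>
    simp only [derAux, ev_cons, ih, der]
    push_cast
    ring

theorem ev_der_cons (a : Int) (p : List Int) (t : ℝ) :
    ev (der (a :: p)) t = ev p t + t * ev (der p) t := by
  simp [der, ev_derAux]

theorem hasDerivAt_ev (p : List Int) (t : ℝ) : HasDerivAt (ev p) (ev (der p) t) t := by
  induction p with
  | nil => exact hasDerivAt_const t (0 : ℝ)
  | cons a p ih =>
    have h := ((hasDerivAt_id t).mul ih).const_add (a : ℝ)
    rw [ev_der_cons]
    refine (h.congr_deriv (by simp)).congr_of_eventuallyEq (Filter.Eventually.of_forall fun s => ?_)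
    simp

theorem continuous_ev (p : List Int) : Continuous (ev p) :=
  continuous_iff_continuousAt.2 fun t => (hasDerivAt_ev p t).continuousAt

/-- `l¹` norm of the coefficients -/
def l1 : List Int → Nat
  | [] => 0
  | a :: p => a.natAbs + l1 p

theorem abs_ev_le (p : List Int) {t : ℝ} (ht : |t| ≤ 1) : |ev p t| ≤ l1 p := by
  induction p with
  | nil => simp [l1]
  | cons a p ih =>
    have h1 : |t * ev p t| ≤ l1 p := by
      rw [abs_mul]
      calc |t| * |ev p t| ≤ 1 * |ev p t| := by gcongr
        _ ≤ l1 p := by simpa using ih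
    calc |ev (a :: p) t| ≤ |(a : ℝ)| + |t * ev p t| := abs_add_le _ _
      _ ≤ (a.natAbs : ℝ) + l1 p := by
          have : |(a : ℝ)| = (a.natAbs : ℝ) := by
            rw [Nat.cast_natAbs, Int.cast_abs]
          rw [this]; gcongr
      _ = ((l1 (a :: p) : Nat) : ℝ) := by simp [l1]

/-- lower bound on `[-1,1]` -/
def lo : List Int → Int
  | [] => 0
  | a :: p => a - l1 p

/-- upper bound on `[-1,1]` -/
def hi : List Int → Int
  | [] => 0
  | a :: p => a + l1 p

theorem mul_ev_abs_le (p : List Int) {t : ℝ} (ht : |t| ≤ 1) : |t * ev p t| ≤ l1 p := by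
  rw [abs_mul]
  calc |t| * |ev p t| ≤ 1 * |ev p t| := by gcongr
    _ ≤ l1 p := by simpa using abs_ev_le p ht

theorem lo_le (p : List Int) {t : ℝ} (ht : |t| ≤ 1) : (lo p : ℝ) ≤ ev p t := by
  cases p with
  | nil => simp [lo]
  | cons a p =>
    have h1 := (abs_le.1 (mul_ev_abs_le p ht)).1
    simp only [lo, ev_cons]; push_cast; linarith

theorem le_hi (p : List Int) {t : ℝ} (ht : |t| ≤ 1) : ev p t ≤ (hi p : ℝ) := by
  cases p with
  | nil => simp [hi]
  | cons a p =>
    have h1 := (abs_le.1 (mul_ev_abs_le p ht)).2
    simp only [hi, ev_cons]; push_cast; linarith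

/-- restriction to the half interval: `ev (subd s p) t = 2^(length p) * ev p ((t+s)/2)`. -/
def subd (s : Int) : List Int → List Int
  | [] => []
  | a :: p => add [a * 2 ^ (p.length + 1)] (add (smul s (subd s p)) (0 :: subd s p))

theorem ev_subd (s : Int) (p : List Int) (t : ℝ) :
    ev (subd s p) t = 2 ^ p.length * ev p ((t + s) / 2) := by
  induction p with
  | nil => simp [subd]
  | cons a p ih =>
    simp only [subd, ev_add, ev_cons, ev_nil, ev_smul, ih, List.length_cons]
    push_cast
    ring

/-- positivity on `[-1,1]` by bisection of depth `n`. -/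
def posB : Nat → List Int → Bool
  | 0, p => decide (0 < lo p)
  | n + 1, p => decide (0 < lo p) || (posB n (subd 1 p) && posB n (subd (-1) p))

theorem posB_sound (n : Nat) (p : List Int) (h : posB n p = true) {t : ℝ} (ht : |t| ≤ 1) :
    0 < ev p t := by
  induction n generalizing p t with
  | zero =>
    simp only [posB, decide_eq_true_eq] at h
    have : (0 : ℝ) < (lo p : ℝ) := by exact_mod_cast h
    exact this.trans_le (lo_le p ht)
  | succ n ih =>
    simp only [posB, Bool.or_eq_true, decide_eq_true_eq, Bool.and_eq_true] at h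
    rcases h with h | ⟨h1, h2⟩
    · have : (0 : ℝ) < (lo p : ℝ) := by exact_mod_cast h
      exact this.trans_le (lo_le p ht)
    · obtain ⟨ha, hb⟩ := abs_le.1 ht
      rcases le_total 0 t with h0 | h0
      · have h3 : |2 * t - 1| ≤ 1 := abs_le.2 ⟨by linarith, by linarith⟩
        have h4 := ih (subd 1 p) h1 h3
        rw [ev_subd] at h4
        have h5 : ((2 * t - 1 + ((1 : Int) : ℝ)) / 2) = t := by push_cast; ring
        rw [h5] at h4
        exact pos_of_mul_pos_right h4 (by positivity)
      · have h3 : |2 * t + 1| ≤ 1 := abs_le.2 ⟨by linarith, by linarith⟩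
        have h4 := ih (subd (-1) p) h2 h3
        rw [ev_subd] at h4
        have h5 : ((2 * t + 1 + ((-1 : Int) : ℝ)) / 2) = t := by push_cast; ring
        rw [h5] at h4
        exact pos_of_mul_pos_right h4 (by positivity)

/-- `(θ + a) p` on a piece `y = h (M + t)`, `θ = (M + t) d/dt`. -/
def th1 (M a : Int) (p : List Int) : List Int :=
  add (smul a p) (add (smul M (der p)) (0 :: der p))

@[simp] theorem ev_th1 (M a : Int) (p : List Int) (t : ℝ) :
    ev (th1 M a p) t = (M + t) * ev (der p) t + a * ev p t := by
  simp [th1]; ring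

/-- `P(θ) p`, `P(s) = (s-1)(s+9)(s+10)`. -/
def Pth (M : Int) (p : List Int) : List Int := th1 M (-1) (th1 M 9 (th1 M 10 p))


theorem ev_der_add (p q : List Int) (t : ℝ) : ev (der (add p q)) t = ev (der p) t + ev (der q) t := by
  have h1 := hasDerivAt_ev (add p q) t
  have h2 : HasDerivAt (ev (add p q)) (ev (der p) t + ev (der q) t) t := by
    have := (hasDerivAt_ev p t).add (hasDerivAt_ev q t)
    have e : ev (add p q) = ev p + ev q := by funext s; simp
    rw [e]; exact this
  exact h1.unique h2

theorem ev_der_smul (c : Int) (p : List Int) (t : ℝ) :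
    ev (der (smul c p)) t = c * ev (der p) t := by
  have h1 := hasDerivAt_ev (smul c p) t
  have h2 : HasDerivAt (ev (smul c p)) (c * ev (der p) t) t := by
    have := (hasDerivAt_ev p t).const_mul (c : ℝ)
    have e : ev (smul c p) = fun s => (c : ℝ) * ev p s := by funext s; simp
    rw [e]; exact this
  exact h1.unique h2

theorem ev_der_X (p : List Int) (t : ℝ) : ev (der (0 :: p)) t = ev p t + t * ev (der p) t := by
  rw [ev_der_cons]

theorem ev_der_th1 (M a : Int) (p : List Int) (t : ℝ) :
    ev (der (th1 M a p)) t =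
      (M + t) * ev (der (der p)) t + (1 + a) * ev (der p) t := by
  simp only [th1, ev_der_add, ev_der_smul, ev_der_X]
  ring

theorem ev_der_der_th1 (M a : Int) (p : List Int) (t : ℝ) :
    ev (der (der (th1 M a p))) t =
      (M + t) * ev (der (der (der p))) t + (2 + a) * ev (der (der p)) t := by
  have h1 := hasDerivAt_ev (der (th1 M a p)) t
  have h2 : HasDerivAt (ev (der (th1 M a p)))
      ((M + t) * ev (der (der (der p))) t + (2 + a) * ev (der (der p)) t) t := by
    have e : ev (der (th1 M a p)) = fun s => ((M : ℝ) + s) * ev (der (der p)) s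
        + (1 + a) * ev (der p) s := by funext s; rw [ev_der_th1]
    rw [e]
    have h3 := (((hasDerivAt_id t).const_add (M : ℝ)).mul (hasDerivAt_ev (der (der p)) t)).add
      ((hasDerivAt_ev (der p) t).const_mul (1 + (a : ℝ)))
    refine h3.congr_deriv ?_
    simp; ring
  exact h1.unique h2

/-- `P(θ) p` in terms of derivatives. -/
theorem ev_Pth (M : Int) (p : List Int) (t : ℝ) :
    ev (Pth M p) t = (M + t) ^ 3 * ev (der (der (der p))) t
      + 21 * (M + t) ^ 2 * ev (der (der p)) t + 90 * (M + t) * ev (der p) t - 90 * ev p t := by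
  simp only [Pth, ev_th1, ev_der_th1, ev_der_der_th1]
  push_cast
  ring


end Crest.Agent.R213.E.C
private theorem rz_8607132f84 : type_of% @_root_.Crest.Agent.R213.E.C.add.eq_def := @_root_.Crest.Agent.R213.E.C.add.eq_def -- L39
private theorem rz_6904868681 : type_of% @_root_.Crest.Agent.R213.E.C.add.eq_1 := @_root_.Crest.Agent.R213.E.C.add.eq_1 -- L39
private theorem rz_db1e83a6b8 : type_of% @_root_.Crest.Agent.R213.E.C.der.eq_1 := @_root_.Crest.Agent.R213.E.C.der.eq_1 -- L84
private theorem rz_ec125bb64e : type_of% @_root_.Crest.Agent.R213.E.C.derAux.eq_def := @_root_.Crest.Agent.R213.E.C.derAux.eq_def -- L79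
private theorem rz_3508e2bc57 : type_of% @_root_.Crest.Agent.R213.E.C.derAux.eq_1 := @_root_.Crest.Agent.R213.E.C.derAux.eq_1 -- L79
private theorem rz_e07e9c76df : type_of% @_root_.Crest.Agent.R213.E.C.evI.eq_def := @_root_.Crest.Agent.R213.E.C.evI.eq_def -- L26
private theorem rz_fbec55f7af : type_of% @_root_.Crest.Agent.R213.E.C.evI.eq_1 := @_root_.Crest.Agent.R213.E.C.evI.eq_1 -- L26
private theorem rz_acaacd5ced : type_of% @_root_.Crest.Agent.R213.E.C.hi.eq_1 := @_root_.Crest.Agent.R213.E.C.hi.eq_1 -- L139
private theorem rz_24ce3f9e76 : type_of% @_root_.Crest.Agent.R213.E.C.l1.eq_def := @_root_.Crest.Agent.R213.E.C.l1.eq_def -- L114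
private theorem rz_0d2009d471 : type_of% @_root_.Crest.Agent.R213.E.C.l1.eq_1 := @_root_.Crest.Agent.R213.E.C.l1.eq_1 -- L114
private theorem rz_f7b8785b72 : type_of% @_root_.Crest.Agent.R213.E.C.lo.eq_1 := @_root_.Crest.Agent.R213.E.C.lo.eq_1 -- L134
private theorem rz_53bb2b236b : type_of% @_root_.Crest.Agent.R213.E.C.mul.eq_def := @_root_.Crest.Agent.R213.E.C.mul.eq_def -- L63
private theorem rz_e38b5a75ae : type_of% @_root_.Crest.Agent.R213.E.C.mul.eq_1 := @_root_.Crest.Agent.R213.E.C.mul.eq_1 -- L63
private theorem rz_43336dfea2 : type_of% @_root_.Crest.Agent.R213.E.C.posB.eq_def := @_root_.Crest.Agent.R213.E.C.posB.eq_def -- L177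
private theorem rz_2254f3af89 : type_of% @_root_.Crest.Agent.R213.E.C.posB.eq_1 := @_root_.Crest.Agent.R213.E.C.posB.eq_1 -- L177
private theorem rz_4a3d65ce7b : type_of% @_root_.Crest.Agent.R213.E.C.smul.eq_def := @_root_.Crest.Agent.R213.E.C.smul.eq_def -- L53
private theorem rz_7e7f47d5af : type_of% @_root_.Crest.Agent.R213.E.C.smul.eq_1 := @_root_.Crest.Agent.R213.E.C.smul.eq_1 -- L53
private theorem rz_b018deb349 : type_of% @_root_.Crest.Agent.R213.E.C.subd.eq_def := @_root_.Crest.Agent.R213.E.C.subd.eq_def -- L163
private theorem rz_9924c65d82 : type_of% @_root_.Crest.Agent.R213.E.C.subd.eq_1 := @_root_.Crest.Agent.R213.E.C.subd.eq_1 -- L163
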