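import Crest.Agent.R213.E.CPoly

/-!
# Row 213, part E, certificate tooling: splines with integer data (helper223)

A piece `⟨H, M, P⟩` is the interval `y = (H / 2^K) (M + t)`, `t ∈ [-1,1]`, and on it the function is
`ev P t / 2^S`.  `pw K S l T r y` = `r`-th derivative of the spline with pieces `l` continued by the tail
functions `T r` (`T r` = r-th derivative of the tail).
-/

set_option autoImplicit false

open Set

namespace Crest.Agent.R213.E.C

structure Pc where
  H : Nat
  M : Nat
  P : List Int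

/-- half width -/
noncomputable def Pc.h (K : ℕ) (p : Pc) : ℝ := (p.H : ℝ) / 2 ^ K
/-- left end -/
noncomputable def Pc.a (K : ℕ) (p : Pc) : ℝ := p.h K * ((p.M : ℝ) - 1)
/-- right end -/
noncomputable def Pc.b (K : ℕ) (p : Pc) : ℝ := p.h K * ((p.M : ℝ) + 1)

/-- `r`-th derivative of the list polynomial -/
def dern : ℕ → List Int → List Int
  | 0, p => p
  | r + 1, p => dern r (der p)

/-- `r`-th derivative of the piece function. -/
noncomputable def Pc.f (K S : ℕ) (p : Pc) (r : ℕ) (y : ℝ) : ℝ :=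
  ev (dern r p.P) (y / p.h K - p.M) / p.h K ^ r / 2 ^ S

theorem dern_succ' (r : ℕ) (p : List Int) : dern (r + 1) p = der (dern r p) := by
  induction r generalizing p with
  | zero => rfl
  | succ r ih => exact ih (der p)

theorem Pc.h_pos {K : ℕ} {p : Pc} (hH : 0 < p.H) : 0 < p.h K := by
  unfold Pc.h; positivity

theorem Pc.hasDerivAt_f (K S : ℕ) (p : Pc) (hH : 0 < p.H) (r : ℕ) (y : ℝ) :
    HasDerivAt (p.f K S r) (p.f K S (r + 1) y) y := by
  have hh := Pc.h_pos (K := K) hH
  have h1 : HasDerivAt (fun y : ℝ => y / p.h K - p.M) (1 / p.h K) y :=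
    ((hasDerivAt_id y).div_const _).sub_const _
  have h2 := ((hasDerivAt_ev (dern r p.P) (y / p.h K - p.M)).comp y h1).div_const (p.h K ^ r)
  have h3 := h2.div_const ((2 : ℝ) ^ S)
  refine h3.congr_deriv ?_
  simp only [Pc.f, dern_succ']
  field_simp
  ring

/-- the spline and its derivatives. -/
noncomputable def pw (K S : ℕ) : List Pc → (ℕ → ℝ → ℝ) → ℕ → ℝ → ℝ
  | [], T, r, y => T r y
  | p :: l, T, r, y => if y ≤ p.b K then p.f K S r y else pw K S l T r y

/-- exact matching of the jets of order `≤ 3` of two consecutive pieces. -/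
def joint (p q : Pc) : Bool :=
  decide (p.H * (p.M + 1) + q.H = q.H * q.M) &&
  decide (evI p.P 1 = evI q.P (-1)) &&
  decide (evI (der p.P) 1 * q.H = evI (der q.P) (-1) * p.H) &&
  decide (evI (der (der p.P)) 1 * q.H ^ 2 = evI (der (der q.P)) (-1) * p.H ^ 2) &&
  decide (evI (der (der (der p.P))) 1 * q.H ^ 3 = evI (der (der (der q.P))) (-1) * p.H ^ 3)

/-- all consecutive joints match and the half widths are positive. -/
def chain : List Pc → Bool
  | [] => true
  | p :: l => decide (0 < p.H) && (match l with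
      | [] => true
      | q :: _ => joint p q) && chain l

/-- value of the piece at its right end in integers: matching with the tail data. -/
structure LastOK (K S : ℕ) (p : Pc) (T : ℕ → ℝ → ℝ) : Prop where
  jet : ∀ r ≤ 3, p.f K S r (p.b K) = T r (p.b K)
  der : ∀ r < 3, ∀ y, p.b K ≤ y → HasDerivAt (T r) (T (r + 1) y) y

theorem Pc.f_b {K S : ℕ} {p : Pc} (hH : 0 < p.H) (r : ℕ) :
    p.f K S r (p.b K) = (evI (dern r p.P) 1 : ℝ) / p.h K ^ r / 2 ^ S := by
  have hh := Pc.h_pos (K := K) hH
  have : p.b K / p.h K - p.M = 1 := by unfold Pc.b; field_simp; ring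
  rw [Pc.f, this, ev_one]

theorem Pc.f_a {K S : ℕ} {p : Pc} (hH : 0 < p.H) (r : ℕ) :
    p.f K S r (p.a K) = (evI (dern r p.P) (-1) : ℝ) / p.h K ^ r / 2 ^ S := by
  have hh := Pc.h_pos (K := K) hH
  have : p.a K / p.h K - p.M = -1 := by unfold Pc.a; field_simp; ring
  rw [Pc.f, this, ev_neg_one]

theorem joint_ends {K : ℕ} {p q : Pc} (h : joint p q = true) : p.b K = q.a K := by
  simp only [joint, Bool.and_eq_true, decide_eq_true_eq] at h
  have h1 : ((p.H * (p.M + 1) + q.H : ℕ) : ℝ) = ((q.H * q.M : ℕ) : ℝ) := by exact_mod_cast h.1.1.1.1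
  push_cast at h1
  unfold Pc.b Pc.a Pc.h
  have : (p.H : ℝ) / 2 ^ K * (p.M + 1) = (p.H * (p.M + 1)) / 2 ^ K := by ring
  rw [this]
  have : (q.H : ℝ) / 2 ^ K * (q.M - 1) = (q.H * (q.M - 1)) / 2 ^ K := by ring
  rw [this]
  congr 1
  linarith

theorem joint_jet {K S : ℕ} {p q : Pc} (hp : 0 < p.H) (hq : 0 < q.H) (h : joint p q = true) :
    ∀ r ≤ 3, p.f K S r (p.b K) = q.f K S r (p.b K) := by
  have he := joint_ends (K := K) h
  intro r hr
  rw [Pc.f_b hp r, he, Pc.f_a hq r]
  simp only [joint, Bool.and_eq_true, decide_eq_true_eq] at h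
  obtain ⟨⟨⟨⟨_, h0⟩, h1⟩, h2⟩, h3⟩ := h
  have h1' : (evI (C.der p.P) 1 : ℝ) * q.H = evI (C.der q.P) (-1) * p.H := by exact_mod_cast h1
  have h2' : (evI (C.der (C.der p.P)) 1 : ℝ) * q.H ^ 2 = evI (C.der (C.der q.P)) (-1) * p.H ^ 2 := by
    exact_mod_cast h2
  have h3' : (evI (C.der (C.der (C.der p.P))) 1 : ℝ) * q.H ^ 3
      = evI (C.der (C.der (C.der q.P))) (-1) * p.H ^ 3 := by exact_mod_cast h3
  have hpR : (p.H : ℝ) ≠ 0 := by positivity
  have hqR : (q.H : ℝ) ≠ 0 := by positivity
  interval_cases r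
  · simp [dern, h0]
  · simp only [dern, Pc.h]
    congr 1
    field_simp
    linarith
  · simp only [dern, Pc.h]
    congr 1
    field_simp
    linarith
  · simp only [dern, Pc.h]
    congr 1
    field_simp
    linarith

theorem b_lt_b {K : ℕ} {p q : Pc} (hq : 0 < q.H) (h : joint p q = true) : p.b K < q.b K := by
  rw [joint_ends h]
  have hh := Pc.h_pos (K := K) hq
  unfold Pc.a Pc.b
  nlinarith

/-- `pw` at the left end of the rest of the chain. -/
theorem pw_next {K S : ℕ} {p : Pc} {l : List Pc} {T : ℕ → ℝ → ℝ}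
    (hc : chain (p :: l) = true)
    (hT : ∀ q, (p :: l).getLast? = some q → LastOK K S q T) :
    ∀ r ≤ 3, p.f K S r (p.b K) = pw K S l T r (p.b K) := by
  intro r hr
  cases l with
  | nil => exact (hT p rfl).jet r hr
  | cons q l =>
    simp only [chain, Bool.and_eq_true, decide_eq_true_eq] at hc
    obtain ⟨⟨hp, hj⟩, ⟨hq, _⟩, _⟩ := hc
    rw [joint_jet hp hq hj r hr, pw, if_pos (b_lt_b hq hj).le]

theorem chain_tail {p : Pc} {l : List Pc} (hc : chain (p :: l) = true) : chain l = true := by
  simp only [chain, Bool.and_eq_true] at hc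
  exact hc.2

theorem chain_head {p : Pc} {l : List Pc} (hc : chain (p :: l) = true) : 0 < p.H := by
  simp only [chain, Bool.and_eq_true, decide_eq_true_eq] at hc
  exact hc.1.1

/-- THE CHAIN: the spline is `C³` (derivatives `pw … r`, `r ≤ 3`) on the whole line. -/
theorem pw_hasDerivAt {K S : ℕ} {T : ℕ → ℝ → ℝ} : ∀ (l : List Pc), l ≠ [] → chain l = true →
    (∀ q, l.getLast? = some q → LastOK K S q T) → ∀ r < 3, ∀ y : ℝ,
    HasDerivAt (pw K S l T r) (pw K S l T (r + 1) y) y := by
  intro l
  induction l with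
  | nil => intro h; exact absurd rfl h
  | cons p l ih =>
    intro _ hc hT r hr y
    have hp := chain_head hc
    have hjet := pw_next hc hT
    -- derivative of the rest for y ≥ p.b
    have hrest : ∀ y, p.b K ≤ y → HasDerivAt (pw K S l T r) (pw K S l T (r + 1) y) y := by
      intro y hy
      cases l with
      | nil => exact (hT p rfl).der r hr y hy
      | cons q l' =>
        exact ih (by simp) (chain_tail hc) (fun q' hq' => hT q' (by simpa using hq')) r hr y
    rcases lt_trichotomy y (p.b K) with h | h | h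
    · have e : pw K S (p :: l) T r =ᶠ[nhds y] p.f K S r := by
        filter_upwards [Iio_mem_nhds h] with z hz
        rw [pw, if_pos (le_of_lt hz)]
      rw [pw, if_pos h.le]
      exact (p.hasDerivAt_f K S hp r y).congr_of_eventuallyEq e
    · subst h
      have hv : pw K S (p :: l) T (r + 1) (p.b K) = p.f K S (r + 1) (p.b K) := by
        rw [pw, if_pos le_rfl]
      rw [hv]
      have hl : HasDerivWithinAt (pw K S (p :: l) T r) (p.f K S (r + 1) (p.b K)) (Iic (p.b K))
          (p.b K) := by
        refine (p.hasDerivAt_f K S hp r (p.b K)).hasDerivWithinAt.congr_of_mem ?_ self_mem_Iic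
        intro z hz
        rw [pw, if_pos (mem_Iic.1 hz)]
      have hrr : HasDerivWithinAt (pw K S (p :: l) T r) (p.f K S (r + 1) (p.b K)) (Ici (p.b K))
          (p.b K) := by
        have h0 := (hrest (p.b K) le_rfl).hasDerivWithinAt (s := Ici (p.b K))
        rw [← hjet (r + 1) (by omega)] at h0
        refine h0.congr_of_mem ?_ self_mem_Ici
        intro z hz
        rcases eq_or_lt_of_le (mem_Ici.1 hz) with h | h
        · rw [← h, pw, if_pos le_rfl, hjet r (by omega)]
        · rw [pw, if_neg (not_le.2 h)]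
      have := hl.union hrr
      rw [Iic_union_Ici] at this
      exact hasDerivWithinAt_univ.1 this
    · have e : pw K S (p :: l) T r =ᶠ[nhds y] pw K S l T r := by
        filter_upwards [Ioi_mem_nhds h] with z hz
        rw [pw, if_neg (not_le.2 hz)]
      rw [pw, if_neg (not_le.2 h)]
      exact (hrest y h.le).congr_of_eventuallyEq e

end Crest.Agent.R213.E.C
private theorem rz_20691d5578 : type_of% @_root_.Crest.Agent.R213.E.C.chain.eq_def := @_root_.Crest.Agent.R213.E.C.chain.eq_def -- L72
private theorem rz_3fa82278c8 : type_of% @_root_.Crest.Agent.R213.E.C.chain.eq_1 := @_root_.Crest.Agent.R213.E.C.chain.eq_1 -- L72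
private theorem rz_4bed1208fd : type_of% @_root_.Crest.Agent.R213.E.C.dern.eq_def := @_root_.Crest.Agent.R213.E.C.dern.eq_def -- L30
private theorem rz_9ac910b6d9 : type_of% @_root_.Crest.Agent.R213.E.C.dern.eq_1 := @_root_.Crest.Agent.R213.E.C.dern.eq_1 -- L30
private theorem rz_dcfa2e7bd8 : type_of% @_root_.Crest.Agent.R213.E.C.pw.eq_def := @_root_.Crest.Agent.R213.E.C.pw.eq_def -- L59
private theorem rz_deb8336d66 : type_of% @_root_.Crest.Agent.R213.E.C.pw.eq_1 := @_root_.Crest.Agent.R213.E.C.pw.eq_1 -- L59
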