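import Crest.Agent.R213.E.CPoly
import Crest.Agent.R213.E.CSpl
import Crest.Agent.R213.E.EDefs

-- ▼ part R213/E/CTwo
section

/-!
# Row 213, part E, certificate: tail tooling (helper472)

* `tl Y S A r y` = `r`-th derivative (in `y`) of `ev A (Y²/y²) / 2^S`, a polynomial in `u = Y²/y²`;
* `ev2 L x u = ∑ x^l ev L_l u`: integer polynomials in two variables as lists of lists.
-/

set_option autoImplicit false

open Set

namespace Crest.Agent.R213.E.C

/-- coefficient `a_j ↦ (k - 2 j) a_j` -/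
def scA : Int → List Int → List Int
  | _, [] => []
  | k, a :: p => (k * a) :: scA (k - 2) p

theorem ev_scA (k : Int) (p : List Int) (t : ℝ) :
    ev (scA k p) t = k * ev p t - 2 * (t * ev (der p) t) := by
  induction p generalizing k with
  | nil => simp [scA, der]
  | cons a p ih =>
    simp only [scA, ev_cons, ih, ev_der_cons]
    push_cast
    ring

/-- `r` derivatives of a polynomial in `u = Y²/y²` (times `y^r`) -/
def scn : ℕ → List Int → List Int
  | 0, A => A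
  | r + 1, A => scA (-(r : Int)) (scn r A)

/-- `r`-th derivative of `y ↦ ev A (Y²/y²) / 2^S` -/
noncomputable def tl (Y : ℝ) (S : ℕ) (A : List Int) (r : ℕ) (y : ℝ) : ℝ :=
  ev (scn r A) (Y ^ 2 / y ^ 2) / 2 ^ S / y ^ r

theorem hasDerivAt_tl (Y : ℝ) (S : ℕ) (A : List Int) (r : ℕ) {y : ℝ} (hy : y ≠ 0) :
    HasDerivAt (tl Y S A r) (tl Y S A (r + 1) y) y := by
  have h1 : HasDerivAt (fun y : ℝ => Y ^ 2 / y ^ 2) (-2 * Y ^ 2 / y ^ 3) y := by
    have := (hasDerivAt_const y (Y ^ 2)).div (hasDerivAt_pow 2 y) (pow_ne_zero 2 hy)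
    refine this.congr_deriv ?_
    field_simp
    push_cast
    ring
  have h2 := ((hasDerivAt_ev (scn r A) (Y ^ 2 / y ^ 2)).comp y h1).div_const ((2 : ℝ) ^ S)
  have h3 := h2.div (hasDerivAt_pow r y) (pow_ne_zero r hy)
  refine h3.congr_deriv ?_
  simp only [tl, scn, ev_scA, Function.comp]
  cases r with
  | zero => simp; field_simp
  | succ n =>
    simp only [Nat.add_sub_cancel]
    field_simp
    push_cast
    ring

/-- `P(θ)` on the tail functions -/
def PthU (A : List Int) : List Int :=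
  add (scn 3 A) (add (smul 21 (scn 2 A)) (add (smul 90 (scn 1 A)) (smul (-90) A)))

theorem PthU_tl (Y : ℝ) (S : ℕ) (A : List Int) {y : ℝ} (hy : y ≠ 0) :
    y ^ 3 * tl Y S A 3 y + 21 * y ^ 2 * tl Y S A 2 y + 90 * y * tl Y S A 1 y - 90 * tl Y S A 0 y
      = ev (PthU A) (Y ^ 2 / y ^ 2) / 2 ^ S := by
  simp only [tl, PthU, ev_add, ev_smul]
  push_cast
  field_simp
  simp only [scn]
  ring

/-! ### two variables -/

/-- `∑ x^l ev L_l u` -/
noncomputable def ev2 : List (List Int) → ℝ → ℝ → ℝ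
  | [], _, _ => 0
  | a :: L, x, u => ev a u + x * ev2 L x u

@[simp] theorem ev2_nil (x u : ℝ) : ev2 [] x u = 0 := rfl
@[simp] theorem ev2_cons (a : List Int) (L : List (List Int)) (x u : ℝ) :
    ev2 (a :: L) x u = ev a u + x * ev2 L x u := rfl

def add2 : List (List Int) → List (List Int) → List (List Int)
  | [], q => q
  | a :: p, [] => a :: p
  | a :: p, b :: q => add a b :: add2 p q

@[simp] theorem ev2_add (p q : List (List Int)) (x u : ℝ) :
    ev2 (add2 p q) x u = ev2 p x u + ev2 q x u := by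
  induction p generalizing q with
  | nil => simp [add2]
  | cons a p ih =>
    cases q with
    | nil => simp [add2]
    | cons b q => simp [add2, ih]; ring

/-- multiply by a one variable polynomial in `u` -/
def mulu (a : List Int) : List (List Int) → List (List Int)
  | [] => []
  | b :: p => mul a b :: mulu a p

@[simp] theorem ev2_mulu (a : List Int) (p : List (List Int)) (x u : ℝ) :
    ev2 (mulu a p) x u = ev a u * ev2 p x u := by
  induction p with
  | nil => simp [mulu]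
  | cons b p ih => simp [mulu, ih]; ring

def smul2 (c : Int) : List (List Int) → List (List Int)
  | [] => []
  | b :: p => smul c b :: smul2 c p

@[simp] theorem ev2_smul (c : Int) (p : List (List Int)) (x u : ℝ) :
    ev2 (smul2 c p) x u = c * ev2 p x u := by
  induction p with
  | nil => simp [smul2]
  | cons b p ih => simp [smul2, ih]; ring

def mul2 : List (List Int) → List (List Int) → List (List Int)
  | [], _ => []
  | a :: p, q => add2 (mulu a q) ([] :: mul2 p q)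

@[simp] theorem ev2_mul (p q : List (List Int)) (x u : ℝ) :
    ev2 (mul2 p q) x u = ev2 p x u * ev2 q x u := by
  induction p with
  | nil => simp [mul2]
  | cons a p ih => simp [mul2, ih]; ring

/-- apply `P(θ)` levelwise -/
def PthU2 : List (List Int) → List (List Int)
  | [] => []
  | a :: p => PthU a :: PthU2 p

/-- the first `k` coefficients vanish -/
def van : ℕ → List Int → Bool
  | 0, _ => true
  | _ + 1, [] => true
  | k + 1, a :: p => decide (a = 0) && van k p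


theorem abs_ev_le_pow (k : ℕ) (p : List Int) (hv : van k p = true) {u : ℝ} (h0 : 0 ≤ u)
    (h1 : u ≤ 1) : |ev p u| ≤ u ^ k * l1 p := by
  induction k generalizing p with
  | zero => simpa using abs_ev_le p (abs_le.2 ⟨by linarith, h1⟩)
  | succ k ih =>
    cases p with
    | nil => simp [l1]
    | cons a p =>
      simp only [van, Bool.and_eq_true, decide_eq_true_eq] at hv
      have := ih p hv.2
      simp only [ev_cons, hv.1, l1, Int.cast_zero, zero_add, Int.natAbs_zero]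
      rw [abs_mul, abs_of_nonneg h0, pow_succ]
      calc u * |ev p u| ≤ u * (u ^ k * l1 p) := by gcongr
        _ = u ^ k * u * l1 p := by ring


/-- all levels start with `k` zeros -/
def van2 (k : ℕ) : List (List Int) → Bool
  | [] => true
  | a :: L => van k a && van2 k L

/-- `∑ X^l l1 L_l` -/
def n1 (X : ℕ) : List (List Int) → ℕ
  | [] => 0
  | a :: L => l1 a + X * n1 X L


end Crest.Agent.R213.E.C
private theorem rz_88e9c2cba9 : type_of% @_root_.Crest.Agent.R213.E.C.PthU2.eq_def := @_root_.Crest.Agent.R213.E.C.PthU2.eq_def -- L129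
private theorem rz_86fedf579c : type_of% @_root_.Crest.Agent.R213.E.C.PthU2.eq_1 := @_root_.Crest.Agent.R213.E.C.PthU2.eq_1 -- L129
private theorem rz_fd4ba0c8a5 : type_of% @_root_.Crest.Agent.R213.E.C.add2.eq_def := @_root_.Crest.Agent.R213.E.C.add2.eq_def -- L83
private theorem rz_714da56b4d : type_of% @_root_.Crest.Agent.R213.E.C.add2.eq_1 := @_root_.Crest.Agent.R213.E.C.add2.eq_1 -- L83
private theorem rz_62343195d1 : type_of% @_root_.Crest.Agent.R213.E.C.mul2.eq_def := @_root_.Crest.Agent.R213.E.C.mul2.eq_def -- L118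
private theorem rz_aede1d49a8 : type_of% @_root_.Crest.Agent.R213.E.C.mul2.eq_1 := @_root_.Crest.Agent.R213.E.C.mul2.eq_1 -- L118
private theorem rz_4acf555911 : type_of% @_root_.Crest.Agent.R213.E.C.mulu.eq_def := @_root_.Crest.Agent.R213.E.C.mulu.eq_def -- L98
private theorem rz_9aa3ee564a : type_of% @_root_.Crest.Agent.R213.E.C.mulu.eq_1 := @_root_.Crest.Agent.R213.E.C.mulu.eq_1 -- L98
private theorem rz_ce985d3164 : type_of% @_root_.Crest.Agent.R213.E.C.n1.eq_def := @_root_.Crest.Agent.R213.E.C.n1.eq_def -- L186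
private theorem rz_e0dd5fd814 : type_of% @_root_.Crest.Agent.R213.E.C.n1.eq_1 := @_root_.Crest.Agent.R213.E.C.n1.eq_1 -- L186
private theorem rz_ec24f31712 : type_of% @_root_.Crest.Agent.R213.E.C.scA.eq_def := @_root_.Crest.Agent.R213.E.C.scA.eq_def -- L17
private theorem rz_5a75c7c427 : type_of% @_root_.Crest.Agent.R213.E.C.scA.eq_1 := @_root_.Crest.Agent.R213.E.C.scA.eq_1 -- L17
private theorem rz_cbde8bb8aa : type_of% @_root_.Crest.Agent.R213.E.C.scn.eq_def := @_root_.Crest.Agent.R213.E.C.scn.eq_def -- L31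
private theorem rz_220cbc19e1 : type_of% @_root_.Crest.Agent.R213.E.C.scn.eq_1 := @_root_.Crest.Agent.R213.E.C.scn.eq_1 -- L31
private theorem rz_ce080e1953 : type_of% @_root_.Crest.Agent.R213.E.C.smul2.eq_def := @_root_.Crest.Agent.R213.E.C.smul2.eq_def -- L108
private theorem rz_d9a71f6df0 : type_of% @_root_.Crest.Agent.R213.E.C.smul2.eq_1 := @_root_.Crest.Agent.R213.E.C.smul2.eq_1 -- L108
private theorem rz_e7e5e01e89 : type_of% @_root_.Crest.Agent.R213.E.C.van.eq_def := @_root_.Crest.Agent.R213.E.C.van.eq_def -- L134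
private theorem rz_3ef5100728 : type_of% @_root_.Crest.Agent.R213.E.C.van.eq_1 := @_root_.Crest.Agent.R213.E.C.van.eq_1 -- L134
private theorem rz_38c2779681 : type_of% @_root_.Crest.Agent.R213.E.C.van2.eq_def := @_root_.Crest.Agent.R213.E.C.van2.eq_def -- L181
private theorem rz_b7651ab2f6 : type_of% @_root_.Crest.Agent.R213.E.C.van2.eq_1 := @_root_.Crest.Agent.R213.E.C.van2.eq_1 -- L181
end

-- ▼ part R213/E/CTail

/-!
# Row 213, part E, certificate: the tail `y > 128` (helper472)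

`x = c - c0`, `c0 = N/2^m`, `u = 128²/y²`.  On the tail `G c y = ev2 L x u / 2^S`, `S = 7m+42+s`.
-/

set_option autoImplicit false

open Set

namespace Crest.Agent.R213.E.C

/-- `2^m c` as a polynomial in `x = c - c0` -/
def ccL (m : ℕ) (N : Int) : List (List Int) := [[N], [2 ^ m]]

def B1L (m : ℕ) (N : Int) : List (List Int) :=
  smul2 (-180) (mul2 (mul2 (ccL m N) (ccL m N)) (add2 [[2 ^ m]] (smul2 (-1) (ccL m N))))

def B2L (m : ℕ) (N : Int) : List (List Int) :=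
  smul2 (-1) (mul2 (mul2 (ccL m N) (B1L m N)) (add2 [[180 * 2 ^ m]] (smul2 (-516) (ccL m N))))

def B3L (m : ℕ) (N : Int) : List (List Int) :=
  smul2 (-1) (mul2 (ccL m N) (add2 (mul2 (B2L m N) (add2 [[180 * 2 ^ m]] (smul2 (-480) (ccL m N))))
    (smul2 (-336) (mul2 (B1L m N) (B1L m N)))))

/-- `2^(7m+42+s) S3 c y` -/
def S3L (m s : ℕ) (N : Int) : List (List Int) :=
  add2 (smul2 (2 ^ (6 * m + (42 + s))) (ccL m N)) (add2 (mulu [0, 2 ^ (4 * m + (28 + s))] (B1L m N))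
    (add2 (mulu [0, 0, 2 ^ (2 * m + (14 + s))] (B2L m N)) (mulu [0, 0, 0, 2 ^ s] (B3L m N))))

theorem ccL_ev (m : ℕ) (N : Int) {x c u : ℝ} (hc : c = N / 2 ^ m + x) :
    ev2 (ccL m N) x u = c * 2 ^ m := by
  have hm : (2 : ℝ) ^ m ≠ 0 := pow_ne_zero _ two_ne_zero
  simp only [ccL, ev2_cons, ev_cons, ev_nil, ev2_nil]
  push_cast
  rw [hc]
  field_simp
  ring

theorem S3L_ev (m s : ℕ) (N : Int) {x c y u : ℝ} (hc : c = N / 2 ^ m + x) (hy : y ≠ 0)
    (hu : u = 128 ^ 2 / y ^ 2) : S3 c y = ev2 (S3L m s N) x u / 2 ^ (7 * m + (42 + s)) := by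
  have e1 := ccL_ev m N hc (u := u)
  have e2 : ev2 (B1L m N) x u = b1 c * 2 ^ (3 * m) := by
    simp only [B1L, ev2_smul, ev2_mul, ev2_add, e1, ev2_cons, ev_cons, ev_nil, ev2_nil, b1]
    push_cast
    ring
  have e3 : ev2 (B2L m N) x u = b2 c * 2 ^ (5 * m) := by
    simp only [B2L, ev2_smul, ev2_mul, ev2_add, e1, e2, ev2_cons, ev_cons, ev_nil, ev2_nil, b2]
    push_cast
    ring
  have e4 : ev2 (B3L m N) x u = b3 c * 2 ^ (7 * m) := by
    simp only [B3L, ev2_smul, ev2_mul, ev2_add, e1, e2, e3, ev2_cons, ev_cons, ev_nil, ev2_nil, b3]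
    push_cast
    ring
  simp only [S3L, ev2_add, ev2_smul, ev2_mulu, e1, e2, e3, e4, ev_cons, ev_nil, S3]
  have hz : u = 128 ^ 2 * (y⁻¹) ^ 2 := by rw [hu]; field_simp
  have hp : (2 : ℝ) ^ (7 * m + (42 + s)) ≠ 0 := pow_ne_zero _ two_ne_zero
  rw [eq_div_iff hp, hz]
  have i1 : b1 c / y ^ 2 = b1 c * (y⁻¹) ^ 2 := by field_simp
  have i2 : b2 c / y ^ 4 = b2 c * (y⁻¹) ^ 4 := by field_simp
  have i3 : b3 c / y ^ 6 = b3 c * (y⁻¹) ^ 6 := by field_simp
  rw [i1, i2, i3]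
  push_cast
  have q : ∀ k j : ℕ, (2 : ℝ) ^ (k * m + (j + s)) = (2 ^ m) ^ k * (2 ^ j * 2 ^ s) := by
    intro k j; rw [pow_add, pow_mul', pow_add]
  have q' : ∀ k : ℕ, (2 : ℝ) ^ (k * m) = (2 ^ m) ^ k := fun k => pow_mul' 2 k m
  simp only [q, q']
  ring

/-- `(1-u^6)^4` -/
def WL : List Int := [1, 0, 0, 0, 0, 0, -4, 0, 0, 0, 0, 0, 6, 0, 0, 0, 0, 0, -4, 0, 0, 0, 0, 0, 1]

/-- levels `≥ 2` of the family -/
def EL (m s : ℕ) (N : Int) : List (List Int) := mulu WL ((S3L m s N).drop 2)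

/-- the family of tail polynomials, level by level in `x` -/
def famL (m s : ℕ) (N : Int) (A0 A1 : List Int) : List (List Int) := A0 :: A1 :: EL m s N

/-- `r`-th derivative (times `y^r`) levelwise -/
def scn2 (r : ℕ) : List (List Int) → List (List Int)
  | [] => []
  | a :: L => scn r a :: scn2 r L

/-- the tail function and its derivatives -/
noncomputable def tl2 (Y : ℝ) (S : ℕ) : List (List Int) → ℝ → ℕ → ℝ → ℝ
  | [], _, _, _ => 0
  | a :: L, x, r, y => tl Y S a r y + x * tl2 Y S L x r y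

theorem tl2_eq (Y : ℝ) (S : ℕ) (L : List (List Int)) (x : ℝ) (r : ℕ) (y : ℝ) :
    tl2 Y S L x r y = ev2 (scn2 r L) x (Y ^ 2 / y ^ 2) / 2 ^ S / y ^ r := by
  induction L with
  | nil => simp [tl2, scn2]
  | cons a L ih =>
    simp only [tl2, ih, scn2, ev2_cons, tl]
    ring

theorem scn2_zero (L : List (List Int)) : scn2 0 L = L := by
  induction L with
  | nil => rfl
  | cons a L ih => simp [scn2, scn, ih]

theorem hasDerivAt_tl2 (Y : ℝ) (S : ℕ) (L : List (List Int)) (x : ℝ) (r : ℕ) {y : ℝ}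
    (hy : y ≠ 0) : HasDerivAt (tl2 Y S L x r) (tl2 Y S L x (r + 1) y) y := by
  induction L with
  | nil => exact hasDerivAt_const y (0 : ℝ)
  | cons a L ih => exact (hasDerivAt_tl Y S a r hy).add (ih.const_mul x)

theorem PthU2_tl (Y : ℝ) (S : ℕ) (L : List (List Int)) (x : ℝ) {y : ℝ} (hy : y ≠ 0) :
    y ^ 3 * tl2 Y S L x 3 y + 21 * y ^ 2 * tl2 Y S L x 2 y + 90 * y * tl2 Y S L x 1 y
      - 90 * tl2 Y S L x 0 y = ev2 (PthU2 L) x (Y ^ 2 / y ^ 2) / 2 ^ S := by
  induction L with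
  | nil => simp [tl2, PthU2]
  | cons a L ih =>
    have h := PthU_tl Y S a hy
    simp only [tl2, PthU2, ev2_cons]
    rw [add_div, mul_div_assoc, ← ih, ← h]
    ring

/-- numerator of the residual -/
def numL (m S : ℕ) (N : Int) (L : List (List Int)) : List (List Int) :=
  add2 (mul2 (mul2 (ccL m N) (mulu [0, 1] L)) (add2 [[90 * 2 ^ S]] (PthU2 L)))
    (add2 (smul2 (2 ^ (m + S + 13)) L) (smul2 (-(2 ^ (2 * S + 13))) (ccL m N)))

/-- `resid` on the tail -/
theorem resid_tail (m S : ℕ) (N : Int) (L : List (List Int)) {x c y u : ℝ}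
    (hc : c = N / 2 ^ m + x) (hy : 0 < y) (hu : u = 128 ^ 2 / y ^ 2) (hc0 : c ≠ 0)
    (hG : tl2 128 S L x 0 y ≠ 0) :
    resid c y (tl2 128 S L x 0 y) (tl2 128 S L x 1 y)
      (tl2 128 S L x 2 y) (tl2 128 S L x 3 y) =
    ev2 (numL m S N L) x u / 2 ^ (m + 2 * S) /
      (c * tl2 128 S L x 0 y * u) := by
  have hy0 : y ≠ 0 := hy.ne'
  have hu0 : u ≠ 0 := by rw [hu]; positivity
  have hyu : y ^ 2 = 128 ^ 2 / u := by rw [hu]; field_simp
  have e1 := ccL_ev m N hc (u := u)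
  set g := tl2 128 S L x 0 y with hg
  have e0 : ev2 L x u = g * 2 ^ S := by
    rw [hg, tl2_eq, scn2_zero, hu]; field_simp
  have hP := PthU2_tl 128 S L x hy0
  rw [← hg, ← hu] at hP
  have eP : ev2 (PthU2 L) x u = (y ^ 3 * tl2 128 S L x 3 y + 21 * y ^ 2 * tl2 128 S L x 2 y
      + 90 * y * tl2 128 S L x 1 y - 90 * g) * 2 ^ S := by
    rw [hP]; field_simp
  simp only [numL, ev2_add, ev2_mul, ev2_mulu, ev2_smul, e1, e0, eP, ev2_cons, ev2_nil, ev_cons,
    ev_nil]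
  simp only [resid]
  rw [hyu]
  have p1 : (2 : ℝ) ^ (m + S + 13) = 2 ^ m * 2 ^ S * 8192 := by rw [pow_add, pow_add]; norm_num
  have p2 : (2 : ℝ) ^ (2 * S + 13) = 2 ^ S * 2 ^ S * 8192 := by rw [pow_add, two_mul, pow_add]; norm_num
  have p3 : (2 : ℝ) ^ (m + 2 * S) = 2 ^ m * (2 ^ S * 2 ^ S) := by rw [pow_add, two_mul, pow_add]
  push_cast
  rw [p1, p2, p3]
  field_simp
  ring

/-- `∑ l1 L_l / 2^(d l)` (rounded up) -/
def nq (d : ℕ) : List (List Int) → ℕ
  | [] => 0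
  | a :: L => l1 a + (nq d L / 2 ^ d + 1)

theorem abs_ev2_le_q (k d : ℕ) (L : List (List Int)) (hv : van2 k L = true) {x u : ℝ}
    (hx : |x| ≤ 1 / 2 ^ d) (h0 : 0 ≤ u) (h1 : u ≤ 1) : |ev2 L x u| ≤ u ^ k * nq d L := by
  induction L with
  | nil => simp [nq]
  | cons a L ih =>
    simp only [van2, Bool.and_eq_true] at hv
    have h2 := abs_ev_le_pow k a hv.1 h0 h1
    have h3 := ih hv.2
    have hd : (0 : ℝ) < 2 ^ d := pow_pos two_pos d
    have h4 : (nq d L : ℝ) / 2 ^ d ≤ ((nq d L / 2 ^ d + 1 : ℕ) : ℝ) := by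
      have h5 : nq d L < (nq d L / 2 ^ d + 1) * 2 ^ d :=
        Nat.lt_mul_of_div_lt (Nat.lt_succ_self _) (pow_pos two_pos d)
      have h6 : (nq d L : ℝ) < ((nq d L / 2 ^ d + 1 : ℕ) : ℝ) * 2 ^ d := by
        have := (Nat.cast_lt (α := ℝ)).2 h5
        rwa [Nat.cast_mul, Nat.cast_pow, Nat.cast_ofNat] at this
      rw [div_le_iff₀ hd]
      exact h6.le
    simp only [ev2_cons]
    have e : nq d (a :: L) = l1 a + (nq d L / 2 ^ d + 1) := rfl
    calc |ev a u + x * ev2 L x u| ≤ |ev a u| + |x * ev2 L x u| := abs_add_le _ _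
      _ ≤ u ^ k * l1 a + 1 / 2 ^ d * (u ^ k * nq d L) := by rw [abs_mul]; gcongr
      _ = u ^ k * (l1 a + nq d L / 2 ^ d) := by ring
      _ ≤ u ^ k * nq d (a :: L) := by
        apply mul_le_mul_of_nonneg_left _ (pow_nonneg h0 k)
        rw [e, Nat.cast_add]
        exact add_le_add le_rfl h4

theorem ev_drop (k : ℕ) (p : List Int) (hv : van k p = true) (u : ℝ) :
    ev p u = u ^ k * ev (p.drop k) u := by
  induction k generalizing p with
  | zero => simp
  | succ k ih =>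
    cases p with
    | nil => simp
    | cons a p =>
      simp only [van, Bool.and_eq_true, decide_eq_true_eq] at hv
      rw [ev_cons, ih p hv.2, List.drop_succ_cons, hv.1]
      push_cast
      ring




/-- `∑ b_l / 2^(d l)` rounded up -/
def nb (d : ℕ) : List ℕ → ℕ
  | [] => 0
  | b :: bs => b + (nb d bs / 2 ^ d + 1)


/-- distance to the leading coefficient -/
theorem ev2_near (d : ℕ) (a : Int) (A : List Int) (L : List (List Int)) {x u : ℝ}
    (hv : van2 0 L = true) (hx : |x| ≤ 1 / 2 ^ d) (h0 : 0 ≤ u) (h1 : u ≤ 1) :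
    |ev2 ((a :: A) :: L) x u - a| ≤ ((l1 A + (nq d L / 2 ^ d + 1) : ℕ) : ℝ) := by
  have hu : |u| ≤ 1 := abs_le.2 ⟨by linarith, h1⟩
  have h2 := mul_ev_abs_le A hu
  have h3 := abs_ev2_le_q 0 d L hv hx h0 h1
  rw [pow_zero, one_mul] at h3
  have hd : (0 : ℝ) < 2 ^ d := pow_pos two_pos d
  have h4 : |x * ev2 L x u| ≤ ((nq d L / 2 ^ d + 1 : ℕ) : ℝ) := by
    have h5 : nq d L < (nq d L / 2 ^ d + 1) * 2 ^ d :=
      Nat.lt_mul_of_div_lt (Nat.lt_succ_self _) (pow_pos two_pos d)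
    have h6 : (nq d L : ℝ) < ((nq d L / 2 ^ d + 1 : ℕ) : ℝ) * 2 ^ d := by
      have := (Nat.cast_lt (α := ℝ)).2 h5
      rwa [Nat.cast_mul, Nat.cast_pow, Nat.cast_ofNat] at this
    rw [abs_mul]
    calc |x| * |ev2 L x u| ≤ 1 / 2 ^ d * nq d L := by gcongr
      _ = nq d L / 2 ^ d := by ring
      _ ≤ ((nq d L / 2 ^ d + 1 : ℕ) : ℝ) := by
        rw [div_le_iff₀ hd]; exact h6.le
  rw [ev2_cons, ev_cons]
  have e : (a : ℝ) + u * ev A u + x * ev2 L x u - a = u * ev A u + x * ev2 L x u := by ring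
  rw [e, Nat.cast_add]
  exact (abs_add_le _ _).trans (add_le_add h2 h4)

theorem van2_zero (L : List (List Int)) : van2 0 L = true := by
  induction L with
  | nil => rfl
  | cons a L ih => simp [van2, van, ih]

theorem cast_le_pow {k S : ℕ} (h : k ≤ 2 ^ S) : (k : ℝ) ≤ 2 ^ S := by
  have := (Nat.cast_le (α := ℝ)).2 h
  rwa [Nat.cast_pow, Nat.cast_ofNat] at this


/-- the facts contained in `tailB` -/
structure TailOK (m s S : ℕ) (N : Int) (A0 A1 : List Int) (d t t2 : ℕ) : Prop where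
  S_eq : S = 7 * m + (42 + s)
  res : ∀ x u : ℝ, |x| ≤ 1 / 2 ^ d → 0 ≤ u → u ≤ 1 →
    |ev2 (numL m S N (famL m s N A0 A1)) x u| ≤ u ^ 4 * (2 ^ (m + 2 * S) * (7 / (2 * 10 ^ t)))
  ser : ∃ C : ℝ, ∀ x u : ℝ, |x| ≤ 1 / 2 ^ d → 0 ≤ u → u ≤ 1 →
    |ev2 (famL m s N A0 A1) x u - ev2 (S3L m s N) x u| ≤ u ^ 4 * C
  near : ∀ x u : ℝ, |x| ≤ 1 / 2 ^ d → 0 ≤ u → u ≤ 1 →
    |ev2 (famL m s N A0 A1) x u - N / 2 ^ m * 2 ^ S| ≤ 2 ^ S / 500
  close : ∀ x u : ℝ, |x| ≤ 1 / 2 ^ d → 0 ≤ u → u ≤ 1 →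
    |ev2 (famL m s N A0 A1) x u - ev2 (famL m s N A0 A1) 0 u| ≤ 2 ^ S / 2 ^ t2


section
variable {m s S : ℕ} {N : Int} {A0 A1 : List Int} {d t t2 : ℕ} {x c y u : ℝ}

theorem tail_u (hy : 128 ≤ y) : 0 < (128 : ℝ) ^ 2 / y ^ 2 ∧ (128 : ℝ) ^ 2 / y ^ 2 ≤ 1 := by
  have hy0 : 0 < y := by linarith
  refine ⟨by positivity, ?_⟩
  rw [div_le_one (by positivity)]
  exact pow_le_pow_left₀ (by norm_num) hy 2

/-- closeness of `G` to `c0` on the tail -/
theorem tail_near (h : TailOK m s S N A0 A1 d t t2) (hx : |x| ≤ 1 / 2 ^ d) (hy : 128 ≤ y) :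
    |tl2 128 S (famL m s N A0 A1) x 0 y - N / 2 ^ m| ≤ 1 / 500 := by
  obtain ⟨hu0, hu1⟩ := tail_u hy
  have h6 := h.near x _ hx hu0.le hu1
  rw [tl2_eq, scn2_zero, pow_zero, div_one]
  have hp : (0 : ℝ) < 2 ^ S := pow_pos two_pos S
  have e : (N : ℝ) / 2 ^ m = N / 2 ^ m * 2 ^ S / 2 ^ S := by field_simp
  rw [e, ← sub_div, abs_div, abs_of_pos hp, div_le_iff₀ hp]
  refine h6.trans (le_of_eq ?_)
  ring

/-- closeness of `G c` to `G c0` on the tail -/
theorem tail_close (h : TailOK m s S N A0 A1 d t t2) (hx : |x| ≤ 1 / 2 ^ d) (hy : 128 ≤ y) :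
    |tl2 128 S (famL m s N A0 A1) x 0 y - tl2 128 S (famL m s N A0 A1) 0 0 y| ≤ 1 / 2 ^ t2 := by
  obtain ⟨hu0, hu1⟩ := tail_u hy
  have h6 := h.close x _ hx hu0.le hu1
  rw [tl2_eq, tl2_eq, scn2_zero, pow_zero, div_one, div_one, ← sub_div]
  have hp : (0 : ℝ) < 2 ^ S := pow_pos two_pos S
  rw [abs_div, abs_of_pos hp, div_le_iff₀ hp]
  refine h6.trans (le_of_eq ?_)
  ring

/-- distance to the exact series -/
theorem tail_S3 (h : TailOK m s S N A0 A1 d t t2) : ∃ C : ℝ, ∀ x c y : ℝ, |x| ≤ 1 / 2 ^ d →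
    128 ≤ y → c = N / 2 ^ m + x → |tl2 128 S (famL m s N A0 A1) x 0 y - S3 c y| ≤ C / y ^ 8 := by
  obtain ⟨C, hC⟩ := h.ser
  refine ⟨128 ^ 8 * C / 2 ^ S, ?_⟩
  intro x c y hx hy hc
  have hy0 : 0 < y := by linarith
  obtain ⟨hu0, hu1⟩ := tail_u hy
  have h4 := hC x _ hx hu0.le hu1
  rw [S3L_ev m s N hc hy0.ne' rfl, tl2_eq, scn2_zero, pow_zero, div_one, ← h.S_eq, ← sub_div]
  have hp : (0 : ℝ) < 2 ^ S := pow_pos two_pos S
  rw [abs_div, abs_of_pos hp, div_le_iff₀ hp]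
  refine h4.trans (le_of_eq ?_)
  field_simp

/-- the residual on the tail -/
theorem tail_resid (h : TailOK m s S N A0 A1 d t t2) (hx : |x| ≤ 1 / 2 ^ d) (hy : 128 ≤ y)
    (hc : c = N / 2 ^ m + x) (hN1 : 713 / 1000 ≤ (N : ℝ) / 2 ^ m) (hc1 : 7133 / 10000 ≤ c) :
    |resid c y (tl2 128 S (famL m s N A0 A1) x 0 y)
      (tl2 128 S (famL m s N A0 A1) x 1 y) (tl2 128 S (famL m s N A0 A1) x 2 y)
      (tl2 128 S (famL m s N A0 A1) x 3 y)| ≤ 7 / 10 ^ t * (128 / y) ^ 6 := by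
  have hG := tail_near h hx hy
  have hy0 : 0 < y := by linarith
  obtain ⟨hu0, hu1⟩ := tail_u hy
  have h3 := h.res x _ hx hu0.le hu1
  set u : ℝ := (128 : ℝ) ^ 2 / y ^ 2 with hu
  have hG1 : 7 / 10 ≤ tl2 128 S (famL m s N A0 A1) x 0 y := by linarith [(abs_le.1 hG).1]
  have hG0 : tl2 128 S (famL m s N A0 A1) x 0 y ≠ 0 := by linarith
  have key := resid_tail m S N (famL m s N A0 A1) hc hy0 hu (by linarith) hG0
  rw [key]
  set G := tl2 128 S (famL m s N A0 A1) x 0 y with hGdef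
  have hp : (0 : ℝ) < 2 ^ (m + 2 * S) := pow_pos two_pos _
  have hG2 : 701 / 1000 ≤ G := by linarith [(abs_le.1 hG).1]
  have hcG : 1 / 2 * u ≤ c * G * u := by
    apply mul_le_mul_of_nonneg_right _ hu0.le
    nlinarith
  have hcG0 : 0 < c * G * u := by linarith
  rw [abs_div, abs_of_pos hcG0, abs_div, abs_of_pos hp, div_le_iff₀ hcG0, div_le_iff₀ hp]
  refine h3.trans ?_
  have ht : (0 : ℝ) < 10 ^ t := pow_pos (by norm_num) t
  have hu3 : (128 / y) ^ 6 = u ^ 3 := by rw [hu]; field_simp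
  rw [hu3]
  generalize (2 : ℝ) ^ (m + 2 * S) = Q at hp ⊢
  generalize (10 : ℝ) ^ t = T at ht ⊢
  generalize hW : c * G * u = W at hcG hcG0 ⊢
  have h9 : u ^ 4 * (Q * (7 / (2 * T))) = 7 / T * u ^ 3 * Q * (1 / 2 * u) := by field_simp
  have h10 : 7 / T * u ^ 3 * W * Q = 7 / T * u ^ 3 * Q * W := by ring
  rw [h9, h10]
  exact mul_le_mul_of_nonneg_left hcG (by positivity)

end

end Crest.Agent.R213.E.C
private theorem rz_de21ea8f28 : type_of% @_root_.Crest.Agent.R213.E.C.nq.eq_def := @_root_.Crest.Agent.R213.E.C.nq.eq_def -- L161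
private theorem rz_1695b2c15a : type_of% @_root_.Crest.Agent.R213.E.C.nq.eq_1 := @_root_.Crest.Agent.R213.E.C.nq.eq_1 -- L161
private theorem rz_595eedf41b : type_of% @_root_.Crest.Agent.R213.E.C.scn2.eq_def := @_root_.Crest.Agent.R213.E.C.scn2.eq_def -- L84
private theorem rz_40b9fa365c : type_of% @_root_.Crest.Agent.R213.E.C.scn2.eq_1 := @_root_.Crest.Agent.R213.E.C.scn2.eq_1 -- L84
private theorem rz_757aea623e : type_of% @_root_.Crest.Agent.R213.E.C.tl2.eq_def := @_root_.Crest.Agent.R213.E.C.tl2.eq_def -- L89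
private theorem rz_845a760d66 : type_of% @_root_.Crest.Agent.R213.E.C.tl2.eq_1 := @_root_.Crest.Agent.R213.E.C.tl2.eq_1 -- L89
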