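import Crest.Agent.R213.E.CertData
import Crest.Agent.R213.E.EDefs
import Crest.Agent.R213.E.PsiMain
import Crest.Agent.R213.E.CFam

-- ▼ part R213/E/CertCst
section

/-!
# Row 213, part E, E-CERT: the constants of the certificate (helper49; decision of helper9)
-/

set_option autoImplicit false

noncomputable section

namespace Crest.Agent.R213.E

/-- the constants of the certificate -/
def cst : Cst where
  c0 := (C.C0 : ℝ) / 2 ^ 60
  δ := 1 / 2 ^ 26
  b := 4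
  n1 := 200 / 9
  cq := 1 / 4
  Cq := 143 / 100
  η := 1 / 100
  M := 23 / 10
  m := 1 / 2000
  ρ := 1 / 5000
  ε := 2 / 10 ^ 8
  Y := 16
  K1 := 207 / 100
  K2 := 65 / 1000
  K := 3 / 4

theorem cst_small : (cst.η * cst.K1 + cst.K2) * (cst.M / (1 - cst.η)) < cst.K := by
  norm_num [cst]

theorem cst_close : (2 / 7 * cst.Cq * (cst.M / (1 - cst.η)) / 66 + cst.ρ) / 40 + cst.ε / 16
    ≤ cst.m := by
  norm_num [cst]

theorem cst_lo : 7 / 10 ≤ cst.c0 - cst.δ := by norm_num [cst, C.C0]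
theorem cst_hi : cst.c0 + cst.δ ≤ 3 / 4 := by norm_num [cst, C.C0]

end Crest.Agent.R213.E
end
end

-- ▼ part R213/E/CertBd
section

/-!
# Row 213, part E, E-CERT: elementary bounds of the base profiles (helper49)

From the cell facts (`gl4/10⁴ ≤ g0 ≤ gh4/10⁴`, `|k| ≤ kb3/10³` on `(a,b]`) and the tail facts.
-/

set_option autoImplicit false

open Set

namespace Crest.Agent.R213.E.C

theorem bd_all : cells.all (fun c => decide (1700 ≤ c.gl4) && decide (c.gh4 ≤ 10100)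
    && decide (c.kb3 ≤ 9000)) = true := by decide +kernel


/-- cells beyond `2`: `a (gl - m - …) ≥ 4/3`. -/
theorem bd_rest : cells.all (fun c => decide (c.M = 1 ∧ c.H = 8 ∧ 7400 ≤ c.gl4) ||
    decide (320000 ≤ 3 * (c.H * (c.M - 1)) * (c.gl4 - 6) ∧ 16 ≤ c.H * (c.M - 1) ∧ 1 ≤ c.M)) = true := by
  decide +kernel

/-- facts on one cell. -/
def Fact (g k : ℝ → ℝ) (c : Cell) (y : ℝ) : Prop :=
  c.gP.a KE < y ∧ y ≤ c.gP.b KE ∧ (c.gl4 : ℝ) / 10 ^ 4 ≤ g y ∧ g y ≤ (c.gh4 : ℝ) / 10 ^ 4 ∧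
    |k y| ≤ (c.kb3 : ℝ) / 10 ^ 3

theorem gP_a (c : Cell) : c.gP.a KE = (c.H : ℝ) / 8 * ((c.M : ℝ) - 1) := by
  simp [Pc.a, Pc.h, Cell.gP, KE]; left; norm_num

theorem gP_b (c : Cell) : c.gP.b KE = (c.H : ℝ) / 8 * ((c.M : ℝ) + 1) := by
  simp [Pc.b, Pc.h, Cell.gP, KE]; left; norm_num

theorem fact_bounds {g k : ℝ → ℝ} {c : Cell} (hc : c ∈ cells) {y : ℝ} (h : Fact g k c y) {e : ℝ}
    (he : |e| ≤ 1 / 2 ^ 26) :
    169 / 1000 ≤ g y + e * k y ∧ g y + e * k y ≤ 11 / 10 ∧ |e * k y| ≤ 1 / 10 ^ 6 ∧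
      (y ≤ 2 → 7 / 10 ≤ g y + e * k y) ∧ (2 < y → 4 / 3 ≤ y * (g y + e * k y - 1 / 2000)) := by
  obtain ⟨ha, hb, h1, h2, h3⟩ := h
  have hA := List.all_eq_true.1 bd_all c hc
  have hR := List.all_eq_true.1 bd_rest c hc
  simp only [Bool.and_eq_true, decide_eq_true_eq] at hA
  simp only [Bool.or_eq_true, decide_eq_true_eq] at hR
  obtain ⟨⟨g1, g2⟩, k1⟩ := hA
  have g1' : (1700 : ℝ) ≤ c.gl4 := by exact_mod_cast g1
  have g2' : (c.gh4 : ℝ) ≤ 10100 := by exact_mod_cast g2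
  have k1' : (c.kb3 : ℝ) ≤ 9000 := by exact_mod_cast k1
  have hek : |e * k y| ≤ 1 / 10 ^ 6 := by
    rw [abs_mul]
    have h4 : |k y| ≤ 9 := by
      refine h3.trans ?_
      rw [div_le_iff₀ (by norm_num)]; norm_num; linarith
    calc |e| * |k y| ≤ 1 / 2 ^ 26 * 9 := by gcongr
      _ ≤ 1 / 10 ^ 6 := by norm_num
  obtain ⟨e1, e2⟩ := abs_le.1 hek
  have hgl : (1700 : ℝ) / 10 ^ 4 ≤ g y := by
    refine le_trans ?_ h1; gcongr
  have hgh : g y ≤ 10100 / 10 ^ 4 := by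
    refine h2.trans ?_; gcongr
  refine ⟨by norm_num at *; linarith, by norm_num at *; linarith, hek, ?_, ?_⟩
  · intro hy
    rcases hR with hR | hR
    · have : (7400 : ℝ) ≤ c.gl4 := by exact_mod_cast hR.2.2
      have h5 : (7400 : ℝ) / 10 ^ 4 ≤ g y := by
        refine le_trans ?_ h1; gcongr
      norm_num at *; linarith
    · exfalso
      rw [gP_a] at ha
      have h6 : (16 : ℝ) ≤ c.H * ((c.M : ℝ) - 1) := by
        have := hR.2.1
        have h7 : ((16 : ℕ) : ℝ) ≤ ((c.H * (c.M - 1) : ℕ) : ℝ) := by exact_mod_cast this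
        rw [Nat.cast_mul, Nat.cast_sub hR.2.2] at h7
        push_cast at h7; exact h7
      nlinarith
  · intro hy
    rcases hR with hR | hR
    · exfalso
      rw [gP_b, hR.1, hR.2.1] at hb
      norm_num at hb; linarith
    · have h7 : (320000 : ℝ) ≤ 3 * (c.H * ((c.M : ℝ) - 1)) * ((c.gl4 : ℝ) - 6) := by
        have := hR.1
        have h7 : ((320000 : ℕ) : ℝ) ≤ ((3 * (c.H * (c.M - 1)) * (c.gl4 - 6) : ℕ) : ℝ) := by
          exact_mod_cast this
        rw [Nat.cast_mul, Nat.cast_mul, Nat.cast_mul, Nat.cast_sub hR.2.2,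
          Nat.cast_sub (by omega)] at h7
        push_cast at h7; exact h7
      rw [gP_a] at ha
      have hg6 : ((c.gl4 : ℝ) - 6) / 10 ^ 4 ≤ g y + e * k y - 1 / 2000 := by
        have : ((c.gl4 : ℝ) - 6) / 10 ^ 4 = (c.gl4 : ℝ) / 10 ^ 4 - 6 / 10 ^ 4 := by ring
        rw [this]; norm_num at *; linarith
      have h8 : 0 < ((c.gl4 : ℝ) - 6) / 10 ^ 4 := by
        apply div_pos _ (by norm_num); linarith
      have h9 : (c.H : ℝ) / 8 * ((c.M : ℝ) - 1) * (((c.gl4 : ℝ) - 6) / 10 ^ 4) ≤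
          y * (g y + e * k y - 1 / 2000) := by
        apply mul_le_mul ha.le hg6 h8.le (by linarith)
      refine le_trans ?_ h9
      have : (c.H : ℝ) / 8 * ((c.M : ℝ) - 1) * (((c.gl4 : ℝ) - 6) / 10 ^ 4)
        = (3 * (c.H * ((c.M : ℝ) - 1)) * ((c.gl4 : ℝ) - 6)) / 240000 := by ring
      rw [this, le_div_iff₀ (by norm_num)]
      linarith

end Crest.Agent.R213.E.C
end

-- ▼ part R213/E/StepData
section

/-!
# Row 213, part E, E-CERT: step data and weighted integrals (helper587)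

`b = 4`.  Cells `(0,2]`, then the list `l` of cells `(a, b]` (first `a = 2`), then the tail `y > Y`.
-/

set_option autoImplicit false

open Set MeasureTheory Filter Topology

noncomputable section

namespace Crest.Agent.R213.E.St

/-- one cell `(a, b]`, `a` = right end of the previous cell (first one: `2`):
`be ≤ bet0/y² + n`, `|resid| ≤ R`, `lo ≤ g0`, `|G c - G c0| ≤ dg`. -/
structure SC where
  b : ℚ
  be : ℚ
  R : ℚ
  lo : ℚ
  dg : ℚ

/-- all step data: zone `(0,2]`: `be0 ≤ bet0/y² + n`, `|resid| ≤ eps y²`, `lo0`, `dg0`;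
cells `l` of `(2,Y]`; tail `y > Y`: `p = cp/y³`, `|resid| ≤ Rt (Y/y)^6`, `lot`, `dgt`. -/
structure SD where
  be0 : ℚ
  eps : ℚ
  lo0 : ℚ
  dg0 : ℚ
  l : List SC
  Y : ℚ
  cp : ℚ
  Rt : ℚ
  lot : ℚ
  dgt : ℚ

/-- value on the first cell with `y ≤ b` -/
def pick (F : SC → ℚ) : List SC → ℝ → ℝ
  | [], _ => 0
  | c :: l, y => if y ≤ c.b then (F c : ℝ) else pick F l y

/-- the weight `p` -/
def SD.p (s : SD) (y : ℝ) : ℝ :=
  if y ≤ 2 then √(chi 4 y * s.be0)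
  else if y ≤ s.Y then √(chi 4 y * pick SC.be s.l y)
  else s.cp / y ^ 3

/-- the residual bound `R` -/
def SD.R (s : SD) (y : ℝ) : ℝ :=
  if y ≤ 2 then s.eps * y ^ 2
  else if y ≤ s.Y then pick SC.R s.l y
  else s.Rt * (s.Y / y) ^ 6

/-- right ends increase from `a` to `Y` -/
def ends : ℚ → List SC → ℚ → Bool
  | a, [], Y => decide (a = Y)
  | a, c :: l, Y => decide (a < c.b) && ends c.b l Y

/-- cells with their left ends -/
def cells : ℚ → List SC → List (ℚ × SC)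
  | _, [] => []
  | a, c :: l => (a, c) :: cells c.b l

lemma ends_le {a Y : ℚ} {l : List SC} (h : ends a l Y = true) : a ≤ Y := by
  induction l generalizing a with
  | nil => simp [ends] at h; exact h.le
  | cons c l ih => simp [ends] at h; have := ih h.2; exact h.1.le.trans this

lemma cells_lt {a Y : ℚ} {l : List SC} (h : ends a l Y = true) :
    ∀ q ∈ cells a l, a ≤ q.1 ∧ q.1 < q.2.b ∧ q.2.b ≤ Y := by
  induction l generalizing a with
  | nil => simp [cells]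
  | cons c l ih =>
    simp only [ends, Bool.and_eq_true, decide_eq_true_eq] at h
    intro q hq
    simp only [cells, List.mem_cons] at hq
    rcases hq with rfl | hq
    · exact ⟨le_rfl, h.1, ends_le h.2⟩
    · have := ih h.2 q hq
      exact ⟨h.1.le.trans this.1, this.2.1, this.2.2⟩

lemma exists_cell {a Y : ℚ} {l : List SC} (h : ends a l Y = true) {y : ℝ} (hy : a < y)
    (hy2 : y ≤ Y) :
    ∃ q ∈ cells a l, (q.1 : ℝ) < y ∧ y ≤ q.2.b ∧ ∀ F : SC → ℚ, pick F l y = F q.2 := by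
  induction l generalizing a with
  | nil => simp [ends] at h; subst h; exact absurd hy (not_lt.2 hy2)
  | cons c l ih =>
    simp only [ends, Bool.and_eq_true, decide_eq_true_eq] at h
    by_cases hc : y ≤ c.b
    · exact ⟨(a, c), by simp [cells], hy, hc, fun F => by simp [pick, hc]⟩
    · push Not at hc
      obtain ⟨q, hq, h1, h2, h3⟩ := ih h.2 hc
      exact ⟨q, by simp [cells, hq], h1, h2, fun F => by simp [pick, hc.not_ge, h3]⟩

/-- value of `pick` on a given cell -/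
lemma pick_cell {a Y : ℚ} {l : List SC} (h : ends a l Y = true) {q : ℚ × SC} (hq : q ∈ cells a l)
    {y : ℝ} (h1 : (q.1 : ℝ) < y) (h2 : y ≤ q.2.b) (F : SC → ℚ) : pick F l y = F q.2 := by
  induction l generalizing a with
  | nil => simp [cells] at hq
  | cons c l ih =>
    simp only [ends, Bool.and_eq_true, decide_eq_true_eq] at h
    simp only [cells, List.mem_cons] at hq
    rcases hq with rfl | hq
    · simp [pick, h2]
    · have h3 := (cells_lt h.2 q hq).1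
      have h4 : (c.b : ℝ) < y := lt_of_le_of_lt (by exact_mod_cast h3) h1
      simp only [pick, if_neg h4.not_ge]
      exact ih h.2 hq

lemma pick_measurable (F : SC → ℚ) (l : List SC) : Measurable (pick F l) := by
  induction l with
  | nil => exact measurable_const
  | cons c l ih => exact Measurable.ite measurableSet_Iic measurable_const ih

/-! ### the weight `χ` -/

lemma uu_eq (y : ℝ) : uu 4 y = 16 / (16 + y ^ 2) := by
  unfold uu
  have : (16 : ℝ) + y ^ 2 ≠ 0 := by positivity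
  field_simp
  ring

lemma uu_pos (y : ℝ) : 0 < uu 4 y := by rw [uu_eq]; positivity

lemma chi_pos (y : ℝ) : 0 < chi 4 y := pow_pos (uu_pos y) 3

lemma chi_le_one (y : ℝ) : chi 4 y ≤ 1 := by
  unfold chi
  apply pow_le_one₀ (uu_pos y).le
  rw [uu_eq, div_le_one (by positivity)]
  nlinarith [sq_nonneg y]

lemma uu_continuous : Continuous (uu 4) := by
  have : uu 4 = fun y => 16 / (16 + y ^ 2) := funext uu_eq
  rw [this]
  exact continuous_const.div (by fun_prop) (fun y => by positivity)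

lemma chi_continuous : Continuous (chi 4) := by
  unfold chi; exact uu_continuous.pow 3

lemma chi_anti {a y : ℝ} (ha : 0 ≤ a) (h : a ≤ y) : chi 4 y ≤ (16 / (16 + a ^ 2)) ^ 3 := by
  unfold chi
  rw [uu_eq]
  apply pow_le_pow_left₀ (by positivity)
  apply div_le_div_of_nonneg_left (by norm_num) (by positivity)
  nlinarith


/-- `χ y⁶` is increasing -/
lemma chi_pow6 {b y : ℝ} (hy : 0 < y) (h : y ≤ b) :
    chi 4 y * y ^ 6 ≤ (16 * b ^ 2 / (16 + b ^ 2)) ^ 3 := by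
  unfold chi
  rw [uu_eq]
  have e : (16 / (16 + y ^ 2)) ^ 3 * y ^ 6 = (16 * y ^ 2 / (16 + y ^ 2)) ^ 3 := by
    field_simp
  rw [e]
  apply pow_le_pow_left₀ (by positivity)
  rw [div_le_div_iff₀ (by positivity) (by positivity)]
  nlinarith [pow_le_pow_left₀ hy.le h 2]

lemma chi_pow6' {a y : ℝ} (ha : 0 ≤ a) (h : a ≤ y) :
    (16 * a ^ 2 / (16 + a ^ 2)) ^ 3 ≤ chi 4 y * y ^ 6 := by
  have e : (16 / (16 + y ^ 2)) ^ 3 * y ^ 6 = (16 * y ^ 2 / (16 + y ^ 2)) ^ 3 := by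
    field_simp
  unfold chi
  rw [uu_eq, e]
  apply pow_le_pow_left₀ (by positivity)
  rw [div_le_div_iff₀ (by positivity) (by positivity)]
  nlinarith [pow_le_pow_left₀ ha h 2]

lemma chi_pow6_lt (y : ℝ) : chi 4 y * y ^ 6 ≤ 4096 := by
  have e : (16 / (16 + y ^ 2)) ^ 3 * y ^ 6 = (16 * y ^ 2 / (16 + y ^ 2)) ^ 3 := by
    field_simp
  unfold chi
  rw [uu_eq, e]
  have : 16 * y ^ 2 / (16 + y ^ 2) ≤ 16 := by
    rw [div_le_iff₀ (by positivity)]; nlinarith [sq_nonneg y]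
  calc (16 * y ^ 2 / (16 + y ^ 2)) ^ 3 ≤ 16 ^ 3 := pow_le_pow_left₀ (by positivity) this 3
    _ = 4096 := by norm_num



/-! ### checks -/

/-- rational upper bound of `∫ χ y^16` over the cell `(a,b]` -/
def IB (a b : ℚ) : ℚ :=
  min ((16 / (16 + a ^ 2)) ^ 3 * ((b ^ 17 - a ^ 17) / 17))
    ((16 * b ^ 2 / (16 + b ^ 2)) ^ 3 * ((b ^ 11 - a ^ 11) / 11))

/-- sum of the cell contributions to `M²` -/
def sumB : ℚ → List SC → ℚ
  | _, [] => 0
  | a, c :: l => c.R ^ 2 / c.be * IB a c.b + sumB c.b l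

/-- upper bound of `∫ (χ/p y^8 R)²` -/
def SD.M2 (s : SD) : ℚ :=
  s.eps ^ 2 / s.be0 * (2 ^ 21 / 21) + sumB 2 s.l
    + (4096 * s.Rt * s.Y ^ 6 / s.cp) ^ 2 / s.Y

/-- positivity and order -/
def SD.ok (s : SD) : Prop :=
  0 < s.be0 ∧ 0 ≤ s.eps ∧ 0 < s.cp ∧ 0 ≤ s.Rt ∧ ends 2 s.l s.Y = true ∧
    ∀ c ∈ s.l, 0 < c.be ∧ 0 ≤ c.R

lemma mem_of_cells {a : ℚ} {l : List SC} {q : ℚ × SC} (h : q ∈ cells a l) : q.2 ∈ l := by
  induction l generalizing a with
  | nil => simp [cells] at h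
  | cons c l ih =>
    simp only [cells, List.mem_cons] at h
    rcases h with rfl | h
    · simp
    · exact List.mem_cons_of_mem _ (ih h)

variable {s : SD}

lemma SD.ok.Y_gt (h : s.ok) : 2 ≤ s.Y := ends_le h.2.2.2.2.1

lemma SD.ok.Y_gtR (h : s.ok) : (2 : ℝ) ≤ s.Y := by exact_mod_cast h.Y_gt

lemma SD.ok.q_ge (h : s.ok) {q : ℚ × SC} (hq : q ∈ cells 2 s.l) : (2 : ℝ) ≤ q.1 := by
  exact_mod_cast (cells_lt h.2.2.2.2.1 q hq).1

lemma p_near (y : ℝ) (hy : y ≤ 2) : s.p y = √(chi 4 y * s.be0) := by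
  simp [SD.p, hy]

lemma p_cell (h : s.ok) {q : ℚ × SC} (hq : q ∈ cells 2 s.l) {y : ℝ} (h1 : (q.1 : ℝ) < y)
    (h2 : y ≤ q.2.b) : s.p y = √(chi 4 y * q.2.be) := by
  have h3 := cells_lt h.2.2.2.2.1 q hq
  have h4 : ¬ y ≤ 2 := by
    push Not; exact lt_of_le_of_lt (by exact_mod_cast h3.1) h1
  have h5 : y ≤ s.Y := h2.trans (by exact_mod_cast h3.2.2)
  rw [SD.p, if_neg h4, if_pos h5, pick_cell h.2.2.2.2.1 hq h1 h2]

lemma p_far (h : s.ok) {y : ℝ} (hy : (s.Y : ℝ) < y) : s.p y = s.cp / y ^ 3 := by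
  have h2 : (2 : ℝ) ≤ s.Y := h.Y_gtR
  rw [SD.p, if_neg (by linarith), if_neg (by linarith)]

lemma R_near (y : ℝ) (hy : y ≤ 2) : s.R y = s.eps * y ^ 2 := by simp [SD.R, hy]

lemma R_cell (h : s.ok) {q : ℚ × SC} (hq : q ∈ cells 2 s.l) {y : ℝ} (h1 : (q.1 : ℝ) < y)
    (h2 : y ≤ q.2.b) : s.R y = q.2.R := by
  have h3 := cells_lt h.2.2.2.2.1 q hq
  have h4 : ¬ y ≤ 2 := by
    push Not; exact lt_of_le_of_lt (by exact_mod_cast h3.1) h1
  have h5 : y ≤ s.Y := h2.trans (by exact_mod_cast h3.2.2)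
  rw [SD.R, if_neg h4, if_pos h5, pick_cell h.2.2.2.2.1 hq h1 h2]

lemma R_far (h : s.ok) {y : ℝ} (hy : (s.Y : ℝ) < y) : s.R y = s.Rt * (s.Y / y) ^ 6 := by
  have h2 : (2 : ℝ) ≤ s.Y := h.Y_gtR
  rw [SD.R, if_neg (by linarith), if_neg (by linarith)]

/-- case distinction over the three zones -/
lemma zones (h : s.ok) {Q : ℝ → Prop} (h1 : ∀ y, 0 < y → y ≤ 2 → Q y)
    (h2 : ∀ q ∈ cells 2 s.l, ∀ y : ℝ, (q.1 : ℝ) < y → y ≤ q.2.b → Q y)
    (h3 : ∀ y : ℝ, (s.Y : ℝ) < y → Q y) : ∀ y, 0 < y → Q y := by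
  intro y hy
  by_cases a1 : y ≤ 2
  · exact h1 y hy a1
  · push Not at a1
    by_cases a2 : y ≤ s.Y
    · obtain ⟨q, hq, b1, b2, _⟩ := exists_cell h.2.2.2.2.1 (by exact_mod_cast a1) a2
      exact h2 q hq y b1 b2
    · exact h3 y (not_le.1 a2)

lemma p_measurable : Measurable s.p := by
  unfold SD.p
  refine Measurable.ite measurableSet_Iic ?_ (Measurable.ite measurableSet_Iic ?_ ?_)
  · exact (chi_continuous.measurable.mul_const _).sqrt
  · exact (chi_continuous.measurable.mul (pick_measurable _ _)).sqrt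
  · exact measurable_const.div (measurable_id.pow_const 3)

lemma R_measurable : Measurable s.R := by
  unfold SD.R
  refine Measurable.ite measurableSet_Iic ?_ (Measurable.ite measurableSet_Iic ?_ ?_)
  · exact (measurable_id.pow_const 2).const_mul _
  · exact pick_measurable _ _
  · exact ((measurable_const.div measurable_id).pow_const 6).const_mul _

lemma p_pos (h : s.ok) : ∀ y, 0 < y → 0 < s.p y := by
  refine zones h (Q := fun y => 0 < s.p y) ?_ ?_ ?_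
  · intro y _ hy2
    rw [p_near y hy2]
    have : (0 : ℝ) < s.be0 := by exact_mod_cast h.1
    have := mul_pos (chi_pos y) this
    positivity
  · intro q hq y h1 h2
    rw [p_cell h hq h1 h2]
    have hb : (0 : ℝ) < q.2.be := by exact_mod_cast (h.2.2.2.2.2 _ (mem_of_cells hq)).1
    have := mul_pos (chi_pos y) hb
    positivity
  · intro y hy
    rw [p_far h hy]
    have hc : (0 : ℝ) < s.cp := by exact_mod_cast h.2.2.1
    have : 0 < y := by linarith [h.Y_gtR]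
    positivity


/-! ### squares -/

lemma p2_near (h : s.ok) (y : ℝ) (hy : y ≤ 2) : s.p y ^ 2 = chi 4 y * s.be0 := by
  rw [p_near y hy, Real.sq_sqrt]
  have : (0 : ℝ) < s.be0 := by exact_mod_cast h.1
  exact (mul_pos (chi_pos y) this).le

lemma p2_cell (h : s.ok) {q : ℚ × SC} (hq : q ∈ cells 2 s.l) {y : ℝ} (h1 : (q.1 : ℝ) < y)
    (h2 : y ≤ q.2.b) : s.p y ^ 2 = chi 4 y * q.2.be := by
  have hb : (0 : ℝ) < q.2.be := by exact_mod_cast (h.2.2.2.2.2 _ (mem_of_cells hq)).1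
  rw [p_cell h hq h1 h2, Real.sq_sqrt]
  exact (mul_pos (chi_pos y) hb).le

/-- `(χ/p)²` -/
lemma q2_near (h : s.ok) (y : ℝ) (hy : y ≤ 2) : (chi 4 y / s.p y) ^ 2 = chi 4 y / s.be0 := by
  have hb : (0 : ℝ) < s.be0 := by exact_mod_cast h.1
  rw [div_pow, p2_near h y hy]
  have := (chi_pos y).ne'
  field_simp

lemma q2_cell (h : s.ok) {q : ℚ × SC} (hq : q ∈ cells 2 s.l) {y : ℝ} (h1 : (q.1 : ℝ) < y)
    (h2 : y ≤ q.2.b) : (chi 4 y / s.p y) ^ 2 = chi 4 y / q.2.be := by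
  have hb : (0 : ℝ) < q.2.be := by exact_mod_cast (h.2.2.2.2.2 _ (mem_of_cells hq)).1
  rw [div_pow, p2_cell h hq h1 h2]
  have := (chi_pos y).ne'
  field_simp

/-! ### the integral -/

/-- the integrand -/
def SD.f (s : SD) (y : ℝ) : ℝ := (chi 4 y / s.p y * (y ^ 8 * s.R y)) ^ 2

lemma f_measurable : Measurable s.f := by
  unfold SD.f
  exact ((chi_continuous.measurable.div p_measurable).mul
    ((measurable_id.pow_const 8).mul R_measurable)).pow_const 2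

lemma f_nonneg (y : ℝ) : 0 ≤ s.f y := by unfold SD.f; positivity

/-- integrability and bound on a bounded interval from a continuous majorant -/
lemma int_of_le {f g : ℝ → ℝ} (hf : Measurable f) (h0 : ∀ y, 0 ≤ f y) {a b : ℝ} (hab : a ≤ b)
    (hg : Continuous g) (hfg : ∀ y ∈ Ioc a b, f y ≤ g y) :
    IntegrableOn f (Ioc a b) ∧ ∫ y in Ioc a b, f y ≤ ∫ y in a..b, g y := by
  have hgi : IntegrableOn g (Ioc a b) := (hg.integrableOn_Icc).mono_set Ioc_subset_Icc_self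
  have hfi : IntegrableOn f (Ioc a b) := by
    refine Integrable.mono' hgi hf.aestronglyMeasurable ?_
    refine (ae_restrict_iff' measurableSet_Ioc).2 (Eventually.of_forall fun y hy => ?_)
    rw [Real.norm_eq_abs, abs_of_nonneg (h0 y)]
    exact hfg y hy
  refine ⟨hfi, ?_⟩
  rw [intervalIntegral.integral_of_le hab]
  exact setIntegral_mono_on hfi hgi measurableSet_Ioc hfg

lemma int_pow (a b C : ℝ) (n : ℕ) :
    ∫ y in a..b, C * y ^ n = C * ((b ^ (n + 1) - a ^ (n + 1)) / (n + 1)) := by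
  rw [intervalIntegral.integral_const_mul, integral_pow]

lemma f_near (h : s.ok) :
    IntegrableOn s.f (Ioc 0 2) ∧
      ∫ y in Ioc (0 : ℝ) 2, s.f y ≤ (s.eps : ℝ) ^ 2 / s.be0 * (2 ^ 21 / 21) := by
  have hb : (0 : ℝ) < s.be0 := by exact_mod_cast h.1
  have := int_of_le (f := s.f) (g := fun y => (s.eps : ℝ) ^ 2 / s.be0 * y ^ 20)
    f_measurable f_nonneg (a := 0) (b := 2) (by norm_num) (by fun_prop) ?_
  · refine ⟨this.1, this.2.trans (le_of_eq ?_)⟩
    rw [int_pow]; norm_num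
  · intro y hy
    unfold SD.f
    rw [mul_pow, q2_near h y hy.2, R_near y hy.2]
    have e : chi 4 y / (s.be0 : ℝ) * (y ^ 8 * (s.eps * y ^ 2)) ^ 2 =
        chi 4 y * ((s.eps : ℝ) ^ 2 / s.be0 * y ^ 20) := by ring
    rw [e]
    have h2 : 0 ≤ (s.eps : ℝ) ^ 2 / s.be0 * y ^ 20 := by positivity
    calc chi 4 y * ((s.eps : ℝ) ^ 2 / s.be0 * y ^ 20) ≤ 1 * ((s.eps : ℝ) ^ 2 / s.be0 * y ^ 20) :=
          mul_le_mul_of_nonneg_right (chi_le_one y) h2
      _ = _ := one_mul _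

lemma f_cell (h : s.ok) {q : ℚ × SC} (hq : q ∈ cells 2 s.l) :
    IntegrableOn s.f (Ioc (q.1 : ℝ) q.2.b) ∧
      ∫ y in Ioc (q.1 : ℝ) q.2.b, s.f y ≤ ((q.2.R ^ 2 / q.2.be * IB q.1 q.2.b : ℚ) : ℝ) := by
  have hb : (0 : ℝ) < q.2.be := by exact_mod_cast (h.2.2.2.2.2 _ (mem_of_cells hq)).1
  have hlt := cells_lt h.2.2.2.2.1 q hq
  have hab : (q.1 : ℝ) ≤ q.2.b := by exact_mod_cast hlt.2.1.le
  have hf : ∀ y ∈ Ioc (q.1 : ℝ) q.2.b, s.f y = (q.2.R : ℝ) ^ 2 / q.2.be * (chi 4 y * y ^ 16) := by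
    intro y hy
    unfold SD.f
    rw [mul_pow, q2_cell h hq hy.1 hy.2, R_cell h hq hy.1 hy.2]
    ring
  have hC : 0 ≤ (q.2.R : ℝ) ^ 2 / q.2.be := by positivity
  have A := int_of_le (f := s.f)
    (g := fun y => (q.2.R : ℝ) ^ 2 / q.2.be * (16 / (16 + (q.1 : ℝ) ^ 2)) ^ 3 * y ^ 16)
    f_measurable f_nonneg hab (by fun_prop) (by
      intro y hy
      have hy0 : 0 < y := by linarith [hy.1, h.q_ge hq]
      rw [hf y hy]
      have := chi_anti (a := (q.1 : ℝ)) (by linarith [h.q_ge hq]) hy.1.le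
      calc (q.2.R : ℝ) ^ 2 / q.2.be * (chi 4 y * y ^ 16)
          ≤ (q.2.R : ℝ) ^ 2 / q.2.be * ((16 / (16 + (q.1 : ℝ) ^ 2)) ^ 3 * y ^ 16) := by
            apply mul_le_mul_of_nonneg_left _ hC
            exact mul_le_mul_of_nonneg_right this (by positivity)
        _ = _ := by ring)
  have B := int_of_le (f := s.f)
    (g := fun y => (q.2.R : ℝ) ^ 2 / q.2.be * (16 * (q.2.b : ℝ) ^ 2 / (16 + (q.2.b : ℝ) ^ 2)) ^ 3
      * y ^ 10)
    f_measurable f_nonneg hab (by fun_prop) (by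
      intro y hy
      have hy0 : 0 < y := by linarith [hy.1, h.q_ge hq]
      rw [hf y hy]
      have := chi_pow6 hy0 hy.2
      calc (q.2.R : ℝ) ^ 2 / q.2.be * (chi 4 y * y ^ 16)
          = (q.2.R : ℝ) ^ 2 / q.2.be * ((chi 4 y * y ^ 6) * y ^ 10) := by ring
        _ ≤ (q.2.R : ℝ) ^ 2 / q.2.be *
              ((16 * (q.2.b : ℝ) ^ 2 / (16 + (q.2.b : ℝ) ^ 2)) ^ 3 * y ^ 10) := by
            apply mul_le_mul_of_nonneg_left _ hC
            exact mul_le_mul_of_nonneg_right this (by positivity)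
        _ = _ := by ring)
  refine ⟨A.1, ?_⟩
  rw [int_pow] at A B
  have hA := A.2
  have hB := B.2
  have key : ((q.2.R ^ 2 / q.2.be * IB q.1 q.2.b : ℚ) : ℝ) =
      (q.2.R : ℝ) ^ 2 / q.2.be * min ((16 / (16 + (q.1 : ℝ) ^ 2)) ^ 3 *
        (((q.2.b : ℝ) ^ 17 - (q.1 : ℝ) ^ 17) / 17))
        ((16 * (q.2.b : ℝ) ^ 2 / (16 + (q.2.b : ℝ) ^ 2)) ^ 3 *
        (((q.2.b : ℝ) ^ 11 - (q.1 : ℝ) ^ 11) / 11)) := by
    unfold IB
    push_cast
    rfl
  rw [key]
  rcases min_choice ((16 / (16 + (q.1 : ℝ) ^ 2)) ^ 3 *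
        (((q.2.b : ℝ) ^ 17 - (q.1 : ℝ) ^ 17) / 17))
        ((16 * (q.2.b : ℝ) ^ 2 / (16 + (q.2.b : ℝ) ^ 2)) ^ 3 *
        (((q.2.b : ℝ) ^ 11 - (q.1 : ℝ) ^ 11) / 11)) with hm | hm
  · rw [hm]
    refine hA.trans (le_of_eq ?_)
    norm_num
    ring
  · rw [hm]
    refine hB.trans (le_of_eq ?_)
    norm_num
    ring

lemma f_cells {a : ℚ} {l : List SC} {Y : ℚ} {f : ℝ → ℝ} (he : ends a l Y = true)
    (hc : ∀ q ∈ cells a l, IntegrableOn f (Ioc (q.1 : ℝ) q.2.b) ∧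
      ∫ y in Ioc (q.1 : ℝ) q.2.b, f y ≤ ((q.2.R ^ 2 / q.2.be * IB q.1 q.2.b : ℚ) : ℝ)) :
    IntegrableOn f (Ioc (a : ℝ) Y) ∧ ∫ y in Ioc (a : ℝ) Y, f y ≤ ((sumB a l : ℚ) : ℝ) := by
  induction l generalizing a with
  | nil =>
    simp [ends] at he
    subst he
    simp [sumB]
  | cons c l ih =>
    simp only [ends, Bool.and_eq_true, decide_eq_true_eq] at he
    have h1 := hc (a, c) (by simp [cells])
    have h2 := ih he.2 (fun q hq => hc q (by simp [cells, hq]))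
    have h3 : Ioc (a : ℝ) Y = Ioc (a : ℝ) c.b ∪ Ioc (c.b : ℝ) Y :=
      (Ioc_union_Ioc_eq_Ioc (by exact_mod_cast he.1.le) (by exact_mod_cast ends_le he.2)).symm
    have hd : Disjoint (Ioc (a : ℝ) c.b) (Ioc (c.b : ℝ) Y) := by
      rw [Set.disjoint_left]
      intro y hy hy'
      exact absurd hy.2 (not_le.2 hy'.1)
    rw [h3]
    refine ⟨h1.1.union h2.1, ?_⟩
    rw [setIntegral_union hd measurableSet_Ioc h1.1 h2.1]
    have := add_le_add h1.2 h2.2
    refine this.trans (le_of_eq ?_)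
    simp only [sumB]
    push_cast
    rfl

lemma f_far (h : s.ok) :
    IntegrableOn s.f (Ioi (s.Y : ℝ)) ∧
      ∫ y in Ioi (s.Y : ℝ), s.f y ≤ (4096 * (s.Rt : ℝ) * s.Y ^ 6 / s.cp) ^ 2 / s.Y := by
  have hY : (2 : ℝ) ≤ s.Y := h.Y_gtR
  have hc : (0 : ℝ) < s.cp := by exact_mod_cast h.2.2.1
  have hR : (0 : ℝ) ≤ s.Rt := by exact_mod_cast h.2.2.2.1
  set C : ℝ := 4096 * (s.Rt : ℝ) * s.Y ^ 6 / s.cp with hC
  have hC0 : 0 ≤ C := by positivity
  have hle : ∀ y ∈ Ioi (s.Y : ℝ), s.f y ≤ C ^ 2 * y ^ (-2 : ℝ) := by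
    intro y hy
    have hy' : (s.Y : ℝ) < y := hy
    have hy0 : 0 < y := by linarith
    unfold SD.f
    rw [p_far h hy', R_far h hy']
    have e : chi 4 y / (s.cp / y ^ 3) * (y ^ 8 * (s.Rt * (s.Y / y) ^ 6)) =
        (chi 4 y * y ^ 6) * ((s.Rt : ℝ) * s.Y ^ 6 / s.cp) * y⁻¹ := by
      field_simp
    rw [e]
    have h1 : (chi 4 y * y ^ 6) * ((s.Rt : ℝ) * s.Y ^ 6 / s.cp) * y⁻¹ ≤ C * y⁻¹ := by
      apply mul_le_mul_of_nonneg_right _ (by positivity)
      rw [hC]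
      calc (chi 4 y * y ^ 6) * ((s.Rt : ℝ) * s.Y ^ 6 / s.cp)
          ≤ 4096 * ((s.Rt : ℝ) * s.Y ^ 6 / s.cp) :=
            mul_le_mul_of_nonneg_right (chi_pow6_lt y) (by positivity)
        _ = _ := by ring
    have h0 : 0 ≤ (chi 4 y * y ^ 6) * ((s.Rt : ℝ) * s.Y ^ 6 / s.cp) * y⁻¹ := by
      have := (chi_pos y).le
      positivity
    have h2 : y ^ (-2 : ℝ) = (y⁻¹) ^ 2 := by
      rw [Real.rpow_neg hy0.le, inv_pow]
      norm_num
    rw [h2, ← mul_pow]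
    exact pow_le_pow_left₀ h0 h1 2
  have hgi : IntegrableOn (fun y : ℝ => C ^ 2 * y ^ (-2 : ℝ)) (Ioi (s.Y : ℝ)) :=
    (integrableOn_Ioi_rpow_of_lt (by norm_num) (by linarith)).const_mul _
  have hfi : IntegrableOn s.f (Ioi (s.Y : ℝ)) := by
    refine Integrable.mono' hgi f_measurable.aestronglyMeasurable ?_
    refine (ae_restrict_iff' measurableSet_Ioi).2 (Eventually.of_forall fun y hy => ?_)
    rw [Real.norm_eq_abs, abs_of_nonneg (f_nonneg y)]
    exact hle y hy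
  refine ⟨hfi, (setIntegral_mono_on hfi hgi measurableSet_Ioi hle).trans (le_of_eq ?_)⟩
  rw [MeasureTheory.integral_const_mul, integral_Ioi_rpow_of_lt (by norm_num) (by linarith)]
  norm_num
  rw [Real.rpow_neg_one]
  rfl

/-- `R_int` and `R_M` -/
theorem R_M (h : s.ok) {M : ℝ} (hM : ((s.M2 : ℚ) : ℝ) ≤ M ^ 2) :
    IntegrableOn (fun y => (chi 4 y / s.p y * (y ^ 8 * s.R y)) ^ 2) (Ioi 0) ∧
    ∫ y in Ioi (0 : ℝ), (chi 4 y / s.p y * (y ^ 8 * s.R y)) ^ 2 ≤ M ^ 2 := by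
  have hY : (2 : ℝ) ≤ s.Y := h.Y_gtR
  have h1 := f_near h
  have h2 := f_cells (f := s.f) h.2.2.2.2.1 (fun q hq => f_cell h hq)
  have h3 := f_far h
  have e1 : Ioi (0 : ℝ) = Ioc 0 2 ∪ (Ioc (2 : ℝ) s.Y ∪ Ioi (s.Y : ℝ)) := by
    rw [Ioc_union_Ioi_eq_Ioi hY, Ioc_union_Ioi_eq_Ioi (by norm_num)]
  have d1 : Disjoint (Ioc (2 : ℝ) s.Y) (Ioi (s.Y : ℝ)) := by
    rw [Set.disjoint_left]
    intro y hy hy'
    exact absurd hy.2 (not_le.2 hy')
  have d2 : Disjoint (Ioc (0 : ℝ) 2) (Ioc (2 : ℝ) s.Y ∪ Ioi (s.Y : ℝ)) := by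
    rw [Ioc_union_Ioi_eq_Ioi hY, Set.disjoint_left]
    intro y hy hy'
    exact absurd hy.2 (not_le.2 hy')
  have c2 : (((2 : ℚ) : ℝ)) = 2 := by norm_num
  rw [c2] at h2
  have i23 : IntegrableOn s.f (Ioc (2 : ℝ) s.Y ∪ Ioi (s.Y : ℝ)) := h2.1.union h3.1
  change IntegrableOn s.f (Ioi 0) ∧ ∫ y in Ioi (0 : ℝ), s.f y ≤ M ^ 2
  rw [e1]
  refine ⟨h1.1.union i23, ?_⟩
  rw [setIntegral_union d2 (measurableSet_Ioc.union measurableSet_Ioi) h1.1 i23,
    setIntegral_union d1 measurableSet_Ioi h2.1 h3.1]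
  have h4 := add_le_add h1.2 (add_le_add h2.2 h3.2)
  refine h4.trans (le_trans (le_of_eq ?_) hM)
  unfold SD.M2
  push_cast
  ring

end Crest.Agent.R213.E.St
end
private theorem rz_ee5e962aa9 : type_of% @_root_.Crest.Agent.R213.E.St.cells.eq_def := @_root_.Crest.Agent.R213.E.St.cells.eq_def -- L63
private theorem rz_5870283d01 : type_of% @_root_.Crest.Agent.R213.E.St.cells.eq_1 := @_root_.Crest.Agent.R213.E.St.cells.eq_1 -- L63
private theorem rz_e26344543c : type_of% @_root_.Crest.Agent.R213.E.St.ends.eq_def := @_root_.Crest.Agent.R213.E.St.ends.eq_def -- L58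
private theorem rz_1762e0bc37 : type_of% @_root_.Crest.Agent.R213.E.St.ends.eq_1 := @_root_.Crest.Agent.R213.E.St.ends.eq_1 -- L58
private theorem rz_f62009af15 : type_of% @_root_.Crest.Agent.R213.E.St.pick.eq_def := @_root_.Crest.Agent.R213.E.St.pick.eq_def -- L41
private theorem rz_109301eac1 : type_of% @_root_.Crest.Agent.R213.E.St.pick.eq_1 := @_root_.Crest.Agent.R213.E.St.pick.eq_1 -- L41
private theorem rz_c33ea926d2 : type_of% @_root_.Crest.Agent.R213.E.St.sumB.eq_def := @_root_.Crest.Agent.R213.E.St.sumB.eq_def -- L208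
private theorem rz_ffd982c061 : type_of% @_root_.Crest.Agent.R213.E.St.sumB.eq_1 := @_root_.Crest.Agent.R213.E.St.sumB.eq_1 -- L208
end

-- ▼ part R213/E/StepCert
section

/-!
# Row 213, part E, E-CERT: weights, Lipschitz bound, residual bounds from step data (helper587)
-/

set_option autoImplicit false

open Set MeasureTheory Filter Topology

noncomputable section

namespace Crest.Agent.R213.E.St

variable {s : SD}

/-- rational form of the Lipschitz bound -/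
def lipB (lo e : ℚ) : ℚ := 1 / (2 * (lo - e) ^ 2) - 1 / (2 * lo ^ 2)

/-- the numerical checks; parameters `n1` is `200/9`, `cq`, `Cq`, `η`, `m`, `ρ`, `a` -/
def SD.chk (s : SD) (cq Cq η m ρ a : ℚ) : Bool :=
  decide (0 < cq) && decide (0 ≤ Cq) && decide (0 < a) && decide (0 ≤ m) &&
  -- near zone
  (decide (cq ^ 2 * s.be0 ≤ 1) && decide (1 ≤ Cq ^ 2 * s.be0) &&
    decide (a ^ 2 ≤ 4 / 5 * s.be0) && decide (0 ≤ s.dg0) && decide (s.dg0 + m < s.lo0) &&
    decide (lipB s.lo0 (s.dg0 + m) ≤ η * s.be0) && decide (4 * s.eps ≤ ρ)) &&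
  -- cells
  ((cells 2 s.l).all fun q =>
    decide (cq ^ 2 * q.2.be ≤ 1) &&
    decide ((16 / (16 + q.1 ^ 2)) ^ 3 ≤ Cq ^ 2 * q.2.be) &&
    decide (a ^ 2 ≤ 4 / 5 * q.2.be) && decide (0 ≤ q.2.dg) && decide (q.2.dg + m < q.2.lo) &&
    decide (lipB q.2.lo (q.2.dg + m) ≤ η * q.2.be) && decide (q.2.R ≤ ρ)) &&
  -- tail
  (decide (cq * s.cp ≤ 32) && decide (4096 ≤ Cq * (s.cp * s.Y ^ 3)) && decide (a ≤ s.cp) &&
    decide (0 ≤ s.dgt) && decide (s.dgt + m < s.lot) &&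
    decide (lipB s.lot (s.dgt + m) ≤ η * (s.cp ^ 2 / 4096)) && decide (s.Rt ≤ ρ))

/-- facts on the base profile `g0` -/
structure GFacts (s : SD) (g0 : ℝ → ℝ) : Prop where
  meas : Measurable g0
  lo_near : ∀ y, 0 < y → y ≤ 2 → (s.lo0 : ℝ) ≤ g0 y
  lo_cell : ∀ q ∈ cells 2 s.l, ∀ y : ℝ, (q.1 : ℝ) < y → y ≤ q.2.b → (q.2.lo : ℝ) ≤ g0 y
  lo_far : ∀ y : ℝ, (s.Y : ℝ) < y → (s.lot : ℝ) ≤ g0 y
  be_near : ∀ y, 0 < y → y ≤ 2 → (s.be0 : ℝ) ≤ bet0 4 y / y ^ 2 + 1 / (2 * g0 y ^ 2)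
  be_cell : ∀ q ∈ cells 2 s.l, ∀ y : ℝ, (q.1 : ℝ) < y → y ≤ q.2.b →
    (q.2.be : ℝ) ≤ bet0 4 y / y ^ 2 + 1 / (2 * g0 y ^ 2)
  be_far : ∀ y : ℝ, (s.Y : ℝ) < y →
    ((s.cp : ℝ) / y ^ 3) ^ 2 ≤ chi 4 y * (bet0 4 y / y ^ 2 + 1 / (2 * g0 y ^ 2))

/-- `(1+y)^6 χ ≥ 1` -/
lemma chi_one_add {y : ℝ} (hy : 0 ≤ y) : 1 ≤ chi 4 y * (1 + y) ^ 6 := by
  unfold chi
  rw [uu_eq]
  have e : (16 / (16 + y ^ 2)) ^ 3 * (1 + y) ^ 6 = (16 * (1 + y) ^ 2 / (16 + y ^ 2)) ^ 3 := by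
    field_simp
  rw [e]
  apply one_le_pow₀
  rw [one_le_div (by positivity)]
  nlinarith

/-- `χ y^6 ≥ 4/5` for `y ≥ 1` -/
lemma chi_y6_ge {y : ℝ} (hy : 1 ≤ y) : 4 / 5 ≤ chi 4 y * y ^ 6 := by
  have := chi_pow6' (a := 1) (by norm_num) hy
  refine le_trans (by norm_num) this

lemma chi_div_p_cell {y be p : ℝ} (hb : 0 < be) (h : p ^ 2 = chi 4 y * be) :
    (chi 4 y / p) ^ 2 = chi 4 y / be := by
  rw [div_pow, h]
  have := (chi_pos y).ne'
  field_simp

section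
variable {cq Cq η m ρ a : ℚ}


lemma lipB_mono {a b lo e : ℝ} (he : 0 ≤ e) (hlo : e < lo) (ha : lo ≤ a) (hb : |b - a| ≤ e) :
    |1 / (2 * a ^ 2) - 1 / (2 * b ^ 2)| ≤ 1 / (2 * (lo - e) ^ 2) - 1 / (2 * lo ^ 2) := by
  have hlo0 : 0 < lo := by linarith
  have ha0 : 0 < a := by linarith
  have h1 := abs_le.1 hb
  have hb0 : 0 < b := by linarith
  have hle : 0 < lo - e := by linarith
  -- increasing function `x ↦ 1/(2(x-e)²) - 1/(2x²)` is decreasing in `x`
  have key : ∀ x y : ℝ, lo - e ≤ x → x ≤ y → y - x ≤ e →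
      1 / (2 * x ^ 2) - 1 / (2 * y ^ 2) ≤ 1 / (2 * (lo - e) ^ 2) - 1 / (2 * lo ^ 2) := by
    intro x y hx hxy hd
    have hx0 : 0 < x := by linarith
    have hy0 : 0 < y := by linarith
    by_cases hy : lo ≤ y
    · -- y - x ≤ e
      have e1 : 1 / (2 * x ^ 2) - 1 / (2 * y ^ 2) = (y - x) * (1 / x + 1 / y) * (1 / x * (1 / y)) / 2 := by
        field_simp
        ring
      have e2 : 1 / (2 * (lo - e) ^ 2) - 1 / (2 * lo ^ 2) =
          e * (1 / (lo - e) + 1 / lo) * (1 / (lo - e) * (1 / lo)) / 2 := by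
        field_simp
        ring
      rw [e1, e2]
      have i1 : 1 / x ≤ 1 / (lo - e) := one_div_le_one_div_of_le hle hx
      have i2 : 1 / y ≤ 1 / lo := one_div_le_one_div_of_le hlo0 hy
      have p1 : 0 < 1 / x := by positivity
      have p2 : 0 < 1 / y := by positivity
      have := mul_le_mul (mul_le_mul hd (add_le_add i1 i2) (by positivity) he)
        (mul_le_mul i1 i2 p2.le (by positivity)) (by positivity)
        (by positivity)
      linarith
    · push Not at hy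
      have i1 : 1 / (2 * x ^ 2) ≤ 1 / (2 * (lo - e) ^ 2) := by
        apply one_div_le_one_div_of_le (by positivity)
        have := pow_le_pow_left₀ hle.le hx 2
        linarith
      have i2 : 1 / (2 * lo ^ 2) ≤ 1 / (2 * y ^ 2) := by
        apply one_div_le_one_div_of_le (by positivity)
        have := pow_le_pow_left₀ hy0.le hy.le 2
        linarith
      linarith
  rw [abs_le]
  constructor
  · by_cases hab : a ≤ b
    · have : 1 / (2 * b ^ 2) ≤ 1 / (2 * a ^ 2) := by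
        apply one_div_le_one_div_of_le (by positivity)
        have := pow_le_pow_left₀ ha0.le hab 2
        linarith
      have h2 := key lo lo (by linarith) le_rfl (by linarith)
      have h3 : 0 ≤ 1 / (2 * (lo - e) ^ 2) - 1 / (2 * lo ^ 2) := by
        have : 1 / (2 * lo ^ 2) ≤ 1 / (2 * (lo - e) ^ 2) := by
          apply one_div_le_one_div_of_le (by positivity)
          have := pow_le_pow_left₀ hle.le (show lo - e ≤ lo by linarith) 2
          linarith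
        linarith
      linarith
    · push Not at hab
      have := key b a (by linarith) hab.le (by linarith)
      linarith
  · by_cases hab : a ≤ b
    · exact key a b (by linarith) hab (by linarith)
    · push Not at hab
      have : 1 / (2 * a ^ 2) ≤ 1 / (2 * b ^ 2) := by
        apply one_div_le_one_div_of_le (by positivity)
        have := pow_le_pow_left₀ hb0.le hab.le 2
        linarith
      have h3 : 0 ≤ 1 / (2 * (lo - e) ^ 2) - 1 / (2 * lo ^ 2) := by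
        have : 1 / (2 * lo ^ 2) ≤ 1 / (2 * (lo - e) ^ 2) := by
          apply one_div_le_one_div_of_le (by positivity)
          have := pow_le_pow_left₀ hle.le (show lo - e ≤ lo by linarith) 2
          linarith
        linarith
      linarith

/-- `lip` on one zone -/
lemma lip_zone {g0 Gc h be η' : ℝ} {lo dg m' : ℝ} (hm : 0 ≤ m') (hdg : 0 ≤ dg)
    (hlo : dg + m' < lo) (hg : lo ≤ g0) (hG : |Gc - g0| ≤ dg) (hh : |h| ≤ m')
    (hb : 1 / (2 * (lo - (dg + m')) ^ 2) - 1 / (2 * lo ^ 2) ≤ η' * be) :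
    |1 / (2 * g0 ^ 2) - 1 / (2 * (Gc + h) ^ 2)| ≤ η' * be := by
  refine (lipB_mono (a := g0) (b := Gc + h) (lo := lo) (e := dg + m') (by linarith) hlo hg ?_).trans
    hb
  have e : Gc + h - g0 = (Gc - g0) + h := by ring
  rw [e]
  exact (abs_add_le _ _).trans (add_le_add hG hh)

/-- unpacked checks -/
structure CK (s : SD) (cq Cq η m ρ a : ℚ) : Prop where
  cq0 : 0 < cq
  Cq0 : 0 ≤ Cq
  a0 : 0 < a
  m0 : 0 ≤ m
  n1 : cq ^ 2 * s.be0 ≤ 1
  n2 : 1 ≤ Cq ^ 2 * s.be0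
  n3 : a ^ 2 ≤ 4 / 5 * s.be0
  n4 : 0 ≤ s.dg0
  n5 : s.dg0 + m < s.lo0
  n6 : lipB s.lo0 (s.dg0 + m) ≤ η * s.be0
  n7 : 4 * s.eps ≤ ρ
  c : ∀ q ∈ cells 2 s.l, cq ^ 2 * q.2.be ≤ 1 ∧
    (16 / (16 + q.1 ^ 2)) ^ 3 ≤ Cq ^ 2 * q.2.be ∧
    a ^ 2 ≤ 4 / 5 * q.2.be ∧ 0 ≤ q.2.dg ∧ q.2.dg + m < q.2.lo ∧
    lipB q.2.lo (q.2.dg + m) ≤ η * q.2.be ∧ q.2.R ≤ ρ
  t1 : cq * s.cp ≤ 32
  t2 : 4096 ≤ Cq * (s.cp * s.Y ^ 3)
  t3 : a ≤ s.cp
  t4 : 0 ≤ s.dgt
  t5 : s.dgt + m < s.lot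
  t6 : lipB s.lot (s.dgt + m) ≤ η * (s.cp ^ 2 / 4096)
  t7 : s.Rt ≤ ρ

lemma ck_of (h : s.chk cq Cq η m ρ a = true) : CK s cq Cq η m ρ a := by
  simp only [SD.chk, Bool.and_eq_true, decide_eq_true_eq, List.all_eq_true] at h
  obtain ⟨⟨⟨⟨⟨⟨h1, h2⟩, h3⟩, h4⟩, ⟨⟨⟨⟨⟨⟨a1, a2⟩, a3⟩, a4⟩, a5⟩, a6⟩, a7⟩⟩, hc⟩,
    ⟨⟨⟨⟨⟨⟨t1, t2⟩, t3⟩, t4⟩, t5⟩, t6⟩, t7⟩⟩ := h
  refine ⟨h1, h2, h3, h4, a1, a2, a3, a4, a5, a6, a7, ?_, t1, t2, t3, t4, t5, t6, t7⟩
  intro q hq
  obtain ⟨⟨⟨⟨⟨⟨b1, b2⟩, b3⟩, b4⟩, b5⟩, b6⟩, b7⟩ := hc q hq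
  exact ⟨b1, b2, b3, b4, b5, b6, b7⟩

/-- `q_low` and `q_up` on a cell -/
lemma q_zone {y be p x : ℝ} (hy : 0 < y) (hb : 0 < be) (hp : 0 < p) (h : p ^ 2 = chi 4 y * be)
    (h1 : (cq : ℝ) ^ 2 * be ≤ 1) (hCq : (0 : ℝ) ≤ Cq)
    (h2 : x ≤ (Cq : ℝ) ^ 2 * be) (hx : chi 4 y ≤ x) :
    (cq : ℝ) ≤ chi 4 y / p * (1 + y) ^ 3 ∧ chi 4 y / p ≤ Cq := by
  have hq := chi_div_p_cell hb h
  have hc := chi_pos y
  constructor
  · refine le_of_pow_le_pow_left₀ two_ne_zero (by positivity) ?_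
    rw [mul_pow, hq]
    have h3 := chi_one_add hy.le
    have e : chi 4 y / be * ((1 + y) ^ 3) ^ 2 = (chi 4 y * (1 + y) ^ 6) / be := by ring
    rw [e, le_div_iff₀ hb]
    linarith
  · refine le_of_pow_le_pow_left₀ two_ne_zero hCq ?_
    rw [hq, div_le_iff₀ hb]
    linarith

/-- `q = χ/p` lower and upper bounds -/
lemma q_bds (h : s.ok) (k : CK s cq Cq η m ρ a) : ∀ y, 0 < y →
    (cq : ℝ) ≤ chi 4 y / s.p y * (1 + y) ^ 3 ∧ chi 4 y / s.p y ≤ Cq := by
  have hcq : (0 : ℝ) < cq := by exact_mod_cast k.cq0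
  have hCq : (0 : ℝ) ≤ Cq := by exact_mod_cast k.Cq0
  refine zones h (Q := fun y => (cq : ℝ) ≤ chi 4 y / s.p y * (1 + y) ^ 3 ∧
    chi 4 y / s.p y ≤ Cq) ?_ ?_ ?_
  · intro y hy hy2
    refine q_zone hy (by exact_mod_cast h.1) (p_pos h y hy) (p2_near h y hy2)
      (by exact_mod_cast k.n1) hCq (x := 1) (by exact_mod_cast k.n2) (chi_le_one y)
  · intro q hq y h1 h2
    have hy : 0 < y := by linarith [h.q_ge hq]
    obtain ⟨c1, c2, -⟩ := k.c q hq
    refine q_zone hy (by exact_mod_cast (h.2.2.2.2.2 _ (mem_of_cells hq)).1) (p_pos h y hy)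
      (p2_cell h hq h1 h2) (by exact_mod_cast c1) hCq
      (x := (16 / (16 + (q.1 : ℝ) ^ 2)) ^ 3) (by exact_mod_cast c2)
      (chi_anti (by linarith [h.q_ge hq]) h1.le)
  · intro y hy
    have hY := h.Y_gtR
    have hy0 : 0 < y := by linarith
    have hcp : (0 : ℝ) < s.cp := by exact_mod_cast h.2.2.1
    have e : chi 4 y / s.p y = chi 4 y * y ^ 3 / s.cp := by
      rw [p_far h hy]
      field_simp
    have hc := chi_pos y
    rw [e]
    constructor
    · have h1 := chi_pow6' (a := 2) (by norm_num) (show (2 : ℝ) ≤ y by linarith)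
      have h2 : y ^ 3 ≤ (1 + y) ^ 3 := pow_le_pow_left₀ hy0.le (by linarith) 3
      have h3 : (cq : ℝ) * s.cp ≤ 32 := by exact_mod_cast k.t1
      rw [div_mul_eq_mul_div, le_div_iff₀ hcp]
      have h4 : chi 4 y * y ^ 6 ≤ chi 4 y * y ^ 3 * (1 + y) ^ 3 := by
        have := mul_le_mul_of_nonneg_left h2 (show 0 ≤ chi 4 y * y ^ 3 by positivity)
        calc chi 4 y * y ^ 6 = chi 4 y * y ^ 3 * y ^ 3 := by ring
          _ ≤ _ := this
      norm_num at h1
      linarith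
    · have h1 := chi_pow6_lt y
      have h3 : (4096 : ℝ) ≤ Cq * (s.cp * s.Y ^ 3) := by exact_mod_cast k.t2
      rw [div_le_iff₀ hcp]
      have h4 : (s.Y : ℝ) ^ 3 ≤ y ^ 3 := pow_le_pow_left₀ (by linarith) hy.le 3
      have hy3 : 0 < y ^ 3 := by positivity
      have h5 : chi 4 y * y ^ 3 * y ^ 3 ≤ Cq * s.cp * y ^ 3 := by
        calc chi 4 y * y ^ 3 * y ^ 3 = chi 4 y * y ^ 6 := by ring
          _ ≤ 4096 := h1
          _ ≤ Cq * (s.cp * s.Y ^ 3) := h3
          _ = Cq * s.cp * s.Y ^ 3 := by ring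
          _ ≤ Cq * s.cp * y ^ 3 := mul_le_mul_of_nonneg_left h4 (by positivity)
      exact le_of_mul_le_mul_right h5 hy3

/-- the field `wdata` -/
theorem wdata {g0 : ℝ → ℝ} (h : s.ok) (k : CK s cq Cq η m ρ a) (F : GFacts s g0)
    (hlo : ∀ y, 0 < y → 3 / 20 ≤ g0 y) :
    WData 4 (200 / 9) cq Cq (nn g0) s.p where
  b_pos := by norm_num
  n_meas := by
    unfold nn
    exact measurable_const.div ((F.meas.pow_const 2).const_mul 2)
  n_nonneg := fun y hy => by unfold nn; positivity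
  n_le := fun y hy => by
    unfold nn
    have h1 := hlo y hy
    rw [div_le_iff₀ (by positivity)]
    nlinarith [pow_le_pow_left₀ (by norm_num) h1 2]
  p_meas := p_measurable
  p_pos := p_pos h
  cq_pos := by exact_mod_cast k.cq0
  q_low := fun y hy => (q_bds h k y hy).1
  q_up := fun y hy => (q_bds h k y hy).2
  coer := by
    refine zones h (Q := fun y => s.p y ^ 2 ≤ chi 4 y * (bet0 4 y / y ^ 2 + nn g0 y)) ?_ ?_ ?_
    · intro y hy hy2
      rw [p2_near h y hy2]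
      exact mul_le_mul_of_nonneg_left (F.be_near y hy hy2) (chi_pos y).le
    · intro q hq y h1 h2
      rw [p2_cell h hq h1 h2]
      exact mul_le_mul_of_nonneg_left (F.be_cell q hq y h1 h2) (chi_pos y).le
    · intro y hy
      rw [p_far h hy]
      exact F.be_far y hy

/-- the field `p_tail` -/
theorem p_tail (h : s.ok) (k : CK s cq Cq η m ρ a) :
    ∃ a' : ℝ, 0 < a' ∧ ∀ y, 1 ≤ y → a' ≤ s.p y * y ^ 3 := by
  have ha : (0 : ℝ) < a := by exact_mod_cast k.a0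
  refine ⟨a, ha, ?_⟩
  have key : ∀ y, 0 < y → 1 ≤ y → (a : ℝ) ≤ s.p y * y ^ 3 := by
    refine zones h (Q := fun y => 1 ≤ y → (a : ℝ) ≤ s.p y * y ^ 3) ?_ ?_ ?_
    · intro y hy hy2 h1
      have hp := p_pos h y hy
      refine le_of_pow_le_pow_left₀ two_ne_zero (by positivity) ?_
      rw [mul_pow, p2_near h y hy2]
      have hb : (0 : ℝ) < s.be0 := by exact_mod_cast h.1
      have h2 : (a : ℝ) ^ 2 ≤ 4 / 5 * s.be0 := by
        have := (Rat.cast_le (K := ℝ)).2 k.n3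
        push_cast at this
        exact this
      have h3 := mul_le_mul_of_nonneg_right (chi_y6_ge h1) hb.le
      calc (a : ℝ) ^ 2 ≤ 4 / 5 * s.be0 := h2
        _ ≤ chi 4 y * y ^ 6 * s.be0 := h3
        _ = _ := by ring
    · intro q hq y h1' h2' h1
      have hy : 0 < y := by linarith
      have hp := p_pos h y hy
      refine le_of_pow_le_pow_left₀ two_ne_zero (by positivity) ?_
      rw [mul_pow, p2_cell h hq h1' h2']
      have hb : (0 : ℝ) < q.2.be := by exact_mod_cast (h.2.2.2.2.2 _ (mem_of_cells hq)).1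
      have h2 : (a : ℝ) ^ 2 ≤ 4 / 5 * q.2.be := by
        have := (Rat.cast_le (K := ℝ)).2 (k.c q hq).2.2.1
        push_cast at this
        exact this
      have h3 := mul_le_mul_of_nonneg_right (chi_y6_ge h1) hb.le
      calc (a : ℝ) ^ 2 ≤ 4 / 5 * q.2.be := h2
        _ ≤ chi 4 y * y ^ 6 * q.2.be := h3
        _ = _ := by ring
    · intro y hy h1
      rw [p_far h hy]
      have hy0 : 0 < y := by linarith
      have : (a : ℝ) ≤ s.cp := by exact_mod_cast k.t3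
      calc (a : ℝ) ≤ s.cp := this
        _ = s.cp / y ^ 3 * y ^ 3 := by field_simp
  exact fun y hy => key y (by linarith) hy

/-- facts on the family: `|G - g0| ≤ dg` -/
structure DFacts (s : SD) (g0 Gc : ℝ → ℝ) : Prop where
  near : ∀ y, 0 < y → y ≤ 2 → |Gc y - g0 y| ≤ s.dg0
  cell : ∀ q ∈ cells 2 s.l, ∀ y : ℝ, (q.1 : ℝ) < y → y ≤ q.2.b → |Gc y - g0 y| ≤ q.2.dg
  far : ∀ y : ℝ, (s.Y : ℝ) < y → |Gc y - g0 y| ≤ s.dgt

/-- the field `lip` -/
theorem lip {g0 Gc : ℝ → ℝ} (h : s.ok) (k : CK s cq Cq η m ρ a) (hη : 0 ≤ η) (F : GFacts s g0)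
    (D : DFacts s g0 Gc) : ∀ y, 0 < y → ∀ h : ℝ, |h| ≤ (m : ℝ) →
    |1 / (2 * g0 y ^ 2) - 1 / (2 * (Gc y + h) ^ 2)| ≤ (η : ℝ) * (s.p y ^ 2 / chi 4 y) := by
  have hm : (0 : ℝ) ≤ m := by exact_mod_cast k.m0
  refine zones h (Q := fun y => ∀ h : ℝ, |h| ≤ (m : ℝ) →
    |1 / (2 * g0 y ^ 2) - 1 / (2 * (Gc y + h) ^ 2)| ≤ (η : ℝ) * (s.p y ^ 2 / chi 4 y)) ?_ ?_ ?_
  · intro y hy hy2 v hv
    have e : s.p y ^ 2 / chi 4 y = s.be0 := by
      rw [p2_near h y hy2]
      have := (chi_pos y).ne'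
      field_simp
    rw [e]
    refine lip_zone hm (by exact_mod_cast k.n4) (by exact_mod_cast k.n5) (F.lo_near y hy hy2)
      (D.near y hy hy2) hv ?_
    have := k.n6
    unfold lipB at this
    exact_mod_cast this
  · intro q hq y h1 h2 v hv
    obtain ⟨-, -, -, c4, c5, c6, -⟩ := k.c q hq
    have e : s.p y ^ 2 / chi 4 y = q.2.be := by
      rw [p2_cell h hq h1 h2]
      have := (chi_pos y).ne'
      field_simp
    rw [e]
    refine lip_zone hm (by exact_mod_cast c4) (by exact_mod_cast c5) (F.lo_cell q hq y h1 h2)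
      (D.cell q hq y h1 h2) hv ?_
    unfold lipB at c6
    exact_mod_cast c6
  · intro y hy v hv
    have hY := h.Y_gtR
    have hy0 : 0 < y := by linarith
    have hcp : (0 : ℝ) < s.cp := by exact_mod_cast h.2.2.1
    have e : (s.cp : ℝ) ^ 2 / 4096 ≤ s.p y ^ 2 / chi 4 y := by
      rw [p_far h hy, div_pow, ← pow_mul, div_div]
      have h6 := chi_pow6_lt y
      have hc := chi_pos y
      apply div_le_div_of_nonneg_left (by positivity) (by positivity)
      norm_num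
      linarith
    have hη' : (0 : ℝ) ≤ η := by exact_mod_cast hη
    refine (lip_zone (be := (s.cp : ℝ) ^ 2 / 4096) (η' := (η : ℝ)) hm (by exact_mod_cast k.t4)
      (by exact_mod_cast k.t5) (F.lo_far y hy) (D.far y hy) hv ?_).trans
      (mul_le_mul_of_nonneg_left e hη')
    have := k.t6
    unfold lipB at this
    exact_mod_cast this

/-- the field `R_near` -/
theorem R_near' (y : ℝ) (_ : 0 < y) (hy : y ≤ 2) : s.R y ≤ s.eps * y ^ 2 := (R_near y hy).le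

/-- the field `R_far` -/
theorem R_far' (h : s.ok) (k : CK s cq Cq η m ρ a) : ∀ y, 2 ≤ y → s.R y ≤ ρ := by
  have key : ∀ y, 0 < y → 2 ≤ y → s.R y ≤ ρ := by
    refine zones h (Q := fun y => 2 ≤ y → s.R y ≤ ρ) ?_ ?_ ?_
    · intro y hy hy2 h2
      have : y = 2 := le_antisymm hy2 h2
      subst this
      rw [R_near _ le_rfl]
      have : (4 : ℝ) * s.eps ≤ ρ := by exact_mod_cast k.n7
      linarith
    · intro q hq y h1 h2 _
      rw [R_cell h hq h1 h2]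
      exact_mod_cast (k.c q hq).2.2.2.2.2.2
    · intro y hy _
      rw [R_far h hy]
      have hY := h.Y_gtR
      have hRt : (0 : ℝ) ≤ s.Rt := by exact_mod_cast h.2.2.2.1
      have h1 : ((s.Y : ℝ) / y) ^ 6 ≤ 1 := by
        apply pow_le_one₀ (by positivity)
        rw [div_le_one (by linarith)]
        exact hy.le
      calc (s.Rt : ℝ) * (s.Y / y) ^ 6 ≤ s.Rt * 1 := mul_le_mul_of_nonneg_left h1 hRt
        _ = s.Rt := mul_one _
        _ ≤ ρ := by exact_mod_cast k.t7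
  exact fun y hy => key y (by linarith) hy

end

end Crest.Agent.R213.E.St
end
end

-- ▼ part R213/E/SDef
section

/-!
# Row 213, part E, E-CERT: the step data `sd` of the certificate and its checks (helper587)
-/

set_option autoImplicit false

open Set MeasureTheory Filter Topology

noncomputable section

namespace Crest.Agent.R213.E.St

/-- step data of a cell (`dg` for `|c - c0| ≤ 2^-26`) -/
def toSC (c : C.Cell) : SC where
  b := (c.H : ℚ) * (c.M + 1) / 8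
  be := (c.B3 : ℚ) / 1000
  R := (c.R20 : ℚ) / 10 ^ 20
  lo := (c.gl4 : ℚ) / 10 ^ 4
  dg := (c.kb3 : ℚ) / 10 ^ 3 / 2 ^ 26

/-- the step data -/
def sd : SD where
  be0 := 49 / 100
  eps := 2 / 10 ^ 8
  lo0 := 7493 / 10 ^ 4
  dg0 := 0
  l := C.cells.tail.map toSC
  Y := 128
  cp := 1568 / 25
  Rt := 7 / 10 ^ 14
  lot := 7 / 10
  dgt := 1 / 2 ^ 25

def okB (s : SD) : Bool :=
  decide (0 < s.be0) && decide (0 ≤ s.eps) && decide (0 < s.cp) && decide (0 ≤ s.Rt) &&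
    ends 2 s.l s.Y && s.l.all fun c => decide (0 < c.be) && decide (0 ≤ c.R)

lemma ok_of {s : SD} (h : okB s = true) : s.ok := by
  simp only [okB, Bool.and_eq_true, decide_eq_true_eq, List.all_eq_true] at h
  obtain ⟨⟨⟨⟨⟨h1, h2⟩, h3⟩, h4⟩, h5⟩, h6⟩ := h
  exact ⟨h1, h2, h3, h4, h5, h6⟩

set_option maxRecDepth 100000 in
lemma sd_ok : sd.ok := ok_of (by decide +kernel)

set_option maxRecDepth 100000 in
lemma sd_chk : sd.chk (1 / 4) (143 / 100) (1 / 100) (1 / 2000) (1 / 5000) (1 / 2) = true := by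
  decide +kernel

set_option maxRecDepth 100000 in
lemma sd_M2 : sd.M2 ≤ (23 / 10) ^ 2 := by
  decide +kernel

/-! ### the cells of `sd` are the cells of `CertData` -/

/-- left end of a cell -/
def aQ (c : C.Cell) : ℚ := (c.H : ℚ) * (c.M - 1) / 8

lemma sd_cells : ((cells 2 sd.l).map fun q => (q.1, q.2.b, q.2.be, q.2.R, q.2.lo, q.2.dg)) =
    C.cells.tail.map fun c => (aQ c, (toSC c).b, (toSC c).be, (toSC c).R, (toSC c).lo,
      (toSC c).dg) := by
  decide +kernel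

lemma SC_ext {c d : SC} (h1 : c.b = d.b) (h2 : c.be = d.be) (h3 : c.R = d.R) (h4 : c.lo = d.lo)
    (h5 : c.dg = d.dg) : c = d := by
  cases c; cases d; simp_all

lemma mem_cells_of {c : C.Cell} (h : c ∈ C.cells.tail) : (aQ c, toSC c) ∈ cells 2 sd.l := by
  have h1 : (aQ c, (toSC c).b, (toSC c).be, (toSC c).R, (toSC c).lo, (toSC c).dg) ∈
      (cells 2 sd.l).map fun q => (q.1, q.2.b, q.2.be, q.2.R, q.2.lo, q.2.dg) := by
    rw [sd_cells]
    exact List.mem_map_of_mem h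
  obtain ⟨q, hq, he⟩ := List.mem_map.1 h1
  simp only [Prod.mk.injEq] at he
  obtain ⟨e1, e2, e3, e4, e5, e6⟩ := he
  have : q = (aQ c, toSC c) := Prod.ext e1 (SC_ext e2 e3 e4 e5 e6)
  rw [← this]
  exact hq


/-- a point lies in only one cell -/
lemma cells_unique {a Y : ℚ} {l : List SC} (h : ends a l Y = true) {q q' : ℚ × SC}
    (hq : q ∈ cells a l) (hq' : q' ∈ cells a l) {y : ℝ} (h1 : (q.1 : ℝ) < y) (h2 : y ≤ q.2.b)
    (h1' : (q'.1 : ℝ) < y) (h2' : y ≤ q'.2.b) : q = q' := by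
  induction l generalizing a with
  | nil => simp [cells] at hq
  | cons c l ih =>
    simp only [ends, Bool.and_eq_true, decide_eq_true_eq] at h
    simp only [cells, List.mem_cons] at hq hq'
    rcases hq with rfl | hq
    · rcases hq' with rfl | hq'
      · rfl
      · have h3 := (cells_lt h.2 q' hq').1
        have h4 : (c.b : ℝ) < y := lt_of_le_of_lt (by exact_mod_cast h3) h1'
        exact absurd h2 (not_le.2 h4)
    · rcases hq' with rfl | hq'
      · have h3 := (cells_lt h.2 q hq).1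
        have h4 : (c.b : ℝ) < y := lt_of_le_of_lt (by exact_mod_cast h3) h1
        exact absurd h2' (not_le.2 h4)
      · exact ih h.2 hq hq'

lemma head_b : ∀ c ∈ C.cells, c ∈ C.cells.tail ∨ (toSC c).b = 2 := by
  intro c hc
  have : C.cells = C.cells.head (by decide) :: C.cells.tail := (List.cons_head_tail _).symm
  rw [this] at hc
  rcases List.mem_cons.1 hc with h | h
  · right
    rw [h]
    decide +kernel
  · exact Or.inl h

/-- from the existence form of cell facts to the universal form -/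
lemma of_exists {Q : C.Cell → ℝ → Prop}
    (h : ∀ y : ℝ, 0 < y → y ≤ 128 →
      ∃ c ∈ C.cells, ((aQ c : ℚ) : ℝ) < y ∧ y ≤ (toSC c).b ∧ Q c y) :
    ∀ q ∈ cells 2 sd.l, ∀ y : ℝ, (q.1 : ℝ) < y → y ≤ q.2.b →
      ∃ c ∈ C.cells.tail, q = (aQ c, toSC c) ∧ Q c y := by
  intro q hq y h1 h2
  have hlt := cells_lt sd_ok.2.2.2.2.1 q hq
  have hy2 : 2 < y := lt_of_le_of_lt (by exact_mod_cast hlt.1) h1
  have hy3 : y ≤ 128 := h2.trans (by
    have := (Rat.cast_le (K := ℝ)).2 hlt.2.2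
    exact this.trans (by norm_num [sd]))
  obtain ⟨c, hc, c1, c2, c3⟩ := h y (by linarith) hy3
  have hct : c ∈ C.cells.tail := by
    rcases head_b c hc with h | h
    · exact h
    · rw [h] at c2
      norm_num at c2
      exact absurd c2 (not_le.2 hy2)
  exact ⟨c, hct, cells_unique sd_ok.2.2.2.2.1 hq (mem_cells_of hct) h1 h2 c1 c2, c3⟩

/-- the same for the first cell -/
lemma of_exists0 {Q : C.Cell → ℝ → Prop}
    (h : ∀ y : ℝ, 0 < y → y ≤ 128 →
      ∃ c ∈ C.cells, ((aQ c : ℚ) : ℝ) < y ∧ y ≤ (toSC c).b ∧ Q c y) :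
    ∀ y : ℝ, 0 < y → y ≤ 2 → Q (C.cells.head (by decide)) y := by
  intro y h1 h2
  obtain ⟨c, hc, c1, c2, c3⟩ := h y h1 (by linarith)
  have : C.cells = C.cells.head (by decide) :: C.cells.tail := (List.cons_head_tail _).symm
  rw [this] at hc
  rcases List.mem_cons.1 hc with h | h
  · rw [← h]; exact c3
  · have h3 := (cells_lt sd_ok.2.2.2.2.1 _ (mem_cells_of h)).1
    have h4 : (2 : ℝ) ≤ aQ c := by exact_mod_cast h3
    linarith

/-- the weight inequality in the tail -/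
lemma be_far {y g : ℝ} (hy : 128 < y) (hg : 0 < g) (hg2 : g ≤ 717 / 1000) :
    ((1568 / 25 : ℝ) / y ^ 3) ^ 2 ≤ chi 4 y * (bet0 4 y / y ^ 2 + 1 / (2 * g ^ 2)) := by
  have hy0 : 0 < y := by linarith
  have h1 : (16 * (128 : ℝ) ^ 2 / (16 + (128 : ℝ) ^ 2)) ^ 3 ≤ chi 4 y * y ^ 6 :=
    chi_pow6' (by norm_num) hy.le
  have h2 : (4084 : ℝ) ≤ chi 4 y * y ^ 6 := le_trans (by norm_num) h1
  have hu0 := uu_pos y
  have hu1 : uu 4 y ≤ 1 := by
    rw [uu_eq, div_le_one (by positivity)]; nlinarith [sq_nonneg y]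
  have h3 : -(525 / 8) ≤ bet0 4 y := by
    unfold bet0
    have h31 : uu 4 y ^ 3 ≤ uu 4 y := by
      calc uu 4 y ^ 3 = uu 4 y * uu 4 y ^ 2 := by ring
        _ ≤ uu 4 y * 1 := mul_le_mul_of_nonneg_left (pow_le_one₀ hu0.le hu1) hu0.le
        _ = uu 4 y := mul_one _
    nlinarith [sq_nonneg (uu 4 y)]
  have hy2 : (16384 : ℝ) ≤ y ^ 2 := by nlinarith
  have h4 : -(525 / 8) / 16384 ≤ bet0 4 y / y ^ 2 := by
    rw [div_le_div_iff₀ (by norm_num) (by positivity)]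
    nlinarith
  have h5 : (1 : ℝ) / (2 * (717 / 1000) ^ 2) ≤ 1 / (2 * g ^ 2) := by
    apply one_div_le_one_div_of_le (by positivity)
    have := pow_le_pow_left₀ hg.le hg2 2
    linarith
  have h6 : (968 / 1000 : ℝ) ≤ bet0 4 y / y ^ 2 + 1 / (2 * g ^ 2) := by
    have : (968 / 1000 : ℝ) ≤ -(525 / 8) / 16384 + 1 / (2 * (717 / 1000) ^ 2) := by norm_num
    linarith
  have h7 : (4084 : ℝ) * (968 / 1000) ≤
      chi 4 y * y ^ 6 * (bet0 4 y / y ^ 2 + 1 / (2 * g ^ 2)) :=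
    mul_le_mul h2 h6 (by norm_num) (by have := (chi_pos y).le; positivity)
  rw [div_pow, ← pow_mul, div_le_iff₀ (by positivity)]
  calc (1568 / 25 : ℝ) ^ 2 ≤ 4084 * (968 / 1000) := by norm_num
    _ ≤ _ := h7
    _ = _ := by ring

/-! ### hypotheses in terms of the cells of `CertData` -/

/-- what is needed about `g0` -/
structure HG (g0 : ℝ → ℝ) : Prop where
  meas : Measurable g0
  cell : ∀ y : ℝ, 0 < y → y ≤ 128 →
    ∃ c ∈ C.cells, ((aQ c : ℚ) : ℝ) < y ∧ y ≤ ((toSC c).b : ℝ) ∧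
      (((toSC c).lo : ℚ) : ℝ) ≤ g0 y ∧
      (((toSC c).be : ℚ) : ℝ) ≤ bet0 4 y / y ^ 2 + 1 / (2 * g0 y ^ 2)
  lo_far : ∀ y : ℝ, 128 < y → 7 / 10 ≤ g0 y
  hi_far : ∀ y : ℝ, 128 < y → g0 y ≤ 717 / 1000

/-- what is needed about `G c - g0` -/
structure HD (g0 Gc : ℝ → ℝ) : Prop where
  cell : ∀ y : ℝ, 0 < y → y ≤ 128 →
    ∃ c ∈ C.cells, ((aQ c : ℚ) : ℝ) < y ∧ y ≤ ((toSC c).b : ℝ) ∧
      |Gc y - g0 y| ≤ (((toSC c).dg : ℚ) : ℝ)
  far : ∀ y : ℝ, 128 < y → |Gc y - g0 y| ≤ 1 / 2 ^ 25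

lemma sd_Y : (sd.Y : ℝ) = 128 := by norm_num [sd]

lemma head_eq : (toSC (C.cells.head (by decide))).lo = sd.lo0 ∧
    (toSC (C.cells.head (by decide))).be = sd.be0 ∧
    (toSC (C.cells.head (by decide))).dg = sd.dg0 := by decide +kernel

lemma HG.facts {g0 : ℝ → ℝ} (H : HG g0) : GFacts sd g0 where
  meas := H.meas
  lo_near := fun y h1 h2 => by
    have := (of_exists0 (Q := fun c y => (((toSC c).lo : ℚ) : ℝ) ≤ g0 y ∧
      (((toSC c).be : ℚ) : ℝ) ≤ bet0 4 y / y ^ 2 + 1 / (2 * g0 y ^ 2)) H.cell y h1 h2).1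
    rw [head_eq.1] at this
    exact this
  lo_cell := fun q hq y h1 h2 => by
    obtain ⟨c, -, he, h3, -⟩ := of_exists (Q := fun c y => (((toSC c).lo : ℚ) : ℝ) ≤ g0 y ∧
      (((toSC c).be : ℚ) : ℝ) ≤ bet0 4 y / y ^ 2 + 1 / (2 * g0 y ^ 2)) H.cell q hq y h1 h2
    rw [he]
    exact h3
  lo_far := fun y hy => by
    rw [sd_Y] at hy
    have := H.lo_far y hy
    norm_num [sd]
    linarith
  be_near := fun y h1 h2 => by
    have := (of_exists0 (Q := fun c y => (((toSC c).lo : ℚ) : ℝ) ≤ g0 y ∧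
      (((toSC c).be : ℚ) : ℝ) ≤ bet0 4 y / y ^ 2 + 1 / (2 * g0 y ^ 2)) H.cell y h1 h2).2
    rw [head_eq.2.1] at this
    exact this
  be_cell := fun q hq y h1 h2 => by
    obtain ⟨c, -, he, -, h3⟩ := of_exists (Q := fun c y => (((toSC c).lo : ℚ) : ℝ) ≤ g0 y ∧
      (((toSC c).be : ℚ) : ℝ) ≤ bet0 4 y / y ^ 2 + 1 / (2 * g0 y ^ 2)) H.cell q hq y h1 h2
    rw [he]
    exact h3
  be_far := fun y hy => by
    rw [sd_Y] at hy
    have h1 := H.lo_far y hy
    have := be_far hy (by linarith) (H.hi_far y hy)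
    have e : (sd.cp : ℝ) = 1568 / 25 := by norm_num [sd]
    rw [e]
    exact this

lemma HD.facts {g0 Gc : ℝ → ℝ} (H : HD g0 Gc) : DFacts sd g0 Gc where
  near := fun y h1 h2 => by
    have := of_exists0 (Q := fun c y => |Gc y - g0 y| ≤ (((toSC c).dg : ℚ) : ℝ)) H.cell y h1 h2
    rw [head_eq.2.2] at this
    exact this
  cell := fun q hq y h1 h2 => by
    obtain ⟨c, -, he, h3⟩ := of_exists (Q := fun c y => |Gc y - g0 y| ≤ (((toSC c).dg : ℚ) : ℝ))
      H.cell q hq y h1 h2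
    rw [he]
    exact h3
  far := fun y hy => by
    rw [sd_Y] at hy
    have e : (sd.dgt : ℝ) = 1 / 2 ^ 25 := by norm_num [sd]
    rw [e]
    exact H.far y hy

/-! ### the fields of `Cert` (constants `b = 4`, `n1 = 200/9`, `cq = 1/4`, `Cq = 143/100`,
`η = 1/100`, `M = 23/10`, `m = 1/2000`, `ρ = 1/5000`, `ε = 2/10^8`) -/

theorem sd_wdata {g0 : ℝ → ℝ} (H : HG g0) (hlo : ∀ y, 0 < y → 3 / 20 ≤ g0 y) :
    WData 4 (200 / 9) (1 / 4) (143 / 100) (nn g0) sd.p := by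
  have := wdata sd_ok (ck_of sd_chk) H.facts hlo
  norm_num at this
  norm_num
  exact this

theorem sd_p_tail : ∃ a : ℝ, 0 < a ∧ ∀ y, 1 ≤ y → a ≤ sd.p y * y ^ 3 :=
  p_tail sd_ok (ck_of sd_chk)

theorem sd_lip {g0 Gc : ℝ → ℝ} (H : HG g0) (D : HD g0 Gc) :
    ∀ y, 0 < y → ∀ h : ℝ, |h| ≤ 1 / 2000 →
    |1 / (2 * g0 y ^ 2) - 1 / (2 * (Gc y + h) ^ 2)| ≤ 1 / 100 * (sd.p y ^ 2 / chi 4 y) := by
  intro y hy h hh
  have := lip sd_ok (ck_of sd_chk) (by norm_num) H.facts D.facts y hy h (by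
    push_cast
    exact hh)
  push_cast at this
  exact this

theorem sd_R_meas : Measurable sd.R := R_measurable

theorem sd_R_M : IntegrableOn (fun y => (chi 4 y / sd.p y * (y ^ 8 * sd.R y)) ^ 2) (Ioi 0) ∧
    ∫ y in Ioi (0 : ℝ), (chi 4 y / sd.p y * (y ^ 8 * sd.R y)) ^ 2 ≤ (23 / 10) ^ 2 := by
  apply R_M sd_ok
  have := (Rat.cast_le (K := ℝ)).2 sd_M2
  push_cast at this
  exact this

theorem sd_R_near : ∀ y, 0 < y → y ≤ 2 → sd.R y ≤ 2 / 10 ^ 8 * y ^ 2 := by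
  intro y h1 h2
  have := R_near' (s := sd) y h1 h2
  have e : (sd.eps : ℝ) = 2 / 10 ^ 8 := by norm_num [sd]
  rw [e] at this
  exact this

theorem sd_R_far : ∀ y, 2 ≤ y → sd.R y ≤ 1 / 5000 := by
  intro y h1
  have := R_far' sd_ok (ck_of sd_chk) y h1
  push_cast at this
  exact this


/-- values of `p` and `R` on the cells (for the other fields) -/
theorem sd_p_cell {c : C.Cell} (hc : c ∈ C.cells) {y : ℝ} (h1 : ((aQ c : ℚ) : ℝ) < y)
    (h2 : y ≤ ((toSC c).b : ℝ)) : sd.p y = √(chi 4 y * ((toSC c).be : ℝ)) := by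
  have : C.cells = C.cells.head (by decide) :: C.cells.tail := (List.cons_head_tail _).symm
  rw [this] at hc
  rcases List.mem_cons.1 hc with h | h
  · have hb : (toSC (C.cells.head (by decide))).b = 2 := by decide +kernel
    rw [h] at h2 ⊢
    rw [hb] at h2
    rw [head_eq.2.1]
    exact p_near y (by exact_mod_cast h2)
  · exact p_cell sd_ok (mem_cells_of h) h1 h2

theorem sd_R_cell {c : C.Cell} (hc : c ∈ C.cells.tail) {y : ℝ} (h1 : ((aQ c : ℚ) : ℝ) < y)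
    (h2 : y ≤ ((toSC c).b : ℝ)) : sd.R y = ((toSC c).R : ℝ) :=
  R_cell sd_ok (mem_cells_of hc) h1 h2

theorem sd_R_zero {y : ℝ} (h : y ≤ 2) : sd.R y = 2 / 10 ^ 8 * y ^ 2 := by
  rw [R_near y h]
  norm_num [sd]


theorem sd_R_tail {y : ℝ} (h : 128 < y) : sd.R y = 7 / 10 ^ 14 * (128 / y) ^ 6 := by
  rw [R_far sd_ok (by rw [sd_Y]; exact h)]
  norm_num [sd]

end Crest.Agent.R213.E.St
end
end

-- ▼ part R213/E/SBridge
section

/-!
# Row 213, part E, E-CERT: from the cell facts (`C.Fact`) to the inputs `HG`, `HD` of SDef (helper587)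
-/

set_option autoImplicit false

open Set MeasureTheory Filter Topology

noncomputable section

namespace Crest.Agent.R213.E.St

lemma aQ_cast (c : C.Cell) : ((aQ c : ℚ) : ℝ) = c.gP.a C.KE := by
  rw [C.gP_a]; unfold aQ; push_cast; ring

lemma b_cast (c : C.Cell) : (((toSC c).b : ℚ) : ℝ) = c.gP.b C.KE := by
  rw [C.gP_b]; unfold toSC; push_cast; ring

lemma lo_cast (c : C.Cell) : (((toSC c).lo : ℚ) : ℝ) = (c.gl4 : ℝ) / 10 ^ 4 := by
  unfold toSC; push_cast; rfl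

lemma be_cast (c : C.Cell) : (((toSC c).be : ℚ) : ℝ) = (c.B3 : ℝ) / 1000 := by
  unfold toSC; push_cast; rfl

lemma R_cast (c : C.Cell) : (((toSC c).R : ℚ) : ℝ) = (c.R20 : ℝ) / 10 ^ 20 := by
  unfold toSC; push_cast; rfl

lemma dg_cast (c : C.Cell) : (((toSC c).dg : ℚ) : ℝ) = (c.kb3 : ℝ) / 10 ^ 3 * (1 / 2 ^ 26) := by
  unfold toSC; push_cast; ring

/-- `HG` from the cell facts -/
theorem HG_of {g k : ℝ → ℝ} (hm : Measurable g)
    (hf : ∀ y : ℝ, 0 < y → y ≤ 128 → ∃ c ∈ C.cells, C.Fact g k c y ∧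
      (c.B3 : ℝ) / 10 ^ 3 ≤ bet0 4 y / y ^ 2 + 1 / (2 * g y ^ 2))
    (hl : ∀ y : ℝ, 128 < y → 7 / 10 ≤ g y) (hh : ∀ y : ℝ, 128 < y → g y ≤ 717 / 1000) :
    HG g where
  meas := hm
  cell := fun y h1 h2 => by
    obtain ⟨c, hc, ⟨f1, f2, f3, -, -⟩, f4⟩ := hf y h1 h2
    refine ⟨c, hc, by rw [aQ_cast]; exact f1, by rw [b_cast]; exact f2,
      by rw [lo_cast]; exact f3, ?_⟩
    rw [be_cast]
    have e : (1000 : ℝ) = 10 ^ 3 := by norm_num
    rw [e]
    exact f4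
  lo_far := hl
  hi_far := hh

/-- `HD` from the cell facts -/
theorem HD_of {g k Gc : ℝ → ℝ} {e : ℝ} (he : |e| ≤ 1 / 2 ^ 26)
    (hf : ∀ y : ℝ, 0 < y → y ≤ 128 → ∃ c ∈ C.cells, C.Fact g k c y)
    (hG : ∀ y : ℝ, 0 < y → y ≤ 128 → Gc y = g y + e * k y)
    (ht : ∀ y : ℝ, 128 < y → |Gc y - g y| ≤ 1 / 2 ^ 25) :
    HD g Gc where
  cell := fun y h1 h2 => by
    obtain ⟨c, hc, f1, f2, -, -, f5⟩ := hf y h1 h2
    refine ⟨c, hc, by rw [aQ_cast]; exact f1, by rw [b_cast]; exact f2, ?_⟩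
    rw [hG y h1 h2, add_sub_cancel_left, abs_mul, dg_cast, mul_comm]
    exact mul_le_mul f5 he (abs_nonneg _) (by positivity)
  far := ht


end Crest.Agent.R213.E.St
end
end

-- ▼ part R213/E/CertAsm
section

/-!
# Row 213, part E, E-CERT: assembly of the certificate from the cell facts and the tail facts (helper49)
-/

set_option autoImplicit false

open Set MeasureTheory Filter Topology

noncomputable section

namespace Crest.Agent.R213.E

/-- facts about the family `G` (with `y`-derivatives `G1, G2, G3`) and the `c`-derivative `k`. -/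
structure FamFacts (k : ℝ → ℝ) (G G1 G2 G3 : ℝ → ℝ → ℝ) : Prop where
  C3 : ∀ c ∈ Icc (cst.c0 - cst.δ) (cst.c0 + cst.δ), C3On (Ioi 0) (G c) (G1 c) (G2 c) (G3 c)
  G3c : ∀ c ∈ Icc (cst.c0 - cst.δ) (cst.c0 + cst.δ), ContinuousOn (G3 c) (Ioi 0)
  Gcc : ∀ y, 0 < y → ContinuousOn (fun c => G c y) (Icc (cst.c0 - cst.δ) (cst.c0 + cst.δ))
  Rcc : ∀ y, 0 < y → ContinuousOn (fun c => resid c y (G c y) (G1 c y) (G2 c y) (G3 c y))
    (Icc (cst.c0 - cst.δ) (cst.c0 + cst.δ))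
  meas : Measurable (G cst.c0)
  cell : ∀ y : ℝ, 0 < y → y ≤ 128 → ∃ c ∈ C.cells, C.Fact (G cst.c0) k c y ∧
      (c.B3 : ℝ) / 10 ^ 3 ≤ bet0 4 y / y ^ 2 + 1 / (2 * G cst.c0 y ^ 2)
  lin : ∀ c ∈ Icc (cst.c0 - cst.δ) (cst.c0 + cst.δ), ∀ y : ℝ, 0 < y → y ≤ 128 →
    G c y = G cst.c0 y + (c - cst.c0) * k y
  one : G cst.c0 1 ≤ 879 / 1000
  res : ∀ c ∈ Icc (cst.c0 - cst.δ) (cst.c0 + cst.δ), ∀ y : ℝ, 0 < y →
    |resid c y (G c y) (G1 c y) (G2 c y) (G3 c y)| ≤ St.sd.R y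
  far : ∀ c ∈ Icc (cst.c0 - cst.δ) (cst.c0 + cst.δ), ∀ y : ℝ, 128 < y → |G c y - cst.c0| ≤ 3 / 1000
  far_c : ∀ c ∈ Icc (cst.c0 - cst.δ) (cst.c0 + cst.δ), ∀ y : ℝ, 128 < y →
    |G c y - G cst.c0 y| ≤ 1 / 2 ^ 25
  tail : ∀ c ∈ Icc (cst.c0 - cst.δ) (cst.c0 + cst.δ), ∃ C, ∀ y, 1 ≤ y → |G c y - S3 c y| ≤ C / y ^ 8

theorem c0_mem : cst.c0 ∈ Icc (cst.c0 - cst.δ) (cst.c0 + cst.δ) := by
  have : 0 < cst.δ := by norm_num [cst]
  constructor <;> linarith

theorem c_abs {c : ℝ} (hc : c ∈ Icc (cst.c0 - cst.δ) (cst.c0 + cst.δ)) :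
    |c - cst.c0| ≤ 1 / 2 ^ 26 := by
  have h : cst.δ = 1 / 2 ^ 26 := rfl
  rw [abs_le, ← h]; constructor <;> linarith [hc.1, hc.2]

theorem c0_bd : 7139 / 10000 ≤ cst.c0 ∧ cst.c0 ≤ 714 / 1000 := by
  constructor <;> norm_num [cst, C.C0]

variable {k : ℝ → ℝ} {G G1 G2 G3 : ℝ → ℝ → ℝ}

/-- bounds for every `y > 0`. -/
theorem fam_bds (F : FamFacts k G G1 G2 G3) {c : ℝ}
    (hc : c ∈ Icc (cst.c0 - cst.δ) (cst.c0 + cst.δ)) {y : ℝ} (hy : 0 < y) :
    169 / 1000 ≤ G c y ∧ G c y ≤ 11 / 10 ∧ (y ≤ 2 → 7 / 10 ≤ G c y) ∧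
      (2 ≤ y → 4 / 3 ≤ y * (G c y - 1 / 2000)) := by
  have hcb := c0_bd
  rcases le_or_gt y 128 with h | h
  · obtain ⟨q, hq, hf, -⟩ := F.cell y hy h
    obtain ⟨h1, h2, -, h3, h4⟩ := C.fact_bounds hq hf (c_abs hc)
    rw [← F.lin c hc y hy h] at h1 h2 h3 h4
    refine ⟨h1, h2, h3, fun h5 => ?_⟩
    rcases h5.lt_or_eq with h5 | h5
    · exact h4 h5
    · have := h3 h5.symm.le
      rw [← h5] at this ⊢; linarith
  · have h1 := abs_le.1 (F.far c hc y h)
    have h2 : 7 / 10 ≤ G c y := by linarith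
    refine ⟨by linarith, by linarith, fun h3 => by linarith, fun _ => ?_⟩
    have h3 : 128 * (7 / 10 - 1 / 2000) ≤ y * (G c y - 1 / 2000) := by
      apply mul_le_mul h.le (by linarith) (by norm_num) hy.le
    refine le_trans ?_ h3
    norm_num

/-- the weights' input. -/
theorem fam_HG (F : FamFacts k G G1 G2 G3) : St.HG (G cst.c0) := by
  have hcb := c0_bd
  refine St.HG_of F.meas F.cell (fun y hy => ?_) (fun y hy => ?_)
  · have := abs_le.1 (F.far cst.c0 c0_mem y hy); linarith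
  · have := abs_le.1 (F.far cst.c0 c0_mem y hy); linarith

theorem fam_HD (F : FamFacts k G G1 G2 G3) {c : ℝ}
    (hc : c ∈ Icc (cst.c0 - cst.δ) (cst.c0 + cst.δ)) : St.HD (G cst.c0) (G c) := by
  refine St.HD_of (c_abs hc) (k := k) (fun y h1 h2 => ?_) (F.lin c hc) (F.far_c c hc)
  obtain ⟨q, hq, hf, -⟩ := F.cell y h1 h2
  exact ⟨q, hq, hf⟩

/-- facts about the adjoint function. -/
structure PsiFacts (G G1 G2 G3 : ℝ → ℝ → ℝ) (ψ ψ1 ψ2 ψ3 : ℝ → ℝ) : Prop where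
  ψ_d : ∀ y ∈ Icc 0 cst.Y, HasDerivWithinAt ψ (ψ1 y) (Icc 0 cst.Y) y
  ψ1_d : ∀ y ∈ Icc 0 cst.Y, HasDerivWithinAt ψ1 (ψ2 y) (Icc 0 cst.Y) y
  ψ2_d : ∀ y ∈ Icc 0 cst.Y, HasDerivWithinAt ψ2 (ψ3 y) (Icc 0 cst.Y) y
  ψ3_c : ContinuousOn ψ3 (Icc 0 cst.Y)
  ψ_Y : ψ cst.Y = 0
  ψ1_Y : ψ1 cst.Y = 0
  ψ2_Y : ψ2 cst.Y = 0
  ψ_0 : 0 < ψ 0
  K1_int : IntervalIntegrable (fun y => (ψ y * St.sd.p y / chi cst.b y) ^ 2) volume 0 cst.Y
  K1_le : ∫ y in (0 : ℝ)..cst.Y, (ψ y * St.sd.p y / chi cst.b y) ^ 2 ≤ cst.K1 ^ 2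
  K2_int : IntervalIntegrable
    (fun y => ((y * ψ3 y + 12 * ψ2 y - nn (G cst.c0) y * ψ y) / St.sd.p y) ^ 2) volume 0 cst.Y
  K2_le : ∫ y in (0 : ℝ)..cst.Y,
    ((y * ψ3 y + 12 * ψ2 y - nn (G cst.c0) y * ψ y) / St.sd.p y) ^ 2 ≤ cst.K2 ^ 2
  main_hi : cst.K ≤ -∫ y in (0 : ℝ)..cst.Y, ψ y * (y ^ 8 * resid (cst.c0 + cst.δ) y
    (G (cst.c0 + cst.δ) y) (G1 (cst.c0 + cst.δ) y) (G2 (cst.c0 + cst.δ) y) (G3 (cst.c0 + cst.δ) y))
  main_lo : cst.K ≤ ∫ y in (0 : ℝ)..cst.Y, ψ y * (y ^ 8 * resid (cst.c0 - cst.δ) y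
    (G (cst.c0 - cst.δ) y) (G1 (cst.c0 - cst.δ) y) (G2 (cst.c0 - cst.δ) y) (G3 (cst.c0 - cst.δ) y))

theorem cert_of {ψ ψ1 ψ2 ψ3 : ℝ → ℝ} (F : FamFacts k G G1 G2 G3)
    (H : PsiFacts G G1 G2 G3 ψ ψ1 ψ2 ψ3) :
    Cert cst St.sd.p St.sd.R G G1 G2 G3 ψ ψ1 ψ2 ψ3 where
  δ_pos := by norm_num [cst]
  c_lo := cst_lo
  c_hi := cst_hi
  G_C3 := F.C3
  G3_cont := F.G3c
  G_cc := F.Gcc
  res_cc := F.Rcc
  m_pos := by norm_num [cst]
  m_le := by norm_num [cst]
  G_lo := fun c hc y hy => by have := (fam_bds F hc hy).1; linarith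
  G_hi := fun c hc y hy => by have := (fam_bds F hc hy).2.1; linarith
  G_lo1 := fun c hc y hy h2 => by have := (fam_bds F hc hy).2.2.1 h2; linarith
  G_lo2 := fun c hc y hy => (fam_bds F hc (by linarith)).2.2.2 hy
  at_one := fun c hc => by
    have h1 := F.lin c hc 1 one_pos (by norm_num)
    obtain ⟨q, hq, hf, -⟩ := F.cell 1 one_pos (by norm_num)
    have h2 := abs_le.1 (C.fact_bounds hq hf (c_abs hc)).2.2.1
    have h3 := F.one
    rw [h1]; linarith
  tail := F.tail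
  b_ge := by norm_num [cst]
  wdata := St.sd_wdata (fam_HG F) (fun y hy => by
    have := (fam_bds F c0_mem hy).1; linarith)
  p_tail := St.sd_p_tail
  η_nonneg := by norm_num [cst]
  η_lt := by norm_num [cst]
  lip := fun c hc => St.sd_lip (fam_HG F) (fam_HD F hc)
  res := F.res
  R_meas := St.sd_R_meas
  M_nonneg := by norm_num [cst]
  R_int := St.sd_R_M.1
  R_M := St.sd_R_M.2
  R_near := St.sd_R_near
  R_far := St.sd_R_far
  close := cst_close
  Y_pos := by norm_num [cst]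
  ψ_d := H.ψ_d
  ψ1_d := H.ψ1_d
  ψ2_d := H.ψ2_d
  ψ3_c := H.ψ3_c
  ψ_Y := H.ψ_Y
  ψ1_Y := H.ψ1_Y
  ψ2_Y := H.ψ2_Y
  ψ_0 := H.ψ_0
  K1_nonneg := by norm_num [cst]
  K2_nonneg := by norm_num [cst]
  K1_int := H.K1_int
  K1_le := H.K1_le
  K2_int := H.K2_int
  K2_le := H.K2_le
  small := cst_small
  main_hi := H.main_hi
  main_lo := H.main_lo

end Crest.Agent.R213.E
end
end

-- ▼ part R213/E/PsiCert
section

/-!
# Row 213, part E, E-CERT: the fields `PsiFacts` of the certificate (helper110)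
-/

set_option autoImplicit false

open Set MeasureTheory

namespace Crest.Agent.R213.E.C.Ps


theorem tl_contOn (A : List Int) (r : ℕ) {b : ℝ} (hb : b = 128) :
    ContinuousOn (tl 128 SE A r) (Ici b) := by
  intro y hy
  have hy' : b ≤ y := hy
  exact (hasDerivAt_tl 128 SE A r (by rw [hb] at hy'; linarith)).continuousAt.continuousWithinAt

theorem cells_ne_g : cells.map Cell.gP ≠ [] := by decide
theorem cells_ne_k : cells.map Cell.kP ≠ [] := by decide

theorem gg_deriv {r : ℕ} (hr : r < 3) (y : ℝ) : HasDerivAt (gg r) (gg (r + 1) y) y :=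
  pw_hasDerivAt _ cells_ne_g chain_g (fun q hq => (last_g q hq).1) r hr y

theorem kk_deriv {r : ℕ} (hr : r < 3) (y : ℝ) : HasDerivAt (kk r) (kk (r + 1) y) y :=
  pw_hasDerivAt _ cells_ne_k chain_k (fun q hq => (last_k q hq).1) r hr y

theorem gg_cont {r : ℕ} (hr : r ≤ 3) : Continuous (gg r) := by
  rcases hr.lt_or_eq with h | h
  · exact continuous_iff_continuousAt.2 fun y => (gg_deriv h y).continuousAt
  · subst h
    exact continuous_iff_continuousAt.2 fun y => pw_cont _ cells_ne_g chain_g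
      (fun q hq => (last_g q hq).1) (fun q hq => tl_contOn A0 3 (last_g q hq).2) y

theorem kk_cont {r : ℕ} (hr : r ≤ 3) : Continuous (kk r) := by
  rcases hr.lt_or_eq with h | h
  · exact continuous_iff_continuousAt.2 fun y => (kk_deriv h y).continuousAt
  · subst h
    exact continuous_iff_continuousAt.2 fun y => pw_cont _ cells_ne_k chain_k
      (fun q hq => (last_k q hq).1) (fun q hq => tl_contOn A1 3 (last_k q hq).2) y

theorem zz_zero (x : ℝ) (r : ℕ) {y : ℝ} (hy : y ≤ 128) : zz x r y = 0 := by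
  have hd : ∀ r, dern r ([] : List Int) = [] := by
    intro r; induction r with
    | zero => rfl
    | succ r ih => simpa [dern, der] using ih
  rw [zz, pw, if_pos (by rw [zP_b]; exact hy)]
  simp [Pc.f, zP, hd]

theorem GF_eq (r : ℕ) (c : ℝ) {y : ℝ} (hy : y ≤ 128) : GF r c y = gg r y + (c - c0R) * kk r y := by
  rw [GF, zz_zero _ r hy, add_zero]; rfl

theorem c0_eq : cst.c0 = c0R := rfl
theorem d_eq : cst.δ = dR := rfl

theorem p_cell : PCell St.sd.p := by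
  intro x hx y h1 h2
  rw [St.sd_p_cell hx (by rw [St.aQ_cast]; exact h1) (by rw [St.b_cast]; exact h2), St.be_cast]

theorem main_res (hres : ∀ c ∈ Icc (cst.c0 - cst.δ) (cst.c0 + cst.δ), ∀ y : ℝ, 0 < y →
    |resid c y (GF 0 c y) (GF 1 c y) (GF 2 c y) (GF 3 c y)| ≤ St.sd.R y) {c : ℝ}
    (hc : c ∈ Icc (cst.c0 - cst.δ) (cst.c0 + cst.δ)) : ∀ x ∈ cells, ∀ y, x.gP.a KE < y →
      y ≤ x.gP.b KE → 8 < y →
      |resid c y (gf (tl 128 SE A0) 0 y + (c - c0R) * kf (tl 128 SE A1) 0 y)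
        (gf (tl 128 SE A0) 1 y + (c - c0R) * kf (tl 128 SE A1) 1 y)
        (gf (tl 128 SE A0) 2 y + (c - c0R) * kf (tl 128 SE A1) 2 y)
        (gf (tl 128 SE A0) 3 y + (c - c0R) * kf (tl 128 SE A1) 3 y)| ≤ (x.R20 : ℝ) / 10 ^ 20 := by
  intro x hx y h1 h2 h8
  have hb : ∀ x ∈ cells, x.gP.b KE ≤ 128 := by
    have h : cells.all (fun x => decide (x.H * (x.M + 1) ≤ 1024)) = true := by decide +kernel
    intro x hx
    have h3 : x.H * (x.M + 1) ≤ 1024 := by simpa using List.all_eq_true.1 h x hx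
    rw [b_KE]
    have : ((x.gP.H * (x.gP.M + 1) : ℕ) : ℝ) ≤ 1024 := by exact_mod_cast h3
    linarith
  have hy128 : y ≤ 128 := h2.trans (hb x hx)
  have hx' : x ∈ cells.tail := by
    have hcons : cells = cells.head (by decide) :: cells.tail := (List.cons_head_tail _).symm
    rw [hcons] at hx
    rcases List.mem_cons.1 hx with h | h
    · exfalso
      have hh : (cells.head (by decide)).H * ((cells.head (by decide)).M + 1) = 16 := by
        decide +kernel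
      rw [h, b_KE] at h2
      have : (((cells.head (by decide)).gP.H * ((cells.head (by decide)).gP.M + 1) : ℕ) : ℝ) = 16 := by
        exact_mod_cast hh
      rw [this] at h2
      linarith
    · exact h
  have h := hres c hc y (by linarith)
  rw [St.sd_R_cell hx' (by rw [St.aQ_cast]; exact h1) (by rw [St.b_cast]; exact h2), St.R_cast] at h
  rw [GF_eq 0 c hy128, GF_eq 1 c hy128, GF_eq 2 c hy128, GF_eq 3 c hy128] at h
  exact h

theorem PF_eq (c : ℝ) : ∫ y in (0 : ℝ)..16, PF (tl 128 SE A0) (tl 128 SE A1) c y =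
    ∫ y in (0 : ℝ)..16, psi 0 y * (y ^ 8 * resid c y (GF 0 c y) (GF 1 c y) (GF 2 c y) (GF 3 c y)) := by
  refine intervalIntegral.integral_congr_ae (Filter.Eventually.of_forall fun y hy => ?_)
  rw [uIoc_of_le (by norm_num)] at hy
  have h : y ≤ 128 := hy.2.trans (by norm_num)
  rw [GF_eq 0 c h, GF_eq 1 c h, GF_eq 2 c h, GF_eq 3 c h]
  rfl

/-- all the fields of `PsiFacts`, from the residual bound of the family. -/
theorem psiFacts (hres : ∀ c ∈ Icc (cst.c0 - cst.δ) (cst.c0 + cst.δ), ∀ y : ℝ, 0 < y →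
    |resid c y (GF 0 c y) (GF 1 c y) (GF 2 c y) (GF 3 c y)| ≤ St.sd.R y) :
    PsiFacts (fun c y => GF 0 c y) (fun c y => GF 1 c y) (fun c y => GF 2 c y)
      (fun c y => GF 3 c y) (psi 0) (psi 1) (psi 2) (psi 3) := by
  have hY : cst.Y = 16 := rfl
  have hb : cst.b = 4 := rfl
  have hpm : Measurable St.sd.p := St.p_measurable
  have hK1 := K1_bound hpm p_cell
  have hgm : Measurable (gf (tl 128 SE A0) 0) := (gg_cont (by norm_num)).measurable
  have hg0 : ∀ y : ℝ, 0 < y → y ≤ 16 → GF 0 cst.c0 y = gf (tl 128 SE A0) 0 y := by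
    intro y _ h2
    rw [GF_eq 0 _ (h2.trans (by norm_num)), c0_eq, sub_self, zero_mul, add_zero]
    rfl
  have hK2 := K2_bound hpm p_cell hgm hg0
  have hd0 : 0 < dR := by unfold dR; positivity
  have hmain : ∀ (s : ℝ), s = 1 ∨ s = -1 → ∀ c, c = c0R + s * dR →
      c ∈ Icc (cst.c0 - cst.δ) (cst.c0 + cst.δ) →
      3 / 4 ≤ s * -∫ y in (0 : ℝ)..16, psi 0 y *
        (y ^ 8 * resid c y (GF 0 c y) (GF 1 c y) (GF 2 c y) (GF 3 c y)) := by
    intro s hs c hc hmem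
    rw [← PF_eq]
    exact main_core (fun r hr => gg_cont hr) (fun r hr => kk_cont hr)
      (fun r hr y => kk_deriv hr y) hs hc (main_res hres hmem)
  refine ⟨fun y _ => (psi_deriv (by norm_num) y).hasDerivWithinAt,
    fun y _ => (psi_deriv (by norm_num) y).hasDerivWithinAt,
    fun y _ => (psi_deriv (by norm_num) y).hasDerivWithinAt, psi3_cont.continuousOn,
    psi_16 (by norm_num), psi_16 (by norm_num), psi_16 (by norm_num), psi_0, ?_, ?_, ?_, ?_, ?_, ?_⟩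
  · rw [hY, hb]; exact hK1.1
  · rw [hY, hb]; exact hK1.2
  · rw [hY]; exact hK2.1
  · rw [hY]; exact hK2.2
  · have h := hmain 1 (Or.inl rfl) (cst.c0 + cst.δ) (by rw [c0_eq, d_eq]; ring)
      ⟨by rw [d_eq]; linarith, le_rfl⟩
    rw [one_mul] at h
    exact h
  · have h := hmain (-1) (Or.inr rfl) (cst.c0 - cst.δ) (by rw [c0_eq, d_eq]; ring)
      ⟨le_rfl, by rw [d_eq]; linarith⟩
    rw [neg_mul_neg, one_mul] at h
    exact h

end Crest.Agent.R213.E.C.Ps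
end

-- ▼ part R213/E/CFamTail
section

/-!
# Row 213, part E, certificate: facts about the family `GF` on the tail (helper472)
-/

set_option autoImplicit false

open Set

namespace Crest.Agent.R213.E.C

/-- beyond the last end the spline is the tail function -/
theorem pw_tail {K S : ℕ} {T : ℕ → ℝ → ℝ} : ∀ (l : List Pc), chain l = true →
    ∀ Y : ℝ, (∀ q, l.getLast? = some q → q.b K = Y) → ∀ r y, Y < y → pw K S l T r y = T r y := by
  intro l
  induction l with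
  | nil => intro _ _ _ r y _; rfl
  | cons p l ih =>
    intro hc Y hY r y hy
    have hpY : p.b K ≤ Y := by
      cases l with
      | nil => exact (hY p rfl).le
      | cons q l' =>
        -- all ends are `≤ Y`
        have key : ∀ (l : List Pc) (p : Pc), chain (p :: l) = true →
            (∀ q, (p :: l).getLast? = some q → q.b K = Y) → p.b K ≤ Y := by
          intro l
          induction l with
          | nil => intro p _ h; exact (h p rfl).le
          | cons q l ih2 =>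
            intro p hc h
            have h1 := ih2 q (chain_tail hc) (fun q' hq' => h q' (by simpa using hq'))
            have hj : joint p q = true := by
              simp only [chain, Bool.and_eq_true] at hc
              exact hc.1.2
            exact (b_lt_b (chain_head (chain_tail hc)) hj).le.trans h1
        exact key (q :: l') p hc hY
    rw [pw, if_neg (not_le.2 (lt_of_le_of_lt hpY hy))]
    cases l with
    | nil => rfl
    | cons q l' => exact ih (chain_tail hc) Y (fun q' hq' => hY q' (by simpa using hq')) r y hy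

theorem gg_tail (r : ℕ) {y : ℝ} (hy : 128 < y) : gg r y = tl 128 SE A0 r y :=
  pw_tail _ chain_g 128 (fun q hq => (last_g q hq).2) r y hy

theorem kk_tail (r : ℕ) {y : ℝ} (hy : 128 < y) : kk r y = tl 128 SE A1 r y :=
  pw_tail _ chain_k 128 (fun q hq => (last_k q hq).2) r y hy

theorem zz_tail (x : ℝ) (r : ℕ) {y : ℝ} (hy : 128 < y) :
    zz x r y = x ^ 2 * tl2 128 SE (EL 60 2 C0) x r y :=
  pw_tail [zP] (by decide) 128 (fun q hq => by
    simp only [List.getLast?_singleton, Option.some.injEq] at hq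
    subst hq
    exact zP_b) r y hy

theorem zz_cell (x : ℝ) (r : ℕ) {y : ℝ} (hy : y ≤ 128) : zz x r y = 0 := by
  unfold zz
  rw [pw, if_pos (by rw [zP_b]; exact hy)]
  have hd : ∀ r, dern r ([] : List Int) = [] := by
    intro r; induction r with
    | zero => rfl
    | succ r ih => simpa [dern, der] using ih
  simp [Pc.f, zP, hd]

/-- on `(-∞,128]` -/
theorem GF_cell (r : ℕ) (c : ℝ) {y : ℝ} (hy : y ≤ 128) :
    GF r c y = gg r y + (c - C0 / 2 ^ 60) * kk r y := by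
  rw [GF, zz_cell _ r hy, add_zero]

/-- on the tail -/
theorem GF_tail (r : ℕ) (c : ℝ) {y : ℝ} (hy : 128 < y) :
    GF r c y = tl2 128 SE (famL 60 2 C0 A0 A1) (c - C0 / 2 ^ 60) r y := by
  rw [GF, gg_tail r hy, kk_tail r hy, zz_tail _ r hy]
  simp only [famL, tl2]
  ring

section
variable (tail_ok : TailOK 60 2 464 C0 A0 A1 26 14 25)
include tail_ok

theorem GF_far {c : ℝ} (hc : |c - C0 / 2 ^ 60| ≤ 1 / 2 ^ 26) {y : ℝ} (hy : 128 < y) :
    |GF 0 c y - C0 / 2 ^ 60| ≤ 1 / 500 := by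
  have := tail_near tail_ok hc hy.le
  rw [GF_tail 0 c hy]
  exact this

theorem GF_far_c {c : ℝ} (hc : |c - C0 / 2 ^ 60| ≤ 1 / 2 ^ 26) {y : ℝ} (hy : 128 < y) :
    |GF 0 c y - GF 0 (C0 / 2 ^ 60) y| ≤ 1 / 2 ^ 25 := by
  have := tail_close tail_ok hc hy.le
  rw [GF_tail 0 c hy, GF_tail 0 _ hy, sub_self]
  exact this

theorem GF_res_tail {c : ℝ} (hc : |c - C0 / 2 ^ 60| ≤ 1 / 2 ^ 26) {y : ℝ} (hy : 128 < y) :
    |resid c y (GF 0 c y) (GF 1 c y) (GF 2 c y) (GF 3 c y)| ≤ 7 / 10 ^ 14 * (128 / y) ^ 6 := by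
  have hC : (7139 / 10000 : ℝ) ≤ C0 / 2 ^ 60 := by norm_num [C0]
  have h := tail_resid tail_ok (c := c) hc hy.le (by push_cast; ring) (by push_cast; linarith)
    (by linarith [(abs_le.1 hc).1, (by norm_num : (1 : ℝ) / 2 ^ 26 ≤ 1 / 10000)])
  rw [GF_tail 0 c hy, GF_tail 1 c hy, GF_tail 2 c hy, GF_tail 3 c hy]
  exact h

theorem GF_ser : ∃ C : ℝ, ∀ c : ℝ, |c - C0 / 2 ^ 60| ≤ 1 / 2 ^ 26 → ∀ y : ℝ, 128 < y →
    |GF 0 c y - S3 c y| ≤ C / y ^ 8 := by
  obtain ⟨C, hC⟩ := tail_S3 tail_ok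
  refine ⟨C, fun c hc y hy => ?_⟩
  rw [GF_tail 0 c hy]
  exact hC _ c y hc hy.le (by push_cast; ring)

end

/-- `GF` is continuous in `y` -/
theorem GF_continuous (c : ℝ) : Continuous (GF 0 c) :=
  continuous_iff_continuousAt.2 fun y => (GF_hasDerivAt c 0 (by norm_num) y).continuousAt

/-- the field `tail` of `FamFacts` -/
theorem GF_tail_all (tail_ok : TailOK 60 2 464 C0 A0 A1 26 14 25) {c : ℝ}
    (hc : |c - C0 / 2 ^ 60| ≤ 1 / 2 ^ 26) :
    ∃ C : ℝ, ∀ y, 1 ≤ y → |GF 0 c y - S3 c y| ≤ C / y ^ 8 := by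
  obtain ⟨C, hC⟩ := GF_ser tail_ok
  have hcont : ContinuousOn (fun y => |GF 0 c y - S3 c y| * y ^ 8) (Icc 1 128) := by
    refine ContinuousOn.mul ?_ (continuous_pow 8).continuousOn
    refine ContinuousOn.abs ?_
    refine ContinuousOn.sub (GF_continuous c).continuousOn ?_
    intro y hy
    have hy0 : y ≠ 0 := by have := hy.1; positivity
    unfold S3
    refine ContinuousAt.continuousWithinAt ?_
    fun_prop (disch := positivity)
  obtain ⟨B, hB⟩ := isCompact_Icc.exists_bound_of_continuousOn hcont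
  refine ⟨max B C, fun y hy => ?_⟩
  have hy0 : 0 < y := by linarith
  rcases le_or_gt y 128 with h | h
  · have h1 := hB y ⟨hy, h⟩
    rw [Real.norm_eq_abs] at h1
    rw [le_div_iff₀ (by positivity)]
    exact ((le_abs_self _).trans h1).trans (le_max_left _ _)
  · refine (hC c hc y h).trans ?_
    gcongr
    exact le_max_right _ _

end Crest.Agent.R213.E.C
end

-- ▼ part R213/E/CertOne
section

set_option autoImplicit false

open Set

namespace Crest.Agent.R213.E.C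

/-- the first cell, `(0,2]` -/
def cell1 : Cell := cells.headD ⟨0, 0, 0, [], 0, [], 0, 0, 0, 0, 0⟩

theorem cells_eq : cells = cell1 :: cells.tail := rfl

theorem cell1_H : cell1.H = 8 := rfl
theorem cell1_M : cell1.M = 1 := rfl

theorem pw_one_g (T : ℕ → ℝ → ℝ) : pw KE SE (cells.map Cell.gP) T 0 1 = ev cell1.G 0 / 2 ^ SE := by
  have hb : (cell1.gP).b KE = 2 := by rw [gP_b, cell1_H, cell1_M]; norm_num
  rw [cells_eq, List.map_cons, pw, if_pos (by rw [hb]; norm_num)]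
  simp [Pc.f, dern, Pc.h, Cell.gP, cell1_H, cell1_M, KE]
  norm_num


theorem pw_one_le (T : ℕ → ℝ → ℝ) : pw KE SE (cells.map Cell.gP) T 0 1 ≤ 879 / 1000 := by
  rw [pw_one_g]
  have e : ev cell1.G 0 = (evI cell1.G 0 : ℝ) := by simpa using ev_int cell1.G 0
  have h : (1000 : ℝ) * (evI cell1.G 0 : ℝ) ≤ 879 * 2 ^ SE := by
    exact_mod_cast (by decide +kernel : 1000 * evI cell1.G 0 ≤ 879 * 2 ^ SE)
  rw [e, div_le_iff₀ (by positivity)]
  linarith

end Crest.Agent.R213.E.C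
end

-- ▼ part R213/E/CertFam

/-!
# Row 213, part E, E-CERT: the fields of `FamFacts` for helper472's family `GF` (helper49)
-/

set_option autoImplicit false

open Set MeasureTheory Filter Topology

noncomputable section

namespace Crest.Agent.R213.E.C


theorem tl2_cont_at (S : ℕ) (L : List (List Int)) (x : ℝ) (r : ℕ) {y : ℝ} (hy : y ≠ 0) :
    ContinuousAt (tl2 128 S L x r) y := (hasDerivAt_tl2 128 S L x r hy).continuousAt

/-- continuity in the parameter -/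
theorem tl2_cont_x (S : ℕ) (L : List (List Int)) (r : ℕ) (y : ℝ) :
    Continuous (fun x => tl2 128 S L x r y) := by
  induction L with
  | nil => simp only [tl2]; exact continuous_const
  | cons a L ih =>
    simp only [tl2]
    exact continuous_const.add (continuous_id.mul ih)

theorem zz_cont_x (r : ℕ) (y : ℝ) : Continuous (fun x => zz x r y) := by
  rcases le_or_gt y 128 with h | h
  · have : (fun x => zz x r y) = fun _ => 0 := by
      funext x; exact zz_cell x r h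
    rw [this]; exact continuous_const
  · have : (fun x => zz x r y) = fun x => x ^ 2 * tl2 128 SE (EL 60 2 C0) x r y := by
      funext x; exact zz_tail x r h
    rw [this]
    exact (continuous_pow 2).mul (tl2_cont_x _ _ _ _)

theorem GF_cont_c (r : ℕ) (y : ℝ) : Continuous (fun c => GF r c y) := by
  unfold GF
  have h1 : Continuous (fun c : ℝ => c - (C0 : ℝ) / 2 ^ 60) := continuous_id.sub continuous_const
  exact (continuous_const.add (h1.mul continuous_const)).add ((zz_cont_x r y).comp h1)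

theorem zz_cont_y (x : ℝ) : Continuous (fun y => zz x 3 y) := by
  refine continuous_iff_continuousAt.2 fun y => ?_
  refine pw_cont [zP] (by decide) (by decide) (fun q hq => ?_) (fun q hq => ?_) y
  · simp only [List.getLast?_singleton, Option.some.injEq] at hq
    subst hq
    exact last_z x
  · simp only [List.getLast?_singleton, Option.some.injEq] at hq
    subst hq
    rw [zP_b]
    intro z hz
    have hz0 : z ≠ 0 := by have := mem_Ici.1 hz; positivity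
    exact ((tl2_cont_at SE (EL 60 2 C0) x 3 hz0).const_mul (x ^ 2)).continuousWithinAt

theorem GF3_cont (c : ℝ) : Continuous (GF 3 c) := by
  have h := ((Ps.gg_cont (r := 3) le_rfl).add ((Ps.kk_cont (r := 3) le_rfl).const_mul
    (c - (C0 : ℝ) / 2 ^ 60))).add (zz_cont_y (c - (C0 : ℝ) / 2 ^ 60))
  exact h

end Crest.Agent.R213.E.C

namespace Crest.Agent.R213.E

theorem cst_c0 : cst.c0 = (C.C0 : ℝ) / 2 ^ 60 := rfl

theorem GF_c0 {y : ℝ} (hy : y ≤ 128) (r : ℕ) : C.GF r cst.c0 y = C.gg r y := by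
  rw [C.GF_cell r _ hy, cst_c0, sub_self, zero_mul, add_zero]

/-- what remains of the certificate: the cell facts and the kernel check of the tail. -/
structure CellFacts : Prop where
  cell : ∀ y : ℝ, 0 < y → y ≤ 128 → ∃ c ∈ C.cells, C.Fact (C.gg 0) (C.kk 0) c y ∧
      (c.B3 : ℝ) / 10 ^ 3 ≤ bet0 4 y / y ^ 2 + 1 / (2 * C.gg 0 y ^ 2)
  res : ∀ c ∈ Icc (cst.c0 - cst.δ) (cst.c0 + cst.δ), ∀ y : ℝ, 0 < y → y ≤ 128 →
    |resid c y (C.gg 0 y + (c - cst.c0) * C.kk 0 y) (C.gg 1 y + (c - cst.c0) * C.kk 1 y)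
      (C.gg 2 y + (c - cst.c0) * C.kk 2 y) (C.gg 3 y + (c - cst.c0) * C.kk 3 y)| ≤ St.sd.R y

theorem famFacts (tail_ok : C.TailOK 60 2 464 C.C0 C.A0 C.A1 26 14 25) (H : CellFacts) :
    FamFacts (C.kk 0) (fun c y => C.GF 0 c y) (fun c y => C.GF 1 c y) (fun c y => C.GF 2 c y)
      (fun c y => C.GF 3 c y) := by
  have hcell : ∀ y : ℝ, 0 < y → y ≤ 128 → ∃ c ∈ C.cells,
      C.Fact (fun y => C.GF 0 cst.c0 y) (C.kk 0) c y ∧
      (c.B3 : ℝ) / 10 ^ 3 ≤ bet0 4 y / y ^ 2 + 1 / (2 * C.GF 0 cst.c0 y ^ 2) := by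
    intro y h1 h2
    obtain ⟨q, hq, hf, hb⟩ := H.cell y h1 h2
    refine ⟨q, hq, ?_, by rw [GF_c0 h2]; exact hb⟩
    obtain ⟨f1, f2, f3, f4, f5⟩ := hf
    refine ⟨f1, f2, ?_, ?_, f5⟩
    · show _ ≤ C.GF 0 cst.c0 y
      rw [GF_c0 h2]; exact f3
    · show C.GF 0 cst.c0 y ≤ _
      rw [GF_c0 h2]; exact f4
  have hlin : ∀ c ∈ Icc (cst.c0 - cst.δ) (cst.c0 + cst.δ), ∀ y : ℝ, 0 < y → y ≤ 128 →
      C.GF 0 c y = C.GF 0 cst.c0 y + (c - cst.c0) * C.kk 0 y := by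
    intro c _ y _ h2
    rw [GF_c0 h2, C.GF_cell 0 c h2, cst_c0]
  have hfar : ∀ c ∈ Icc (cst.c0 - cst.δ) (cst.c0 + cst.δ), ∀ y : ℝ, 128 < y →
      |C.GF 0 c y - cst.c0| ≤ 3 / 1000 := fun c hc y hy =>
    (C.GF_far tail_ok (c_abs hc) hy).trans (by norm_num)
  have hpos : ∀ c ∈ Icc (cst.c0 - cst.δ) (cst.c0 + cst.δ), ∀ y : ℝ, 0 < y →
      0 < C.GF 0 c y := by
    intro c hc y hy
    rcases le_or_gt y 128 with h | h
    · obtain ⟨q, hq, hf, -⟩ := hcell y hy h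
      have := (C.fact_bounds hq hf (c_abs hc)).1
      rw [hlin c hc y hy h]
      linarith
    · have := abs_le.1 (hfar c hc y h)
      have := c0_bd
      linarith
  exact
    { C3 := fun c _ =>
        ⟨fun y _ => C.GF_hasDerivAt c 0 (by norm_num) y, fun y _ => C.GF_hasDerivAt c 1 (by norm_num) y,
          fun y _ => C.GF_hasDerivAt c 2 (by norm_num) y⟩
      G3c := fun c _ => (C.GF3_cont c).continuousOn
      Gcc := fun y _ => (C.GF_cont_c 0 y).continuousOn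
      Rcc := fun y hy => by
        unfold resid
        have hc0 : ∀ c ∈ Icc (cst.c0 - cst.δ) (cst.c0 + cst.δ), c ≠ 0 := fun c hc => by
          have := hc.1; have := cst_lo; intro h; linarith
        have g0 := (C.GF_cont_c 0 y).continuousOn (s := Icc (cst.c0 - cst.δ) (cst.c0 + cst.δ))
        have g1 := (C.GF_cont_c 1 y).continuousOn (s := Icc (cst.c0 - cst.δ) (cst.c0 + cst.δ))
        have g2 := (C.GF_cont_c 2 y).continuousOn (s := Icc (cst.c0 - cst.δ) (cst.c0 + cst.δ))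
        have g3 := (C.GF_cont_c 3 y).continuousOn (s := Icc (cst.c0 - cst.δ) (cst.c0 + cst.δ))
        have i1 : ContinuousOn (fun c : ℝ => 1 / c) (Icc (cst.c0 - cst.δ) (cst.c0 + cst.δ)) :=
          continuousOn_const.div continuousOn_id hc0
        have i2 : ContinuousOn (fun c : ℝ => 1 / C.GF 0 c y)
            (Icc (cst.c0 - cst.δ) (cst.c0 + cst.δ)) :=
          continuousOn_const.div g0 (fun c hc => (hpos c hc y hy).ne')
        exact ((((continuousOn_const.mul g3).add (continuousOn_const.mul g2)).add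
          (continuousOn_const.mul g1)).add (continuousOn_const.mul (continuousOn_const.sub g0))).add
          (continuousOn_const.mul (i1.sub i2))
      meas := (C.GF_continuous cst.c0).measurable
      cell := hcell
      lin := hlin
      one := by
        show C.GF 0 cst.c0 1 ≤ _
        rw [GF_c0 (by norm_num)]
        exact C.pw_one_le _
      res := fun c hc y hy => by
        rcases le_or_gt y 128 with h | h
        · have := H.res c hc y hy h
          have e : ∀ r, C.GF r c y = C.gg r y + (c - cst.c0) * C.kk r y := fun r =>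
            C.GF_cell r c h
          rw [e 0, e 1, e 2, e 3]
          exact this
        · rw [St.sd_R_tail h]
          exact C.GF_res_tail tail_ok (c_abs hc) h
      far := hfar
      far_c := fun c hc y hy => C.GF_far_c tail_ok (c_abs hc) hy
      tail := fun c hc => C.GF_tail_all tail_ok (c_abs hc) }

/-- the certificate, from the cell facts and the tail check. -/
theorem cert_of_cells (tail_ok : C.TailOK 60 2 464 C.C0 C.A0 C.A1 26 14 25) (H : CellFacts) :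
    ∃ (k : Cst) (p R : ℝ → ℝ) (G G1 G2 G3 : ℝ → ℝ → ℝ) (ψ ψ1 ψ2 ψ3 : ℝ → ℝ),
      Cert k p R G G1 G2 G3 ψ ψ1 ψ2 ψ3 := by
  have F := famFacts tail_ok H
  exact ⟨cst, St.sd.p, St.sd.R, _, _, _, _, _, _, _, _, cert_of F (C.Ps.psiFacts F.res)⟩

end Crest.Agent.R213.E
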