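import Crest.Agent.R213.E.NLDefs
import Crest.Agent.R213.E.EDefs

-- ▼ part R213/E/Pairing
section

/-!
# Row 213, part E: the pairing formula for `κ` (helper110)
-/

set_option autoImplicit false

open Set MeasureTheory Filter Topology

noncomputable section

namespace Crest.Agent.R213.E

/-- integration by parts against an `L¹` function. -/
theorem byparts_L1 {f f1 w : ℝ → ℝ} {a Y : ℝ} (haY : a ≤ Y)
    (hf : ∀ y ∈ Icc a Y, HasDerivWithinAt f (f1 y) (Icc a Y) y) (hf1 : ContinuousOn f1 (Icc a Y))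
    (hw : IntervalIntegrable w volume a Y) :
    ∫ t in a..Y, f t * w t =
      f a * (∫ t in a..Y, w t) + ∫ s in a..Y, f1 s * (∫ t in s..Y, w t) := by
  set g : ℝ → ℝ := fun x => ∫ t in a..x, w t with hg
  have hfc : ContinuousOn f (Icc a Y) := fun y hy => (hf y hy).continuousWithinAt
  have hgAC : AbsolutelyContinuousOnInterval g a Y :=
    hw.absolutelyContinuousOnInterval_intervalIntegral (by simp [haY])
  have hgc : ContinuousOn g (Icc a Y) := by
    have := hgAC.continuousOn; rwa [uIcc_of_le haY] at this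
  -- `f` is Lipschitz
  have hfLip : ∃ K : NNReal, LipschitzOnWith K f (Icc a Y) := by
    obtain ⟨C, hC⟩ := isCompact_Icc.exists_bound_of_continuousOn hf1
    refine ⟨Real.toNNReal (max C 0), ?_⟩
    apply Convex.lipschitzOnWith_of_nnnorm_hasDerivWithin_le (convex_Icc a Y) hf
    intro y hy
    have h1 := hC y hy
    rw [← NNReal.coe_le_coe, coe_nnnorm, Real.coe_toNNReal _ (le_max_right _ _)]
    exact le_trans h1 (le_max_left _ _)
  obtain ⟨K, hK⟩ := hfLip
  have hfAC : AbsolutelyContinuousOnInterval f a Y := by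
    apply LipschitzOnWith.absolutelyContinuousOnInterval (K := K)
    rwa [uIcc_of_le haY]
  have key := AbsolutelyContinuousOnInterval.integral_mul_deriv_eq_deriv_mul hfAC hgAC
  have e1 : ∫ x in a..Y, f x * deriv g x = ∫ x in a..Y, f x * w x := by
    apply intervalIntegral.integral_congr_ae
    filter_upwards [hw.ae_hasDerivAt_integral] with x hx hxm
    have hx' : x ∈ uIcc a Y := uIoc_subset_uIcc hxm
    have := hx hx' a (by simp)
    rw [hg, this.deriv]
  have e2 : ∫ x in a..Y, deriv f x * g x = ∫ x in a..Y, f1 x * g x := by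
    apply intervalIntegral.integral_congr_ae
    have h₂ : ∀ᵐ x : ℝ, x ≠ Y := by simp [ae_iff, measure_singleton]
    filter_upwards [h₂] with x hxY hxm
    rw [uIoc_of_le haY] at hxm
    have hxo : x ∈ Ioo a Y := ⟨hxm.1, lt_of_le_of_ne hxm.2 hxY⟩
    have := (hf x (Ioo_subset_Icc_self hxo)).hasDerivAt (Icc_mem_nhds hxo.1 hxo.2)
    rw [this.deriv]
  have hf1i : IntervalIntegrable f1 volume a Y :=
    (hf1.mono (by rw [uIcc_of_le haY])).intervalIntegrable
  have e3 : ∫ x in a..Y, f1 x = f Y - f a := by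
    apply intervalIntegral.integral_eq_sub_of_hasDerivAt_of_le haY hfc _ hf1i
    intro x hx
    exact (hf x (Ioo_subset_Icc_self hx)).hasDerivAt (Icc_mem_nhds hx.1 hx.2)
  have e4 : ∫ s in a..Y, f1 s * (∫ t in s..Y, w t) = ∫ s in a..Y, (f1 s * g Y - f1 s * g s) := by
    apply intervalIntegral.integral_congr
    intro s hs
    rw [uIcc_of_le haY] at hs
    have h1 : IntervalIntegrable w volume a s :=
      hw.mono_set (by rw [uIcc_of_le hs.1, uIcc_of_le haY]; exact Icc_subset_Icc_right hs.2)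
    have h2 : IntervalIntegrable w volume s Y :=
      hw.mono_set (by rw [uIcc_of_le hs.2, uIcc_of_le haY]; exact Icc_subset_Icc_left hs.1)
    have h3 := intervalIntegral.integral_add_adjacent_intervals h1 h2
    simp only [hg]
    rw [← h3]; ring
  have hfg : IntervalIntegrable (fun s => f1 s * g s) volume a Y :=
    ((hf1.mul hgc).mono (by rw [uIcc_of_le haY])).intervalIntegrable
  rw [← e1, key, e2, e4, intervalIntegral.integral_sub (hf1i.mul_const _) hfg,
    intervalIntegral.integral_mul_const, e3]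
  have : g a = 0 := by simp [hg]
  rw [this]
  simp only [hg]
  ring

/-- the identity on `[a,Y]`, `a > 0`. -/
theorem pairing_pos {κ Y : ℝ} {z D D1 ψ ψ1 ψ2 ψ3 : ℝ → ℝ} (hR : Rep κ z D D1) {a : ℝ}
    (ha : 0 < a) (haY : a ≤ Y)
    (hψ : ∀ y ∈ Icc 0 Y, HasDerivWithinAt ψ (ψ1 y) (Icc 0 Y) y)
    (hψ1 : ∀ y ∈ Icc 0 Y, HasDerivWithinAt ψ1 (ψ2 y) (Icc 0 Y) y)
    (hψ2c : ContinuousOn ψ2 (Icc 0 Y)) {s : Set ℝ} (hs : s.Countable)
    (hψ2 : ∀ y ∈ Ioo 0 Y \ s, HasDerivAt ψ2 (ψ3 y) y)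
    (hψ3 : IntervalIntegrable ψ3 volume 0 Y)
    (h0 : ψ Y = 0) (h1 : ψ1 Y = 0) (h2 : ψ2 Y = 0)
    (hz : IntervalIntegrable z volume 0 Y) :
    ∫ y in a..Y, (ψ y * z y + (y * ψ3 y + 12 * ψ2 y) * D y) =
      a ^ 10 * ψ a * QQ z a + (10 * ψ a + a * ψ1 a) * D1 a - (11 * ψ1 a + a * ψ2 a) * D a := by
  have hsub : Icc a Y ⊆ Icc 0 Y := Icc_subset_Icc_left ha.le
  have hIaY : uIcc a Y = Icc a Y := uIcc_of_le haY
  have hψa : ∀ y ∈ Icc a Y, HasDerivWithinAt ψ (ψ1 y) (Icc a Y) y :=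
    fun y hy => (hψ y (hsub hy)).mono hsub
  have hψ1a : ∀ y ∈ Icc a Y, HasDerivWithinAt ψ1 (ψ2 y) (Icc a Y) y :=
    fun y hy => (hψ1 y (hsub hy)).mono hsub
  have hψc : ContinuousOn ψ (Icc a Y) := fun y hy => (hψa y hy).continuousWithinAt
  have hψ1c : ContinuousOn ψ1 (Icc a Y) := fun y hy => (hψ1a y hy).continuousWithinAt
  have hψ2a : ContinuousOn ψ2 (Icc a Y) := hψ2c.mono hsub
  have hDa : ∀ y ∈ Icc a Y, HasDerivAt D (D1 y) y := fun y hy => hR.hD y (lt_of_lt_of_le ha hy.1)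
  have hD1a : ∀ y ∈ Icc a Y, HasDerivAt D1 (-(y ^ 9 * QQ z y)) y :=
    fun y hy => hR.hD1 y (lt_of_lt_of_le ha hy.1)
  have hDc : ContinuousOn D (Icc a Y) := fun y hy => (hDa y hy).continuousAt.continuousWithinAt
  have hD1c : ContinuousOn D1 (Icc a Y) := fun y hy => (hD1a y hy).continuousAt.continuousWithinAt
  -- w
  set w : ℝ → ℝ := fun t => (t ^ 10)⁻¹ * z t with hwdef
  have hza : IntervalIntegrable z volume a Y :=
    hz.mono_set (by rw [hIaY, uIcc_of_le (ha.le.trans haY)]; exact hsub)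
  have hwint : IntegrableOn w (Ioi a) := hR.int a ha
  have hwa : IntervalIntegrable w volume a Y := by
    rw [intervalIntegrable_iff_integrableOn_Ioc_of_le haY]
    exact hwint.mono_set Ioc_subset_Ioi_self
  have hQ : ∀ y ∈ Icc a Y, QQ z y = (∫ t in y..Y, w t) + QQ z Y := by
    intro y hy
    have h3 : IntegrableOn w (Ioi y) := hwint.mono_set (Ioi_subset_Ioi hy.1)
    have h4 : IntegrableOn w (Ioi Y) := hwint.mono_set (Ioi_subset_Ioi haY)
    have := intervalIntegral.integral_interval_add_Ioi h3 h4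
    unfold QQ
    rw [← this]
  have hQc : ContinuousOn (QQ z) (Icc a Y) := by
    have h5 : ContinuousOn (fun y => (∫ t in y..Y, w t) + QQ z Y) (Icc a Y) := by
      apply ContinuousOn.add _ continuousOn_const
      have h6 : ContinuousOn (fun x => ∫ t in a..x, w t) (Icc a Y) := by
        have := hwa.absolutelyContinuousOnInterval_intervalIntegral (c := a) (by simp)
        have := this.continuousOn
        rwa [hIaY] at this
      have h7 : ContinuousOn (fun y => (∫ t in a..Y, w t) - ∫ t in a..y, w t) (Icc a Y) :=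
        continuousOn_const.sub h6
      apply h7.congr
      intro y hy
      have h8 : IntervalIntegrable w volume a y :=
        hwa.mono_set (by rw [uIcc_of_le hy.1, hIaY]; exact Icc_subset_Icc_right hy.2)
      have h9 : IntervalIntegrable w volume y Y :=
        hwa.mono_set (by rw [uIcc_of_le hy.2, hIaY]; exact Icc_subset_Icc_left hy.1)
      have := intervalIntegral.integral_add_adjacent_intervals h8 h9
      simp only
      rw [← this]; ring
    exact h5.congr hQ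
  -- Step A
  have hA : ∫ t in a..Y, ψ t * z t = a ^ 10 * ψ a * QQ z a +
      ∫ s in a..Y, (10 * s ^ 9 * ψ s + s ^ 10 * ψ1 s) * QQ z s := by
    have hf : ∀ y ∈ Icc a Y, HasDerivWithinAt (fun t => t ^ 10 * ψ t)
        (10 * y ^ 9 * ψ y + y ^ 10 * ψ1 y) (Icc a Y) y := by
      intro y hy
      have h3 : HasDerivWithinAt (fun t : ℝ => t ^ 10) (10 * y ^ 9) (Icc a Y) y := by
        simpa using (hasDerivAt_pow 10 y).hasDerivWithinAt
      exact h3.mul (hψa y hy)
    have hf1c : ContinuousOn (fun y => 10 * y ^ 9 * ψ y + y ^ 10 * ψ1 y) (Icc a Y) := by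
      fun_prop
    have h4 := byparts_L1 haY hf hf1c hwa
    have h5 : ∫ t in a..Y, (t ^ 10 * ψ t) * w t = ∫ t in a..Y, ψ t * z t := by
      apply intervalIntegral.integral_congr
      intro t ht
      rw [hIaY] at ht
      have : t ≠ 0 := (lt_of_lt_of_le ha ht.1).ne'
      simp only [hwdef]
      field_simp
    have h6 : ∫ s in a..Y, (10 * s ^ 9 * ψ s + s ^ 10 * ψ1 s) * (∫ t in s..Y, w t) =
        ∫ s in a..Y, ((10 * s ^ 9 * ψ s + s ^ 10 * ψ1 s) * QQ z s -
          (10 * s ^ 9 * ψ s + s ^ 10 * ψ1 s) * QQ z Y) := by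
      apply intervalIntegral.integral_congr
      intro s hs
      rw [hIaY] at hs
      simp only
      rw [hQ s hs]; ring
    have i1 : IntervalIntegrable (fun s => (10 * s ^ 9 * ψ s + s ^ 10 * ψ1 s) * QQ z s)
        volume a Y := ((hf1c.mul hQc).mono (by rw [hIaY])).intervalIntegrable
    have i2 : IntervalIntegrable (fun s => (10 * s ^ 9 * ψ s + s ^ 10 * ψ1 s))
        volume a Y := (hf1c.mono (by rw [hIaY])).intervalIntegrable
    have h7 : ∫ s in a..Y, (10 * s ^ 9 * ψ s + s ^ 10 * ψ1 s) =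
        Y ^ 10 * ψ Y - a ^ 10 * ψ a := by
      apply intervalIntegral.integral_eq_sub_of_hasDerivAt_of_le haY
        (f := fun t => t ^ 10 * ψ t) _ _ i2
      · exact fun y hy => (hf y hy).continuousWithinAt
      · intro x hx
        exact (hf x (Ioo_subset_Icc_self hx)).hasDerivAt (Icc_mem_nhds hx.1 hx.2)
    rw [h5, h6, intervalIntegral.integral_sub i1 (i2.mul_const _),
      intervalIntegral.integral_mul_const, h7, h0] at h4
    rw [h4, hQ a ⟨le_rfl, haY⟩]
    ring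
  -- Step B
  have hB : ∫ s in a..Y, (10 * s ^ 9 * ψ s + s ^ 10 * ψ1 s) * QQ z s =
      (10 * ψ a + a * ψ1 a) * D1 a + ∫ s in a..Y, (11 * ψ1 s + s * ψ2 s) * D1 s := by
    have hu : ∀ y ∈ uIcc a Y, HasDerivWithinAt (fun y => 10 * ψ y + y * ψ1 y)
        (11 * ψ1 y + y * ψ2 y) (uIcc a Y) y := by
      intro y hy
      rw [hIaY] at hy ⊢
      have h3 := ((hψa y hy).const_mul 10).add ((hasDerivWithinAt_id y (Icc a Y)).mul (hψ1a y hy))
      refine h3.congr_deriv ?_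
      simp only [id]
      ring
    have hv : ∀ y ∈ uIcc a Y, HasDerivWithinAt D1 (-(y ^ 9 * QQ z y)) (uIcc a Y) y := by
      intro y hy
      rw [hIaY] at hy
      exact (hD1a y hy).hasDerivWithinAt
    have hu' : IntervalIntegrable (fun y => 11 * ψ1 y + y * ψ2 y) volume a Y := by
      apply ContinuousOn.intervalIntegrable
      rw [hIaY]; fun_prop
    have hv' : IntervalIntegrable (fun y => -(y ^ 9 * QQ z y)) volume a Y := by
      apply ContinuousOn.intervalIntegrable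
      rw [hIaY]; fun_prop
    have h4 := intervalIntegral.integral_mul_deriv_eq_deriv_mul_of_hasDerivWithinAt hu hv hu' hv'
    have h5 : ∫ s in a..Y, (10 * s ^ 9 * ψ s + s ^ 10 * ψ1 s) * QQ z s =
        - ∫ y in a..Y, (10 * ψ y + y * ψ1 y) * -(y ^ 9 * QQ z y) := by
      rw [← intervalIntegral.integral_neg]
      apply intervalIntegral.integral_congr
      intro s _
      simp only
      ring
    rw [h5, h4, h0, h1]
    ring
  -- Step C
  have hψ3a : IntervalIntegrable ψ3 volume a Y :=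
    hψ3.mono_set (by rw [hIaY, uIcc_of_le (ha.le.trans haY)]; exact hsub)
  have i3 : IntervalIntegrable (fun y => (y * ψ3 y + 12 * ψ2 y) * D y) volume a Y := by
    apply IntervalIntegrable.mul_continuousOn _ (by rw [hIaY]; exact hDc)
    apply IntervalIntegrable.add
    · exact hψ3a.continuousOn_mul continuousOn_id
    · apply ContinuousOn.intervalIntegrable
      rw [hIaY]; fun_prop
  have i4 : IntervalIntegrable (fun y => (11 * ψ1 y + y * ψ2 y) * D1 y) volume a Y := by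
    apply ContinuousOn.intervalIntegrable
    rw [hIaY]; fun_prop
  have hC : ∫ s in a..Y, (11 * ψ1 s + s * ψ2 s) * D1 s =
      - (11 * ψ1 a + a * ψ2 a) * D a - ∫ y in a..Y, (y * ψ3 y + 12 * ψ2 y) * D y := by
    have h4 : ∫ y in a..Y, ((y * ψ3 y + 12 * ψ2 y) * D y + (11 * ψ1 y + y * ψ2 y) * D1 y) =
        (11 * ψ1 Y + Y * ψ2 Y) * D Y - (11 * ψ1 a + a * ψ2 a) * D a := by
      apply integral_eq_of_hasDerivAt_off_countable
        (fun y => (11 * ψ1 y + y * ψ2 y) * D y) _ hs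
      · rw [hIaY]; fun_prop
      · intro x hx
        rw [min_eq_left haY, max_eq_right haY] at hx
        have hx0 : x ∈ Ioo 0 Y \ s := ⟨⟨ha.trans hx.1.1, hx.1.2⟩, hx.2⟩
        have hxI : x ∈ Icc a Y := Ioo_subset_Icc_self hx.1
        have h5 : HasDerivAt ψ1 (ψ2 x) x :=
          (hψ1a x hxI).hasDerivAt (Icc_mem_nhds hx.1.1 hx.1.2)
        have h6 := ((h5.const_mul 11).add ((hasDerivAt_id x).mul (hψ2 x hx0))).mul (hDa x hxI)
        refine h6.congr_deriv ?_
        simp only [id, Pi.add_apply, Pi.mul_apply]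
        ring
      · exact i3.add i4
    rw [intervalIntegral.integral_add i3 i4, h1, h2] at h4
    linarith
  have i5 : IntervalIntegrable (fun t => ψ t * z t) volume a Y :=
    hza.continuousOn_mul (by rw [hIaY]; exact hψc)
  rw [intervalIntegral.integral_add i5 i3, hA, hB, hC]
  ring

/-- `a^10 Q(a) → 0` as `a → 0+`. -/
theorem pow_mul_QQ_tendsto {κ Y : ℝ} {z D D1 : ℝ → ℝ} (hR : Rep κ z D D1) (hY : 0 < Y)
    (hz : IntervalIntegrable z volume 0 Y) :
    Tendsto (fun a => a ^ 10 * QQ z a) (𝓝[>] 0) (𝓝 0) := by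
  set w : ℝ → ℝ := fun t => (t ^ 10)⁻¹ * z t with hwdef
  have hzI : IntegrableOn z (Ioc 0 Y) := by
    rwa [intervalIntegrable_iff_integrableOn_Ioc_of_le hY.le] at hz
  have hev : ∀ᶠ a : ℝ in 𝓝[>] 0, 0 < a ∧ a < Y := by
    filter_upwards [Ioo_mem_nhdsGT hY] with a ha using ⟨ha.1, ha.2⟩
  have hdom : Tendsto (fun a => ∫ t in Ioc 0 Y, (Ioc a Y).indicator (fun t => a ^ 10 * w t) t)
      (𝓝[>] 0) (𝓝 (∫ t in Ioc 0 Y, (0 : ℝ))) := by
    apply tendsto_integral_filter_of_dominated_convergence (fun t => |z t|)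
    · filter_upwards [hev] with a ha
      apply AEStronglyMeasurable.indicator _ measurableSet_Ioc
      have h1 : AEStronglyMeasurable z (volume.restrict (Ioc 0 Y)) := hzI.aestronglyMeasurable
      have h2 : Measurable (fun t : ℝ => (t ^ 10)⁻¹) := by fun_prop
      exact (h2.aestronglyMeasurable.mul h1).const_mul _
    · filter_upwards [hev] with a ha
      refine (ae_restrict_iff' measurableSet_Ioc).2 (Eventually.of_forall ?_)
      intro t ht
      by_cases htm : t ∈ Ioc a Y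
      · rw [indicator_of_mem htm, Real.norm_eq_abs, abs_mul, hwdef]
        simp only
        rw [abs_mul, abs_of_pos (pow_pos ha.1 10), abs_of_pos (inv_pos.2 (pow_pos ht.1 10))]
        have : a ^ 10 * (t ^ 10)⁻¹ ≤ 1 := by
          rw [← div_eq_mul_inv, div_le_one (pow_pos ht.1 10)]
          exact pow_le_pow_left₀ ha.1.le htm.1.le 10
        nlinarith [abs_nonneg (z t)]
      · rw [indicator_of_notMem htm]
        simp
    · exact hzI.abs
    · refine (ae_restrict_iff' measurableSet_Ioc).2 (Eventually.of_forall ?_)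
      intro t ht
      have h1 : Tendsto (fun a : ℝ => a ^ 10 * |w t|) (𝓝[>] 0) (𝓝 0) := by
        have : Tendsto (fun a : ℝ => a ^ 10 * |w t|) (𝓝 0) (𝓝 ((0:ℝ) ^ 10 * |w t|)) :=
          ((continuous_pow 10).mul continuous_const).tendsto 0
        simpa using this.mono_left nhdsWithin_le_nhds
      apply squeeze_zero_norm' _ h1
      filter_upwards [hev] with a ha
      by_cases htm : t ∈ Ioc a Y
      · rw [indicator_of_mem htm, Real.norm_eq_abs, abs_mul, abs_of_pos (pow_pos ha.1 10)]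
      · rw [indicator_of_notMem htm]
        simp only [norm_zero]
        exact mul_nonneg (pow_nonneg ha.1.le 10) (abs_nonneg _)
  rw [integral_zero] at hdom
  have h2 : Tendsto (fun a : ℝ => a ^ 10 * QQ z Y) (𝓝[>] 0) (𝓝 0) := by
    have : Tendsto (fun a : ℝ => a ^ 10 * QQ z Y) (𝓝 0) (𝓝 ((0:ℝ) ^ 10 * QQ z Y)) :=
      ((continuous_pow 10).mul continuous_const).tendsto 0
    simpa using this.mono_left nhdsWithin_le_nhds
  have h3 := hdom.add h2
  rw [add_zero] at h3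
  refine h3.congr' ?_
  filter_upwards [hev] with a ha
  have h4 : IntegrableOn w (Ioi a) := hR.int a ha.1
  have h5 := intervalIntegral.integral_interval_add_Ioi h4
    (h4.mono_set (Ioi_subset_Ioi ha.2.le))
  have h6 : ∫ t in Ioc 0 Y, (Ioc a Y).indicator (fun t => a ^ 10 * w t) t =
      a ^ 10 * ∫ t in a..Y, w t := by
    rw [setIntegral_indicator measurableSet_Ioc,
      show Ioc 0 Y ∩ Ioc a Y = Ioc a Y from
        inter_eq_right.2 (Ioc_subset_Ioc_left ha.1.le),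
      intervalIntegral.integral_of_le ha.2.le, integral_const_mul]
  rw [h6]
  unfold QQ
  rw [← h5]
  ring

/-- pairing with an adjoint function `ψ` (`ψ` = `y^{-9}·`(the ψ of note 8672)), vanishing for `y ≥ Y`. -/
theorem pairing {κ Y : ℝ} {z D D1 ψ ψ1 ψ2 ψ3 : ℝ → ℝ} (hR : Rep κ z D D1) (hY : 0 < Y)
    (hψ : ∀ y ∈ Icc 0 Y, HasDerivWithinAt ψ (ψ1 y) (Icc 0 Y) y)
    (hψ1 : ∀ y ∈ Icc 0 Y, HasDerivWithinAt ψ1 (ψ2 y) (Icc 0 Y) y)
    (hψ2c : ContinuousOn ψ2 (Icc 0 Y)) {s : Set ℝ} (hs : s.Countable)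
    (hψ2 : ∀ y ∈ Ioo 0 Y \ s, HasDerivAt ψ2 (ψ3 y) y)
    (hψ3 : IntervalIntegrable ψ3 volume 0 Y)
    (h0 : ψ Y = 0) (h1 : ψ1 Y = 0) (h2 : ψ2 Y = 0)
    (hz : IntervalIntegrable z volume 0 Y) :
    10 * ψ 0 * κ = ∫ y in (0:ℝ)..Y, (ψ y * z y + (y * ψ3 y + 12 * ψ2 y) * D y) := by
  have hIY : uIcc 0 Y = Icc 0 Y := uIcc_of_le hY.le
  have h0m : (0:ℝ) ∈ Icc 0 Y := ⟨le_rfl, hY.le⟩
  have hψc : ContinuousOn ψ (Icc 0 Y) := fun y hy => (hψ y hy).continuousWithinAt
  have hψ1c : ContinuousOn ψ1 (Icc 0 Y) := fun y hy => (hψ1 y hy).continuousWithinAt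
  -- continuous extension of `D` by `0`
  set Dt : ℝ → ℝ := Function.update D 0 0 with hDt
  have hDtc : ContinuousOn Dt (Icc 0 Y) := by
    intro y hy
    rcases eq_or_lt_of_le hy.1 with h | h
    · subst h
      rw [continuousWithinAt_update_same]
      apply hR.lim0.mono_left
      apply nhdsWithin_mono
      intro t ht
      exact lt_of_le_of_ne ht.1.1 (Ne.symm ht.2)
    · have h3 : ContinuousAt D y := (hR.hD y h).continuousAt
      rw [continuousWithinAt_update_of_ne h.ne']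
      exact h3.continuousWithinAt
  set F : ℝ → ℝ := fun y => ψ y * z y + (y * ψ3 y + 12 * ψ2 y) * D y with hF
  set Ft : ℝ → ℝ := fun y => ψ y * z y + (y * ψ3 y + 12 * ψ2 y) * Dt y with hFt
  have hFti : IntervalIntegrable Ft volume 0 Y := by
    apply IntervalIntegrable.add
    · exact hz.continuousOn_mul (by rw [hIY]; exact hψc)
    · apply IntervalIntegrable.mul_continuousOn _ (by rw [hIY]; exact hDtc)
      apply IntervalIntegrable.add
      · exact hψ3.continuousOn_mul continuousOn_id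
      · apply ContinuousOn.intervalIntegrable
        rw [hIY]; fun_prop
  have hFF : ∀ y, 0 < y → F y = Ft y := by
    intro y hy
    simp only [hF, hFt, hDt]
    rw [Function.update_of_ne hy.ne']
  have hIF : ∀ a, 0 ≤ a → a ≤ Y → ∫ y in a..Y, F y = ∫ y in a..Y, Ft y := by
    intro a ha haY
    apply intervalIntegral.integral_congr_ae
    refine Eventually.of_forall ?_
    intro y hy
    rw [uIoc_of_le haY] at hy
    exact hFF y (lt_of_le_of_lt ha hy.1)
  have hev : ∀ᶠ a : ℝ in 𝓝[>] 0, 0 < a ∧ a < Y := by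
    filter_upwards [Ioo_mem_nhdsGT hY] with a ha using ⟨ha.1, ha.2⟩
  have hle : 𝓝[>] (0:ℝ) ≤ 𝓝[Icc 0 Y] 0 := by
    rw [← nhdsWithin_Ioo_eq_nhdsGT hY]
    exact nhdsWithin_mono _ Ioo_subset_Icc_self
  have hL : Tendsto (fun a => ∫ y in a..Y, F y) (𝓝[>] 0) (𝓝 (∫ y in (0:ℝ)..Y, F y)) := by
    have hprim : ContinuousOn (fun x => ∫ t in (0:ℝ)..x, Ft t) (Icc 0 Y) := by
      have := (hFti.absolutelyContinuousOnInterval_intervalIntegral (c := 0) (by simp)).continuousOn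
      rwa [hIY] at this
    have h3 : Tendsto (fun x => ∫ t in (0:ℝ)..x, Ft t) (𝓝[>] 0) (𝓝 0) := by
      have := (hprim 0 h0m).tendsto.mono_left hle
      simpa using this
    have h4 : Tendsto (fun x => (∫ t in (0:ℝ)..Y, Ft t) - ∫ t in (0:ℝ)..x, Ft t) (𝓝[>] 0)
        (𝓝 ((∫ t in (0:ℝ)..Y, Ft t) - 0)) := tendsto_const_nhds.sub h3
    rw [sub_zero, ← hIF 0 le_rfl hY.le] at h4
    refine h4.congr' ?_
    filter_upwards [hev] with a ha
    rw [hIF a ha.1.le ha.2.le]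
    have h5 : IntervalIntegrable Ft volume 0 a :=
      hFti.mono_set (by rw [uIcc_of_le ha.1.le, hIY]; exact Icc_subset_Icc_right ha.2.le)
    have h6 : IntervalIntegrable Ft volume a Y :=
      hFti.mono_set (by rw [uIcc_of_le ha.2.le, hIY]; exact Icc_subset_Icc_left ha.1.le)
    have h7 := intervalIntegral.integral_add_adjacent_intervals h5 h6
    rw [hIF 0 le_rfl hY.le, ← h7]
    ring
  have tψ : Tendsto ψ (𝓝[>] 0) (𝓝 (ψ 0)) := (hψc 0 h0m).tendsto.mono_left hle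
  have tψ1 : Tendsto ψ1 (𝓝[>] 0) (𝓝 (ψ1 0)) := (hψ1c 0 h0m).tendsto.mono_left hle
  have tψ2 : Tendsto ψ2 (𝓝[>] 0) (𝓝 (ψ2 0)) := (hψ2c 0 h0m).tendsto.mono_left hle
  have tid : Tendsto (fun a : ℝ => a) (𝓝[>] 0) (𝓝 0) :=
    tendsto_id.mono_left nhdsWithin_le_nhds
  have hQt := pow_mul_QQ_tendsto hR hY hz
  have hRt : Tendsto (fun a => a ^ 10 * ψ a * QQ z a + (10 * ψ a + a * ψ1 a) * D1 a -
      (11 * ψ1 a + a * ψ2 a) * D a) (𝓝[>] 0)
      (𝓝 (ψ 0 * 0 + (10 * ψ 0 + 0 * ψ1 0) * κ - (11 * ψ1 0 + 0 * ψ2 0) * 0)) := by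
    have h3 := ((tψ.mul hQt).add (((tψ.const_mul 10).add (tid.mul tψ1)).mul hR.lim1)).sub
      (((tψ1.const_mul 11).add (tid.mul tψ2)).mul hR.lim0)
    refine h3.congr ?_
    intro a
    ring
  have hEq : ∀ᶠ a in 𝓝[>] (0:ℝ), ∫ y in a..Y, F y =
      a ^ 10 * ψ a * QQ z a + (10 * ψ a + a * ψ1 a) * D1 a - (11 * ψ1 a + a * ψ2 a) * D a := by
    filter_upwards [hev] with a ha
    exact pairing_pos hR ha.1 ha.2.le hψ hψ1 hψ2c hs hψ2 hψ3 h0 h1 h2 hz
  have h5 := tendsto_nhds_unique (hL.congr' hEq) hRt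
  have h6 : ∫ y in (0:ℝ)..Y, (ψ y * z y + (y * ψ3 y + 12 * ψ2 y) * D y) = ∫ y in (0:ℝ)..Y, F y := rfl
  rw [h6, h5]
  ring

end Crest.Agent.R213.E
end
end

-- ▼ part R213/E/SignCore
section

/-!
# Row 213, part E: sign of `κ` (helper310)

`10 ψ(0) κ - ∫ ψ N(c,y,0) = ∫ ψ (N(c,y,D) - N(c,y,0)) + ∫ (yψ''' + 12ψ'' - nψ) D`, Cauchy–Schwarz.
-/

set_option autoImplicit false

open Set MeasureTheory Filter Topology

noncomputable section

namespace Crest.Agent.R213.E

namespace Sg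

/-- Cauchy–Schwarz, squared-norm form. -/
theorem cs {μ : Measure ℝ} {f w : ℝ → ℝ} (hf : MemLp f 2 μ) (hw : MemLp w 2 μ) {A B : ℝ}
    (hA : 0 ≤ A) (hB : 0 ≤ B) (h1 : ∫ y, f y ^ 2 ∂μ ≤ A ^ 2) (h2 : ∫ y, w y ^ 2 ∂μ ≤ B ^ 2) :
    ∫ y, |f y| * |w y| ∂μ ≤ A * B := by
  have h := integral_mul_norm_le_Lp_mul_Lq (μ := μ) (f := f) (g := w) (p := 2) (q := 2)
    Real.HolderConjugate.two_two (by simpa using hf) (by simpa using hw)
  have e1 : (fun y => ‖f y‖ ^ (2:ℝ)) = fun y => f y ^ 2 := by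
    funext y
    rw [Real.norm_eq_abs, Real.rpow_two, sq_abs]
  have e2 : (fun y => ‖w y‖ ^ (2:ℝ)) = fun y => w y ^ 2 := by
    funext y
    rw [Real.norm_eq_abs, Real.rpow_two, sq_abs]
  rw [e1, e2] at h
  have k1 : (∫ y, f y ^ 2 ∂μ) ^ ((1:ℝ) / 2) ≤ A := by
    rw [← Real.sqrt_eq_rpow]
    exact Real.sqrt_le_iff.2 ⟨hA, h1⟩
  have k2 : (∫ y, w y ^ 2 ∂μ) ^ ((1:ℝ) / 2) ≤ B := by
    rw [← Real.sqrt_eq_rpow]
    exact Real.sqrt_le_iff.2 ⟨hB, h2⟩
  refine le_trans h (mul_le_mul k1 k2 (Real.rpow_nonneg (integral_nonneg fun y => sq_nonneg _) _) hA)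

theorem z_meas {κ : ℝ} {z D D1 : ℝ → ℝ} (hR : Rep κ z D D1) :
    AEStronglyMeasurable z (volume.restrict (Ioi 0)) := by
  have hU : Ioi (0:ℝ) = ⋃ n : ℕ, Ioi (1 / ((n:ℝ) + 1)) := by
    ext x
    simp only [mem_Ioi, mem_iUnion]
    constructor
    · intro hx
      exact exists_nat_one_div_lt hx
    · rintro ⟨n, hn⟩
      exact lt_trans Nat.one_div_pos_of_nat hn
  rw [hU, aestronglyMeasurable_iUnion_iff]
  intro n
  have hp : (0:ℝ) < 1 / ((n:ℝ) + 1) := Nat.one_div_pos_of_nat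
  have h1 := (hR.int _ hp).aestronglyMeasurable
  have h2 : AEStronglyMeasurable (fun t : ℝ => t ^ 10 * ((t ^ 10)⁻¹ * z t))
      (volume.restrict (Ioi (1 / ((n:ℝ) + 1)))) :=
    (by fun_prop : AEStronglyMeasurable (fun t : ℝ => t ^ 10) _).mul h1
  refine h2.congr ?_
  filter_upwards [ae_restrict_mem measurableSet_Ioi] with t ht
  have ht0 : (0:ℝ) < t := lt_trans hp ht
  field_simp

theorem uu_pos {b : ℝ} (y : ℝ) : 0 < uu b y := by
  unfold uu
  positivity

theorem chi_pos {b : ℝ} (y : ℝ) : 0 < chi b y := pow_pos (uu_pos y) 3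

theorem chi_meas (b : ℝ) : Measurable (chi b) := by
  unfold chi uu
  fun_prop

theorem inv_chi (b y : ℝ) : (chi b y)⁻¹ = (1 + y ^ 2 / b ^ 2) ^ 3 := by
  unfold chi uu
  rw [← inv_pow, inv_inv]

end Sg

open Sg

theorem sign_core_gen {b n1 cq Cq : ℝ} {n p : ℝ → ℝ} (hW : WData b n1 cq Cq n p)
    {c1 c2 η M : ℝ} {N : ℝ → ℝ → ℝ → ℝ} {F : ℝ → ℝ} (hN : NLData b p c1 c2 η M N F)
    {c κ Y : ℝ} (hc : c ∈ Icc c1 c2) (hY : 0 < Y) {D D1 : ℝ → ℝ}
    (hR : Rep κ (fun t => N c t (D t) - n t * D t) D D1)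
    (hDi : IntegrableOn (fun y => (p y * D y) ^ 2) (Ioi 0))
    {B : ℝ} (hB : 0 ≤ B) (hDM : ∫ y in Ioi (0 : ℝ), (p y * D y) ^ 2 ≤ B ^ 2)
    {ψ ψ1 ψ2 ψ3 : ℝ → ℝ}
    (hψ : ∀ y ∈ Icc 0 Y, HasDerivWithinAt ψ (ψ1 y) (Icc 0 Y) y)
    (hψ1 : ∀ y ∈ Icc 0 Y, HasDerivWithinAt ψ1 (ψ2 y) (Icc 0 Y) y)
    (hψ2c : ContinuousOn ψ2 (Icc 0 Y)) {s : Set ℝ} (hs : s.Countable)
    (hψ2 : ∀ y ∈ Ioo 0 Y \ s, HasDerivAt ψ2 (ψ3 y) y)
    (hψ3 : IntervalIntegrable ψ3 volume 0 Y)
    (h0 : ψ Y = 0) (h1 : ψ1 Y = 0) (h2 : ψ2 Y = 0)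
    {K1 K2 : ℝ} (hK1 : 0 ≤ K1) (hK2 : 0 ≤ K2)
    (K1_int : IntervalIntegrable (fun y => (ψ y * p y / chi b y) ^ 2) volume 0 Y)
    (K1_le : ∫ y in (0 : ℝ)..Y, (ψ y * p y / chi b y) ^ 2 ≤ K1 ^ 2)
    (K2_int : IntervalIntegrable
      (fun y => ((y * ψ3 y + 12 * ψ2 y - n y * ψ y) / p y) ^ 2) volume 0 Y)
    (K2_le : ∫ y in (0 : ℝ)..Y, ((y * ψ3 y + 12 * ψ2 y - n y * ψ y) / p y) ^ 2 ≤ K2 ^ 2) :
    |10 * ψ 0 * κ - ∫ y in (0 : ℝ)..Y, ψ y * N c y 0| ≤ (η * K1 + K2) * B := by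
  set z : ℝ → ℝ := fun t => N c t (D t) - n t * D t with hz
  set μ : Measure ℝ := volume.restrict (Ioc 0 Y) with hμ
  have hmono : μ ≤ volume.restrict (Ioi 0) :=
    Measure.restrict_mono Ioc_subset_Ioi_self le_rfl
  have hmem : ∀ᵐ y ∂μ, y ∈ Ioc 0 Y := ae_restrict_mem measurableSet_Ioc
  -- measurability
  have hzm : AEStronglyMeasurable z μ := (z_meas hR).mono_measure hmono
  have hDc : ContinuousOn D (Ioi 0) := fun y hy => (hR.hD y hy).continuousAt.continuousWithinAt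
  have hDm : AEStronglyMeasurable D μ :=
    (hDc.aestronglyMeasurable measurableSet_Ioi).mono_measure hmono
  have hpm : AEStronglyMeasurable p μ := hW.p_meas.aestronglyMeasurable
  have hnm : AEStronglyMeasurable n μ := hW.n_meas.aestronglyMeasurable
  have hχm : AEStronglyMeasurable (chi b) μ := (chi_meas b).aestronglyMeasurable
  have hN0m : AEStronglyMeasurable (fun y => N c y 0) μ := (hN.meas c hc 0).aestronglyMeasurable
  set w : ℝ → ℝ := fun y => p y * D y with hw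
  have hwm : AEStronglyMeasurable w μ := hpm.mul hDm
  have hcont : ∀ {f f1 : ℝ → ℝ}, (∀ y ∈ Icc 0 Y, HasDerivWithinAt f (f1 y) (Icc 0 Y) y) →
      ContinuousOn f (Icc 0 Y) := fun h y hy => (h y hy).continuousWithinAt
  have hψc := hcont hψ
  have hψ1c := hcont hψ1
  have hcm : ∀ {f : ℝ → ℝ}, ContinuousOn f (Icc 0 Y) → AEStronglyMeasurable f μ := fun h =>
    (h.mono Ioc_subset_Icc_self).aestronglyMeasurable measurableSet_Ioc
  have hψm := hcm hψc
  have hψ2m := hcm hψ2c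
  have hψ3m : AEStronglyMeasurable ψ3 μ :=
    ((intervalIntegrable_iff_integrableOn_Ioc_of_le hY.le).1 hψ3).aestronglyMeasurable
  have hidm : AEStronglyMeasurable (fun y : ℝ => y) μ := measurable_id.aestronglyMeasurable
  have hgm : AEStronglyMeasurable (fun y => y * ψ3 y + 12 * ψ2 y - n y * ψ y) μ :=
    ((hidm.mul hψ3m).add (hψ2m.const_mul 12)).sub (hnm.mul hψm)
  -- L² facts
  have hwL : MemLp w 2 μ := by
    rw [memLp_two_iff_integrable_sq hwm]
    exact Integrable.mono_measure hDi hmono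
  set f1 : ℝ → ℝ := fun y => ψ y * p y / chi b y with hf1
  set f2 : ℝ → ℝ := fun y => (y * ψ3 y + 12 * ψ2 y - n y * ψ y) / p y with hf2
  have hf1m : AEStronglyMeasurable f1 μ := by
    have := (hψm.mul hpm).mul ((chi_meas b).inv.aestronglyMeasurable (μ := μ))
    exact this
  have hf2m : AEStronglyMeasurable f2 μ := by
    have := hgm.mul (hW.p_meas.inv.aestronglyMeasurable (μ := μ))
    exact this
  have hf1L : MemLp f1 2 μ := by
    rw [memLp_two_iff_integrable_sq hf1m]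
    rw [intervalIntegrable_iff_integrableOn_Ioc_of_le hY.le] at K1_int
    exact K1_int
  have hf2L : MemLp f2 2 μ := by
    rw [memLp_two_iff_integrable_sq hf2m]
    rw [intervalIntegrable_iff_integrableOn_Ioc_of_le hY.le] at K2_int
    exact K2_int
  rw [intervalIntegral.integral_of_le hY.le] at K1_le K2_le
  have hwB : ∫ y, w y ^ 2 ∂μ ≤ B ^ 2 := by
    refine le_trans ?_ hDM
    exact setIntegral_mono_set hDi (ae_of_all _ fun y => sq_nonneg _)
      (Ioc_subset_Ioi_self : Ioc 0 Y ⊆ Ioi 0).eventuallyLE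
  -- integrability
  have hwI : Integrable w μ := hwL.integrable (by norm_num)
  set CC : ℝ := (1 + Y) ^ 3 / cq with hCC
  have hCC0 : 0 ≤ CC := by have := hW.cq_pos; positivity
  have hpχ : ∀ y ∈ Ioc 0 Y, p y / chi b y ≤ CC := by
    intro y hy
    have h3 := hW.q_low y hy.1
    have hp := hW.p_pos y hy.1
    have hχ := chi_pos (b := b) y
    have hcq := hW.cq_pos
    rw [hCC, div_le_div_iff₀ hχ hcq]
    have h4 : cq * p y ≤ chi b y * (1 + y) ^ 3 := by
      have : chi b y / p y * (1 + y) ^ 3 * p y = chi b y * (1 + y) ^ 3 := by field_simp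
      rw [← this]
      exact mul_le_mul_of_nonneg_right h3 hp.le
    have h5 : (1 + y) ^ 3 ≤ (1 + Y) ^ 3 :=
      pow_le_pow_left₀ (by linarith [hy.1]) (by linarith [hy.2]) 3
    nlinarith [mul_le_mul_of_nonneg_left h5 hχ.le]
  set CD : ℝ := Cq * (1 + Y ^ 2 / b ^ 2) ^ 3 with hCD
  have hCq0 : 0 ≤ Cq := by
    have h3 := hW.q_up Y hY
    have : 0 < chi b Y / p Y := div_pos (chi_pos Y) (hW.p_pos Y hY)
    linarith
  have hCD0 : 0 ≤ CD := by positivity
  have hDw : ∀ y ∈ Ioc 0 Y, |D y| ≤ CD * |w y| := by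
    intro y hy
    have h3 := hW.q_up y hy.1
    have hp := hW.p_pos y hy.1
    have hχ := chi_pos (b := b) y
    have h4 : 1 ≤ CD * p y := by
      have h5 : chi b y ≤ Cq * p y := by rwa [div_le_iff₀ hp] at h3
      have h6 : chi b y * (1 + y ^ 2 / b ^ 2) ^ 3 = 1 := by
        rw [← inv_chi]; exact mul_inv_cancel₀ hχ.ne'
      have h7 : (1 + y ^ 2 / b ^ 2) ^ 3 ≤ (1 + Y ^ 2 / b ^ 2) ^ 3 := by
        apply pow_le_pow_left₀ (by positivity)
        have h8 : y ^ 2 ≤ Y ^ 2 := pow_le_pow_left₀ hy.1.le hy.2 2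
        have h9 : y ^ 2 / b ^ 2 ≤ Y ^ 2 / b ^ 2 := by gcongr
        linarith
      calc (1:ℝ) = chi b y * (1 + y ^ 2 / b ^ 2) ^ 3 := h6.symm
        _ ≤ (Cq * p y) * (1 + Y ^ 2 / b ^ 2) ^ 3 := by
            apply mul_le_mul h5 h7 (by positivity) (by positivity)
        _ = CD * p y := by rw [hCD]; ring
    rw [hw]
    simp only
    rw [abs_mul, abs_of_pos hp]
    calc |D y| = 1 * |D y| := (one_mul _).symm
      _ ≤ (CD * p y) * |D y| := mul_le_mul_of_nonneg_right h4 (abs_nonneg _)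
      _ = CD * (p y * |D y|) := by ring
  set E : ℝ → ℝ := fun y => N c y (D y) - N c y 0 with hE
  have hEb : ∀ y ∈ Ioc 0 Y, |E y| ≤ η * (p y / chi b y) * |w y| := by
    intro y hy
    have h3 := hN.lip c hc y hy.1 (D y) 0
    rw [sub_zero] at h3
    have hp := hW.p_pos y hy.1
    refine le_trans h3 (le_of_eq ?_)
    rw [hw]
    simp only
    rw [abs_mul, abs_of_pos hp]
    ring
  have hEm : AEStronglyMeasurable E μ := by
    have h3 := (hzm.add (hnm.mul hDm)).sub hN0m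
    refine h3.congr (Eventually.of_forall fun y => ?_)
    simp only [hz, hE, Pi.add_apply, Pi.sub_apply, Pi.mul_apply]
    ring
  have hEI : Integrable E μ := by
    refine Integrable.mono' (hwI.abs.const_mul (η * CC)) hEm ?_
    filter_upwards [hmem] with y hy
    rw [Real.norm_eq_abs]
    refine le_trans (hEb y hy) ?_
    apply mul_le_mul_of_nonneg_right _ (abs_nonneg _)
    exact mul_le_mul_of_nonneg_left (hpχ y hy) hN.η_nonneg
  have hDI : Integrable D μ := by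
    refine Integrable.mono' (hwI.abs.const_mul CD) hDm ?_
    filter_upwards [hmem] with y hy
    rw [Real.norm_eq_abs]
    exact hDw y hy
  have hnDI : Integrable (fun y => n y * D y) μ := by
    refine Integrable.mono' (hDI.abs.const_mul n1) (hnm.mul hDm) ?_
    filter_upwards [hmem] with y hy
    rw [Real.norm_eq_abs, abs_mul, abs_of_nonneg (hW.n_nonneg y hy.1)]
    exact mul_le_mul_of_nonneg_right (hW.n_le y hy.1) (abs_nonneg _)
  have hFI : Integrable F μ := by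
    set g : ℝ → ℝ := fun y => chi b y / p y * F y with hg
    have hgm : Measurable g := ((chi_meas b).div hW.p_meas).mul hN.F_meas
    have hgL : MemLp g 2 μ := by
      rw [memLp_two_iff_integrable_sq hgm.aestronglyMeasurable]
      exact Integrable.mono_measure hN.F_int hmono
    have hgI : Integrable g μ := hgL.integrable (by norm_num)
    refine Integrable.mono' (hgI.abs.const_mul CC) hN.F_meas.aestronglyMeasurable ?_
    filter_upwards [hmem] with y hy
    have hp := hW.p_pos y hy.1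
    have hχ := chi_pos (b := b) y
    have h3 : F y = p y / chi b y * g y := by
      rw [hg]; simp only; field_simp
    rw [Real.norm_eq_abs]
    calc |F y| = p y / chi b y * |g y| := by
          rw [h3, abs_mul, abs_of_pos (div_pos hp hχ)]
      _ ≤ CC * |g y| := mul_le_mul_of_nonneg_right (hpχ y hy) (abs_nonneg _)
  have hN0I : Integrable (fun y => N c y 0) μ := by
    refine Integrable.mono' hFI.abs hN0m ?_
    filter_upwards [hmem] with y hy
    rw [Real.norm_eq_abs]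
    exact le_trans (hN.F_bd c hc y hy.1) (le_abs_self _)
  have hzI : Integrable z μ := by
    have h3 := (hN0I.add hEI).sub hnDI
    refine h3.congr (Eventually.of_forall fun y => ?_)
    simp only [hz, hE, Pi.add_apply, Pi.sub_apply]
    ring
  -- multiply by functions continuous on `[0,Y]`
  have hcmul : ∀ {f g : ℝ → ℝ}, ContinuousOn f (Icc 0 Y) → Integrable g μ →
      Integrable (fun y => f y * g y) μ := by
    intro f g hf hg
    obtain ⟨C, hC⟩ := isCompact_Icc.exists_bound_of_continuousOn hf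
    refine Integrable.mono' (hg.abs.const_mul C) ((hcm hf).mul hg.aestronglyMeasurable) ?_
    filter_upwards [hmem] with y hy
    rw [norm_mul, Real.norm_eq_abs (g y)]
    exact mul_le_mul_of_nonneg_right (hC y (Ioc_subset_Icc_self hy)) (abs_nonneg _)
  have hpair := pairing hR hY hψ hψ1 hψ2c hs hψ2 hψ3 h0 h1 h2
    ((intervalIntegrable_iff_integrableOn_Ioc_of_le hY.le).2 hzI)
  rw [intervalIntegral.integral_of_le hY.le] at hpair ⊢
  have hI1 : Integrable (fun y => ψ y * z y + (y * ψ3 y + 12 * ψ2 y) * D y) μ := by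
    have hf2w : Integrable (fun y => f2 y * w y) μ := hf2L.integrable_mul hwL
    have h3 := ((hcmul hψc hzI).add hf2w).add (hcmul hψc hnDI)
    refine h3.congr ?_
    filter_upwards [hmem] with y hy
    have hp := hW.p_pos y hy.1
    simp only [hf2, hw, Pi.add_apply]
    field_simp
    ring
  have hI2 : Integrable (fun y => ψ y * N c y 0) μ := hcmul hψc hN0I
  have hdiff : 10 * ψ 0 * κ - ∫ y in Ioc 0 Y, ψ y * N c y 0 =
      ∫ y, (ψ y * z y + (y * ψ3 y + 12 * ψ2 y) * D y) - ψ y * N c y 0 ∂μ := by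
    rw [integral_sub hI1 hI2, hpair]
  rw [hdiff]
  have hbd : ∀ᵐ y ∂μ, ‖(ψ y * z y + (y * ψ3 y + 12 * ψ2 y) * D y) - ψ y * N c y 0‖ ≤
      η * (|f1 y| * |w y|) + |f2 y| * |w y| := by
    filter_upwards [hmem] with y hy
    have hp := hW.p_pos y hy.1
    have hχ := chi_pos (b := b) y
    have e1 : (ψ y * z y + (y * ψ3 y + 12 * ψ2 y) * D y) - ψ y * N c y 0 =
        ψ y * E y + f2 y * w y := by
      simp only [hz, hE, hf2, hw]
      field_simp
      ring
    rw [e1, Real.norm_eq_abs]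
    refine le_trans (abs_add_le _ _) ?_
    rw [abs_mul, abs_mul]
    have e2 : |ψ y| * |E y| ≤ η * (|f1 y| * |w y|) := by
      calc |ψ y| * |E y| ≤ |ψ y| * (η * (p y / chi b y) * |w y|) :=
            mul_le_mul_of_nonneg_left (hEb y hy) (abs_nonneg _)
        _ = η * (|f1 y| * |w y|) := by
            have e9 : |f1 y| = |ψ y| * p y / chi b y := by
              rw [hf1]
              simp only
              rw [abs_div, abs_mul, abs_of_pos hp, abs_of_pos hχ]
            rw [e9]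
            ring
    linarith
  have hIa : Integrable (fun y => |f1 y| * |w y|) μ := by
    have := hf1L.abs.integrable_mul hwL.abs
    exact this
  have hIb : Integrable (fun y => |f2 y| * |w y|) μ := by
    have := hf2L.abs.integrable_mul hwL.abs
    exact this
  have h3 := norm_integral_le_of_norm_le ((hIa.const_mul η).add hIb) hbd
  rw [Real.norm_eq_abs] at h3
  refine le_trans h3 ?_
  have e3 : ∫ y, ((fun y => η * (|f1 y| * |w y|)) + fun y => |f2 y| * |w y|) y ∂μ =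
      η * ∫ y, |f1 y| * |w y| ∂μ + ∫ y, |f2 y| * |w y| ∂μ := by
    rw [← integral_const_mul, ← integral_add (hIa.const_mul η) hIb]
    rfl
  have e4 := cs hf1L hwL hK1 hB K1_le hwB
  have e5 := cs hf2L hwL hK2 hB K2_le hwB
  calc _ = η * ∫ y, |f1 y| * |w y| ∂μ + ∫ y, |f2 y| * |w y| ∂μ := e3
    _ ≤ η * (K1 * B) + K2 * B := add_le_add (mul_le_mul_of_nonneg_left e4 hN.η_nonneg) e5
    _ = (η * K1 + K2) * B := by ring

theorem sign_core {b n1 cq Cq : ℝ} {n p : ℝ → ℝ} (hW : WData b n1 cq Cq n p)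
    {c1 c2 η M : ℝ} {N : ℝ → ℝ → ℝ → ℝ} {F : ℝ → ℝ} (hN : NLData b p c1 c2 η M N F)
    {c κ Y : ℝ} (hc : c ∈ Icc c1 c2) (hY : 0 < Y) {D D1 : ℝ → ℝ}
    (hR : Rep κ (fun t => N c t (D t) - n t * D t) D D1)
    (hDi : IntegrableOn (fun y => (p y * D y) ^ 2) (Ioi 0))
    {B : ℝ} (hB : 0 ≤ B) (hDM : ∫ y in Ioi (0 : ℝ), (p y * D y) ^ 2 ≤ B ^ 2)
    {ψ ψ1 ψ2 ψ3 : ℝ → ℝ}
    (hψ : ∀ y ∈ Icc 0 Y, HasDerivWithinAt ψ (ψ1 y) (Icc 0 Y) y)
    (hψ1 : ∀ y ∈ Icc 0 Y, HasDerivWithinAt ψ1 (ψ2 y) (Icc 0 Y) y)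
    (hψ2 : ∀ y ∈ Icc 0 Y, HasDerivWithinAt ψ2 (ψ3 y) (Icc 0 Y) y)
    (hψ3 : ContinuousOn ψ3 (Icc 0 Y))
    (h0 : ψ Y = 0) (h1 : ψ1 Y = 0) (h2 : ψ2 Y = 0)
    {K1 K2 : ℝ} (hK1 : 0 ≤ K1) (hK2 : 0 ≤ K2)
    (K1_int : IntervalIntegrable (fun y => (ψ y * p y / chi b y) ^ 2) volume 0 Y)
    (K1_le : ∫ y in (0 : ℝ)..Y, (ψ y * p y / chi b y) ^ 2 ≤ K1 ^ 2)
    (K2_int : IntervalIntegrable
      (fun y => ((y * ψ3 y + 12 * ψ2 y - n y * ψ y) / p y) ^ 2) volume 0 Y)
    (K2_le : ∫ y in (0 : ℝ)..Y, ((y * ψ3 y + 12 * ψ2 y - n y * ψ y) / p y) ^ 2 ≤ K2 ^ 2) :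
    |10 * ψ 0 * κ - ∫ y in (0 : ℝ)..Y, ψ y * N c y 0| ≤ (η * K1 + K2) * B :=
  sign_core_gen hW hN hc hY hR hDi hB hDM hψ hψ1
    (fun y hy => (hψ2 y hy).continuousWithinAt) (s := ∅) Set.countable_empty
    (fun y hy => by
      have hy' : y ∈ Ioo 0 Y := by simpa using hy
      exact (hψ2 y (Ioo_subset_Icc_self hy')).hasDerivAt (Icc_mem_nhds hy'.1 hy'.2))
    ((hψ3.mono (by rw [uIcc_of_le hY.le])).intervalIntegrable) h0 h1 h2 hK1 hK2
    K1_int K1_le K2_int K2_le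

end Crest.Agent.R213.E
end
end

-- ▼ part R213/E/Sign0
section

/-!
# Row 213, part E: `sign_of_cert` from `NLData` (helper310)
-/

set_option autoImplicit false

open Set MeasureTheory Filter Topology

noncomputable section

namespace Crest.Agent.R213.E

theorem Sg.NN_zero {g0 : ℝ → ℝ} {m : ℝ} (hm : 0 ≤ m) (G G1 G2 G3 : ℝ → ℝ → ℝ) {c y : ℝ} (hy : 0 < y) :
    NN g0 m G G1 G2 G3 c y 0 = -(y ^ 8 * resid c y (G c y) (G1 c y) (G2 c y) (G3 c y)) := by
  have h1 : clamp m (0 / y ^ 10) = 0 := by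
    unfold clamp
    rw [zero_div, min_eq_right hm, max_eq_right (by linarith)]
  unfold NN
  rw [if_pos hy, h1]
  ring

/-- `sign_of_cert` with `nlData_of_cert` as a hypothesis. -/
theorem sign_of_cert_of {k : Cst} {p R : ℝ → ℝ} {G G1 G2 G3 : ℝ → ℝ → ℝ} {ψ ψ1 ψ2 ψ3 : ℝ → ℝ}
    (hC : Cert k p R G G1 G2 G3 ψ ψ1 ψ2 ψ3)
    (hN : NLData k.b p (k.c0 - k.δ) (k.c0 + k.δ) k.η k.M (NN (G k.c0) k.m G G1 G2 G3)
      (fun y => y ^ 8 * R y))
    {c κ : ℝ} (hc : c ∈ Icc (k.c0 - k.δ) (k.c0 + k.δ))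
    {D D1 : ℝ → ℝ}
    (hR : Rep κ (fun t => NN (G k.c0) k.m G G1 G2 G3 c t (D t) - nn (G k.c0) t * D t) D D1)
    (hDi : IntegrableOn (fun y => (p y * D y) ^ 2) (Ioi 0))
    (hDM : ∫ y in Ioi (0 : ℝ), (p y * D y) ^ 2 ≤ (k.M / (1 - k.η)) ^ 2) :
    |10 * ψ 0 * κ + ∫ y in (0 : ℝ)..k.Y, ψ y * (y ^ 8 * resid c y (G c y) (G1 c y) (G2 c y) (G3 c y))|
      ≤ (k.η * k.K1 + k.K2) * (k.M / (1 - k.η)) := by
  have hB : 0 ≤ k.M / (1 - k.η) := div_nonneg hC.M_nonneg (by linarith [hC.η_lt])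
  have h := sign_core hC.wdata hN hc hC.Y_pos hR hDi hB hDM hC.ψ_d hC.ψ1_d hC.ψ2_d hC.ψ3_c
    hC.ψ_Y hC.ψ1_Y hC.ψ2_Y hC.K1_nonneg hC.K2_nonneg hC.K1_int hC.K1_le hC.K2_int hC.K2_le
  have e : ∫ y in (0 : ℝ)..k.Y, ψ y * NN (G k.c0) k.m G G1 G2 G3 c y 0 =
      -∫ y in (0 : ℝ)..k.Y, ψ y * (y ^ 8 * resid c y (G c y) (G1 c y) (G2 c y) (G3 c y)) := by
    rw [← intervalIntegral.integral_neg]
    apply intervalIntegral.integral_congr_ae
    refine Eventually.of_forall fun y hy => ?_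
    rw [uIoc_of_le hC.Y_pos.le] at hy
    rw [Sg.NN_zero hC.m_pos.le G G1 G2 G3 hy.1]
    ring
  rw [e, sub_neg_eq_add] at h
  exact h

end Crest.Agent.R213.E
end
end

-- ▼ part R213/E/Glue1
section

/-!
# Row 213, part E: `nlData_of_cert`, `z_bd` (helper310)
-/

set_option autoImplicit false

open Set MeasureTheory Filter Topology

noncomputable section

namespace Crest.Agent.R213.E

namespace Gl

theorem clamp_abs {m : ℝ} (hm : 0 ≤ m) (x : ℝ) : |clamp m x| ≤ m := by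
  unfold clamp
  rw [abs_le]
  refine ⟨le_max_left _ _, max_le (by linarith) (min_le_left _ _)⟩

theorem clamp_lip (m x x' : ℝ) : |clamp m x - clamp m x'| ≤ |x - x'| := by
  unfold clamp
  refine le_trans (abs_max_sub_max_le_max _ _ _ _) ?_
  rw [sub_self, abs_zero]
  refine max_le (abs_nonneg _) ?_
  refine le_trans (abs_min_sub_min_le_max _ _ _ _) ?_
  rw [sub_self, abs_zero]
  exact max_le (abs_nonneg _) le_rfl

/-- `clamp m x` lies between `0` and `x`. -/
theorem clamp_between {m : ℝ} (hm : 0 ≤ m) (x : ℝ) :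
    |x - clamp m x| + |clamp m x| = |x| := by
  unfold clamp
  rcases le_total 0 x with hx | hx
  · have h1 : 0 ≤ min m x := le_min hm hx
    rw [max_eq_right (by linarith : -m ≤ min m x), abs_of_nonneg h1, abs_of_nonneg hx,
      abs_of_nonneg (by linarith [min_le_right m x])]
    ring
  · have h2 : min m x = x := min_eq_right (by linarith)
    rw [h2]
    have h3 : max (-m) x ≤ 0 := max_le (by linarith) hx
    rw [abs_of_nonpos h3, abs_of_nonpos hx, abs_of_nonpos (by linarith [le_max_right (-m) x])]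
    ring

theorem inv_between {a b n E : ℝ} (ha : 0 < a) (hb : 0 < b)
    (h1 : |n - 1 / (2 * a ^ 2)| ≤ E) (h2 : |n - 1 / (2 * b ^ 2)| ≤ E) :
    |n - 1 / (2 * (a * b))| ≤ E := by
  rw [abs_le] at h1 h2 ⊢
  rcases le_total a b with h | h
  · have e1 : 1 / (2 * (a * b)) ≤ 1 / (2 * a ^ 2) :=
      one_div_le_one_div_of_le (by positivity) (by nlinarith)
    have e2 : 1 / (2 * b ^ 2) ≤ 1 / (2 * (a * b)) :=
      one_div_le_one_div_of_le (by positivity) (by nlinarith)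
    constructor <;> linarith [h1.1, h1.2, h2.1, h2.2]
  · have e1 : 1 / (2 * (a * b)) ≤ 1 / (2 * b ^ 2) :=
      one_div_le_one_div_of_le (by positivity) (by nlinarith)
    have e2 : 1 / (2 * a ^ 2) ≤ 1 / (2 * (a * b)) :=
      one_div_le_one_div_of_le (by positivity) (by nlinarith)
    constructor <;> linarith [h1.1, h1.2, h2.1, h2.2]

theorem c3_cont {g g1 g2 g3 : ℝ → ℝ} (h : C3On (Ioi 0) g g1 g2 g3) :
    ContinuousOn g (Ioi 0) ∧ ContinuousOn g1 (Ioi 0) ∧ ContinuousOn g2 (Ioi 0) :=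
  ⟨fun y hy => (h.d1 y hy).continuousAt.continuousWithinAt,
    fun y hy => (h.d2 y hy).continuousAt.continuousWithinAt,
    fun y hy => (h.d3 y hy).continuousAt.continuousWithinAt⟩

end Gl

open Gl

section

variable {k : Cst} {p R : ℝ → ℝ} {G G1 G2 G3 : ℝ → ℝ → ℝ} {ψ ψ1 ψ2 ψ3 : ℝ → ℝ}

theorem Gl.G_pos (hC : Cert k p R G G1 G2 G3 ψ ψ1 ψ2 ψ3) {c : ℝ}
    (hc : c ∈ Icc (k.c0 - k.δ) (k.c0 + k.δ)) {y : ℝ} (hy : 0 < y) : 0 < G c y := by
  linarith [hC.G_lo c hc y hy]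

theorem Gl.Gh_pos (hC : Cert k p R G G1 G2 G3 ψ ψ1 ψ2 ψ3) {c : ℝ}
    (hc : c ∈ Icc (k.c0 - k.δ) (k.c0 + k.δ)) {y : ℝ} (hy : 0 < y) {h : ℝ} (hh : |h| ≤ k.m) :
    0 < G c y + h := by
  have h1 := hC.G_lo c hc y hy
  have h2 := hC.m_le
  have h3 := (abs_le.1 hh).1
  linarith

theorem Gl.c0_mem (hC : Cert k p R G G1 G2 G3 ψ ψ1 ψ2 ψ3) :
    k.c0 ∈ Icc (k.c0 - k.δ) (k.c0 + k.δ) := by
  have := hC.δ_pos
  constructor <;> linarith

/-- B1 -/
theorem nlData_of_cert (hC : Cert k p R G G1 G2 G3 ψ ψ1 ψ2 ψ3) :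
    NLData k.b p (k.c0 - k.δ) (k.c0 + k.δ) k.η k.M (NN (G k.c0) k.m G G1 G2 G3)
      (fun y => y ^ 8 * R y) := by
  have hc0 := Gl.c0_mem hC
  have hm := hC.m_pos.le
  refine ⟨by linarith [hC.δ_pos], hC.η_nonneg, hC.η_lt, hC.M_nonneg, ?_, ?_, ?_, ?_, hC.R_int,
    hC.R_M, ?_⟩
  · -- measurability
    intro c hc D
    obtain ⟨g0c, -, -⟩ := c3_cont (hC.G_C3 k.c0 hc0)
    obtain ⟨gc, g1c, g2c⟩ := c3_cont (hC.G_C3 c hc)
    have g3c := hC.G3_cont c hc
    have hcl : Continuous (clamp k.m) := by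
      unfold clamp
      fun_prop
    have hid : ContinuousOn (fun y : ℝ => y) (Ioi 0) := continuousOn_id
    have hh : ContinuousOn (fun y : ℝ => clamp k.m (D / y ^ 10)) (Ioi 0) := by
      refine hcl.comp_continuousOn (continuousOn_const.div (hid.pow 10) ?_)
      intro y hy
      exact pow_ne_zero _ (ne_of_gt hy)
    have hcont : ContinuousOn (fun y => nn (G k.c0) y * (y ^ 10 * clamp k.m (D / y ^ 10))
        + y ^ 10 / 2 * (1 / (G c y + clamp k.m (D / y ^ 10)) - 1 / G c y)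
        - y ^ 8 * resid c y (G c y) (G1 c y) (G2 c y) (G3 c y)) (Ioi 0) := by
      have a1 : ContinuousOn (fun y => nn (G k.c0) y) (Ioi 0) := by
        unfold nn
        refine continuousOn_const.div (continuousOn_const.mul (g0c.pow 2)) ?_
        intro y hy
        have := Gl.G_pos hC hc0 hy
        positivity
      have a2 : ContinuousOn (fun y => 1 / (G c y + clamp k.m (D / y ^ 10))) (Ioi 0) := by
        refine continuousOn_const.div (gc.add hh) ?_
        intro y hy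
        exact (Gl.Gh_pos hC hc hy (clamp_abs hm _)).ne'
      have a3 : ContinuousOn (fun y => 1 / G c y) (Ioi 0) := by
        refine continuousOn_const.div gc ?_
        intro y hy
        exact (Gl.G_pos hC hc hy).ne'
      have a4 : ContinuousOn (fun y => resid c y (G c y) (G1 c y) (G2 c y) (G3 c y)) (Ioi 0) := by
        unfold resid
        exact (((((hid.pow 3).mul g3c).add ((continuousOn_const.mul (hid.pow 2)).mul g2c)).add
          ((continuousOn_const.mul hid).mul g1c)).add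
          (continuousOn_const.mul (continuousOn_const.sub gc))).add
          (((hid.pow 2).div_const 2).mul (continuousOn_const.sub a3))
      exact ((a1.mul ((hid.pow 10).mul hh)).add
        (((hid.pow 10).div_const 2).mul (a2.sub a3))).sub ((hid.pow 8).mul a4)
    have hp := hcont.measurable_piecewise (g := fun _ => (0:ℝ)) continuousOn_const
      measurableSet_Ioi
    have he : (fun y => NN (G k.c0) k.m G G1 G2 G3 c y D) =
        (Ioi (0:ℝ)).piecewise (fun y => nn (G k.c0) y * (y ^ 10 * clamp k.m (D / y ^ 10))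
        + y ^ 10 / 2 * (1 / (G c y + clamp k.m (D / y ^ 10)) - 1 / G c y)
        - y ^ 8 * resid c y (G c y) (G1 c y) (G2 c y) (G3 c y)) (fun _ => (0:ℝ)) := by
      funext y
      by_cases hy : 0 < y
      · rw [Set.piecewise_eq_of_mem _ _ _ (show y ∈ Ioi (0:ℝ) from hy)]
        unfold NN
        rw [if_pos hy]
      · rw [Set.piecewise_eq_of_notMem _ _ _ (show y ∉ Ioi (0:ℝ) from hy)]
        unfold NN
        rw [if_neg hy]
    rw [he]
    exact hp
  · -- Lipschitz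
    intro c hc y hy D D'
    set h := clamp k.m (D / y ^ 10) with hh
    set h' := clamp k.m (D' / y ^ 10) with hh'
    have ha : 0 < G c y + h := Gl.Gh_pos hC hc hy (clamp_abs hm _)
    have hb : 0 < G c y + h' := Gl.Gh_pos hC hc hy (clamp_abs hm _)
    have e : NN (G k.c0) k.m G G1 G2 G3 c y D - NN (G k.c0) k.m G G1 G2 G3 c y D' =
        (y ^ 10 * (h - h')) * (nn (G k.c0) y - 1 / (2 * ((G c y + h) * (G c y + h')))) := by
      unfold NN
      rw [if_pos hy, if_pos hy, ← hh, ← hh']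
      field_simp
      ring
    rw [e, abs_mul, abs_mul, abs_of_pos (by positivity : (0:ℝ) < y ^ 10)]
    have h1 : |nn (G k.c0) y - 1 / (2 * ((G c y + h) * (G c y + h')))| ≤
        k.η * (p y ^ 2 / chi k.b y) := by
      apply inv_between ha hb
      · exact hC.lip c hc y hy h (clamp_abs hm _)
      · exact hC.lip c hc y hy h' (clamp_abs hm _)
    have h2 : y ^ 10 * |h - h'| ≤ |D - D'| := by
      have h3 := clamp_lip k.m (D / y ^ 10) (D' / y ^ 10)
      rw [← hh, ← hh'] at h3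
      rw [← sub_div, abs_div, abs_of_pos (by positivity : (0:ℝ) < y ^ 10),
        le_div_iff₀ (by positivity)] at h3
      linarith
    calc y ^ 10 * |h - h'| * |nn (G k.c0) y - 1 / (2 * ((G c y + h) * (G c y + h')))|
        ≤ |D - D'| * (k.η * (p y ^ 2 / chi k.b y)) :=
          mul_le_mul h2 h1 (abs_nonneg _) (abs_nonneg _)
      _ = k.η * (p y ^ 2 / chi k.b y) * |D - D'| := by ring
  · have := hC.R_meas
    fun_prop
  · intro c hc y hy
    rw [Sg.NN_zero hm G G1 G2 G3 hy, abs_neg, abs_mul, abs_of_pos (by positivity : (0:ℝ) < y ^ 8)]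
    exact mul_le_mul_of_nonneg_left (hC.res c hc y hy) (by positivity)
  · intro y hy D
    have a1 := hC.G_cc y hy
    have a2 := hC.res_cc y hy
    have hcont : ContinuousOn (fun c => nn (G k.c0) y * (y ^ 10 * clamp k.m (D / y ^ 10))
        + y ^ 10 / 2 * (1 / (G c y + clamp k.m (D / y ^ 10)) - 1 / G c y)
        - y ^ 8 * resid c y (G c y) (G1 c y) (G2 c y) (G3 c y))
        (Icc (k.c0 - k.δ) (k.c0 + k.δ)) := by
      refine (continuousOn_const.add (continuousOn_const.mul (ContinuousOn.sub ?_ ?_))).sub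
        (continuousOn_const.mul a2)
      · refine continuousOn_const.div (a1.add continuousOn_const) ?_
        intro c hc
        exact (Gl.Gh_pos hC hc hy (clamp_abs hm _)).ne'
      · refine continuousOn_const.div a1 ?_
        intro c hc
        exact (Gl.G_pos hC hc hy).ne'
    refine hcont.congr ?_
    intro c _
    simp only
    unfold NN
    rw [if_pos hy]

/-- B1' -/
theorem z_bd (hC : Cert k p R G G1 G2 G3 ψ ψ1 ψ2 ψ3) {c : ℝ}
    (hc : c ∈ Icc (k.c0 - k.δ) (k.c0 + k.δ)) (D : ℝ) :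
    (∀ y, 0 < y → y ≤ 2 →
      |NN (G k.c0) k.m G G1 G2 G3 c y D - nn (G k.c0) y * D| ≤ 3 * |D| + k.ε * y ^ 10) ∧
    (∀ y, 2 ≤ y →
      |NN (G k.c0) k.m G G1 G2 G3 c y D - nn (G k.c0) y * D| ≤
        2 / 7 * y ^ 2 * |D| + k.ρ * y ^ 8) := by
  have hc0 := Gl.c0_mem hC
  have hm := hC.m_pos.le
  -- general bound
  have key : ∀ y, 0 < y → ∀ L r : ℝ, 0 ≤ L → nn (G k.c0) y ≤ L →
      (∀ h, |h| ≤ k.m → 1 / (2 * (G c y * (G c y + h))) ≤ L) → y ^ 8 * R y ≤ r →
      |NN (G k.c0) k.m G G1 G2 G3 c y D - nn (G k.c0) y * D| ≤ L * |D| + r := by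
    intro y hy L r hL hn hq hr
    set h := clamp k.m (D / y ^ 10) with hh
    have hha : |h| ≤ k.m := clamp_abs hm _
    have hG : 0 < G c y := Gl.G_pos hC hc hy
    have hGh : 0 < G c y + h := Gl.Gh_pos hC hc hy hha
    have hG0 : 0 < G k.c0 y := Gl.G_pos hC hc0 hy
    have hy10 : (0:ℝ) < y ^ 10 := by positivity
    have e : NN (G k.c0) k.m G G1 G2 G3 c y D - nn (G k.c0) y * D =
        -(nn (G k.c0) y * (D - y ^ 10 * h)) - (1 / (2 * (G c y * (G c y + h)))) * (y ^ 10 * h)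
        - y ^ 8 * resid c y (G c y) (G1 c y) (G2 c y) (G3 c y) := by
      unfold NN
      rw [if_pos hy, ← hh]
      field_simp
      ring
    have hsplit : |D - y ^ 10 * h| + |y ^ 10 * h| = |D| := by
      have h3 := clamp_between hm (D / y ^ 10)
      rw [← hh] at h3
      have e1 : D - y ^ 10 * h = y ^ 10 * (D / y ^ 10 - h) := by
        field_simp
      have e2 : D = y ^ 10 * (D / y ^ 10) := by field_simp
      rw [e1, abs_mul, abs_mul, abs_of_pos hy10, ← mul_add, h3]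
      conv_rhs => rw [e2, abs_mul, abs_of_pos hy10]
    have hn0 : 0 ≤ nn (G k.c0) y := by unfold nn; positivity
    have hq0 : 0 ≤ 1 / (2 * (G c y * (G c y + h))) := by positivity
    have hres := hC.res c hc y hy
    rw [e]
    calc |-(nn (G k.c0) y * (D - y ^ 10 * h)) - (1 / (2 * (G c y * (G c y + h)))) * (y ^ 10 * h)
        - y ^ 8 * resid c y (G c y) (G1 c y) (G2 c y) (G3 c y)|
        ≤ |nn (G k.c0) y * (D - y ^ 10 * h)| + |(1 / (2 * (G c y * (G c y + h)))) * (y ^ 10 * h)|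
          + |y ^ 8 * resid c y (G c y) (G1 c y) (G2 c y) (G3 c y)| := by
          refine le_trans (abs_sub _ _) (add_le_add (le_trans (abs_sub _ _) ?_) le_rfl)
          rw [abs_neg]
      _ = nn (G k.c0) y * |D - y ^ 10 * h| + (1 / (2 * (G c y * (G c y + h)))) * |y ^ 10 * h|
          + y ^ 8 * |resid c y (G c y) (G1 c y) (G2 c y) (G3 c y)| := by
          rw [abs_mul, abs_mul (1 / (2 * (G c y * (G c y + h)))), abs_mul (y ^ 8),
            abs_of_nonneg hn0, abs_of_nonneg hq0, abs_of_pos (by positivity : (0:ℝ) < y ^ 8)]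
      _ ≤ L * |D - y ^ 10 * h| + L * |y ^ 10 * h| + y ^ 8 * R y := by
          refine add_le_add (add_le_add (mul_le_mul_of_nonneg_right hn (abs_nonneg _))
            (mul_le_mul_of_nonneg_right (hq h hha) (abs_nonneg _))) ?_
          exact mul_le_mul_of_nonneg_left hres (by positivity)
      _ = L * |D| + y ^ 8 * R y := by rw [← mul_add, hsplit]
      _ ≤ L * |D| + r := by linarith
  refine ⟨?_, ?_⟩
  · intro y hy hy2
    have b1 := hC.G_lo1 k.c0 hc0 y hy hy2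
    have b2 := hC.G_lo1 c hc y hy hy2
    have b3 := hC.m_le
    apply key y hy 3 (k.ε * y ^ 10) (by norm_num)
    · unfold nn
      rw [div_le_iff₀ (by positivity)]
      nlinarith
    · intro h hh
      have b4 := (abs_le.1 hh).1
      have b5 : 59 / 100 ≤ G c y + h := by linarith
      rw [div_le_iff₀ (by positivity)]
      nlinarith [mul_le_mul b2 b5 (by norm_num) (by linarith : (0:ℝ) ≤ G c y)]
    · have b6 := hC.R_near y hy hy2
      calc y ^ 8 * R y ≤ y ^ 8 * (k.ε * y ^ 2) := mul_le_mul_of_nonneg_left b6 (by positivity)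
        _ = k.ε * y ^ 10 := by ring
  · intro y hy
    have hy0 : 0 < y := by linarith
    have b1 := hC.G_lo2 k.c0 hc0 y hy
    have b2 := hC.G_lo2 c hc y hy
    apply key y hy0 (2 / 7 * y ^ 2) (k.ρ * y ^ 8) (by positivity)
    · have b3 : 4 / 3 ≤ y * G k.c0 y := by nlinarith [hC.m_pos]
      have b4 : 0 < G k.c0 y := Gl.G_pos hC hc0 hy0
      unfold nn
      rw [div_le_iff₀ (by positivity)]
      have b5 : 16 / 9 ≤ (y * G k.c0 y) ^ 2 := by nlinarith
      nlinarith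
    · intro h hh
      have b3 := (abs_le.1 hh).1
      have b4 : 4 / 3 ≤ y * G c y := by nlinarith [hC.m_pos]
      have b5 : 4 / 3 ≤ y * (G c y + h) := by nlinarith
      have b6 : 0 < G c y := Gl.G_pos hC hc hy0
      have b7 : 0 < G c y + h := Gl.Gh_pos hC hc hy0 hh
      rw [div_le_iff₀ (by positivity)]
      have b8 : 16 / 9 ≤ (y * G c y) * (y * (G c y + h)) := by
        have := mul_le_mul b4 b5 (by norm_num) (by positivity : (0:ℝ) ≤ y * G c y)
        linarith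
      nlinarith
    · have b9 := hC.R_far y hy
      calc y ^ 8 * R y ≤ y ^ 8 * k.ρ := mul_le_mul_of_nonneg_left b9 (by positivity)
        _ = k.ρ * y ^ 8 := by ring

end

end Crest.Agent.R213.E
end
end

-- ▼ part R213/E/Sign
section

/-!
# Row 213, part E: `sign_of_cert` (helper310)
-/

set_option autoImplicit false

open Set MeasureTheory Filter Topology

noncomputable section

namespace Crest.Agent.R213.E

/-- B2 -/
theorem sign_of_cert {k : Cst} {p R : ℝ → ℝ} {G G1 G2 G3 : ℝ → ℝ → ℝ} {ψ ψ1 ψ2 ψ3 : ℝ → ℝ}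
    (hC : Cert k p R G G1 G2 G3 ψ ψ1 ψ2 ψ3) {c κ : ℝ} (hc : c ∈ Icc (k.c0 - k.δ) (k.c0 + k.δ))
    {D D1 : ℝ → ℝ}
    (hR : Rep κ (fun t => NN (G k.c0) k.m G G1 G2 G3 c t (D t) - nn (G k.c0) t * D t) D D1)
    (hDi : IntegrableOn (fun y => (p y * D y) ^ 2) (Ioi 0))
    (hDM : ∫ y in Ioi (0 : ℝ), (p y * D y) ^ 2 ≤ (k.M / (1 - k.η)) ^ 2) :
    |10 * ψ 0 * κ + ∫ y in (0 : ℝ)..k.Y, ψ y * (y ^ 8 * resid c y (G c y) (G1 c y) (G2 c y) (G3 c y))|
      ≤ (k.η * k.K1 + k.K2) * (k.M / (1 - k.η)) :=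
  sign_of_cert_of hC (nlData_of_cert hC) hc hR hDi hDM

end Crest.Agent.R213.E
end
end

-- ▼ part R213/E/Upgrade
section

/-!
# Row 213, part E: from the integrated form (`Rep`) to a classical solution of the soliton equation
-/

set_option autoImplicit false

open Set MeasureTheory Filter Topology

noncomputable section

namespace Crest.Agent.R213.E

/-- derivative of `QQ`. -/
lemma hasDerivAt_QQ {z : ℝ → ℝ} (hint : ∀ y, 0 < y → IntegrableOn (fun t => (t ^ 10)⁻¹ * z t) (Ioi y))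
    (hz : ContinuousOn z (Ioi 0)) {y : ℝ} (hy : 0 < y) :
    HasDerivAt (QQ z) (-((y ^ 10)⁻¹ * z y)) y := by
  set f : ℝ → ℝ := fun t => (t ^ 10)⁻¹ * z t with hf
  have hfc : ContinuousOn f (Ioi 0) := by
    refine ContinuousOn.mul (ContinuousOn.inv₀ (by fun_prop) ?_) hz
    intro t ht; exact pow_ne_zero 10 (ne_of_gt ht)
  have hy2 : 0 < y / 2 := by linarith
  have hev : QQ z =ᶠ[𝓝 y] fun x => (∫ t in Ioi (y / 2), f t) - ∫ t in (y / 2)..x, f t := by
    filter_upwards [Ioi_mem_nhds hy] with x hx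
    have := intervalIntegral.integral_interval_add_Ioi (f := f) (hint (y / 2) hy2) (hint x hx)
    simp only [QQ]
    linarith
  have hd : HasDerivAt (fun x => ∫ t in (y / 2)..x, f t) (f y) y := by
    refine intervalIntegral.integral_hasDerivAt_right ?_ ?_ ?_
    · apply ContinuousOn.intervalIntegrable
      refine hfc.mono ?_
      rw [uIcc_of_le (by linarith)]
      intro t ht; exact lt_of_lt_of_le hy2 ht.1
    · exact hfc.stronglyMeasurableAtFilter isOpen_Ioi y hy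
    · exact hfc.continuousAt (Ioi_mem_nhds hy)
  have := (hd.const_sub (∫ t in Ioi (y / 2), f t)).congr_of_eventuallyEq hev
  exact this

/-- **(V) classical solution.** `g = G + D/y¹⁰`, `G ∈ C³(0,∞)`, `D` given by `Rep` with right hand side
`z = y⁸(-(P(θ)G + 90) - y²/(2c) + y²/(2g))`. -/
theorem upgrade {c κ : ℝ} {G G1 G2 G3 z D D1 : ℝ → ℝ}
    (h0 : ∀ y, 0 < y → HasDerivAt G (G1 y) y) (h1 : ∀ y, 0 < y → HasDerivAt G1 (G2 y) y)
    (h2 : ∀ y, 0 < y → HasDerivAt G2 (G3 y) y) (h3 : ContinuousOn G3 (Ioi 0))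
    (hR : Rep κ z D D1) (hpos : ∀ y, 0 < y → 0 < G y + D y / y ^ 10)
    (hz : ∀ y, 0 < y → z y = y ^ 8 * (-(y ^ 3 * G3 y + 21 * y ^ 2 * G2 y + 90 * y * G1 y
      + 90 * (1 - G y)) - y ^ 2 / 2 * (1 / c - 1 / (G y + D y / y ^ 10)))) :
    ∃ g1 g2 g3 : ℝ → ℝ,
      (∀ y, 0 < y → HasDerivAt (fun y => G y + D y / y ^ 10) (g1 y) y) ∧
      (∀ y, 0 < y → HasDerivAt g1 (g2 y) y) ∧ (∀ y, 0 < y → HasDerivAt g2 (g3 y) y) ∧
      ∀ y, 0 < y → y ^ 3 * g3 y + 21 * y ^ 2 * g2 y + 90 * y * g1 y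
        + 90 * (1 - (G y + D y / y ^ 10)) + y ^ 2 / 2 * (1 / c - 1 / (G y + D y / y ^ 10)) = 0 := by
  have cG : ContinuousOn G (Ioi 0) := fun y hy => (h0 y hy).continuousAt.continuousWithinAt
  have cG1 : ContinuousOn G1 (Ioi 0) := fun y hy => (h1 y hy).continuousAt.continuousWithinAt
  have cG2 : ContinuousOn G2 (Ioi 0) := fun y hy => (h2 y hy).continuousAt.continuousWithinAt
  have cD : ContinuousOn D (Ioi 0) := fun y hy => (hR.hD y hy).continuousAt.continuousWithinAt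
  have cg : ContinuousOn (fun y => G y + D y / y ^ 10) (Ioi 0) :=
    cG.add (cD.div (by fun_prop) fun y hy => pow_ne_zero 10 (ne_of_gt hy))
  have hzc : ContinuousOn z (Ioi 0) := by
    have : ContinuousOn (fun y => y ^ 8 * (-(y ^ 3 * G3 y + 21 * y ^ 2 * G2 y + 90 * y * G1 y
      + 90 * (1 - G y)) - y ^ 2 / 2 * (1 / c - 1 / (G y + D y / y ^ 10)))) (Ioi 0) := by
      have : ContinuousOn (fun y => 1 / (G y + D y / y ^ 10)) (Ioi 0) :=
        continuousOn_const.div cg fun y hy => (hpos y hy).ne'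
      fun_prop
    exact this.congr fun y hy => hz y hy
  set D2 : ℝ → ℝ := fun y => -(y ^ 9 * QQ z y) with hD2
  have hDD : ∀ y, 0 < y → HasDerivAt D2 ((9 * D2 y + z y) / y) y := by
    intro y hy
    have hq := hasDerivAt_QQ hR.int hzc hy
    have := (((hasDerivAt_id y).pow 9).mul hq).neg
    refine this.congr_deriv ?_
    simp only [hD2, id, Pi.pow_apply]
    field_simp
    ring
  refine ⟨fun y => G1 y + (D1 y / y ^ 10 - 10 * (D y / y ^ 11)),
    fun y => G2 y + (D2 y / y ^ 10 - 20 * (D1 y / y ^ 11) + 110 * (D y / y ^ 12)),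
    fun y => G3 y + ((9 * D2 y + z y) / y / y ^ 10 - 30 * (D2 y / y ^ 11) +
      330 * (D1 y / y ^ 12) - 1320 * (D y / y ^ 13)), ?_, ?_, ?_, ?_⟩
  · intro y hy
    have hy0 : y ≠ 0 := hy.ne'
    have := (h0 y hy).add ((hR.hD y hy).div ((hasDerivAt_id y).pow 10) (pow_ne_zero 10 hy0))
    refine this.congr_deriv ?_
    simp only [id, Pi.pow_apply]
    field_simp
    ring
  · intro y hy
    have hy0 : y ≠ 0 := hy.ne'
    have := (h1 y hy).add (((hR.hD1 y hy).div ((hasDerivAt_id y).pow 10) (pow_ne_zero 10 hy0)).sub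
      (((hR.hD y hy).div ((hasDerivAt_id y).pow 11) (pow_ne_zero 11 hy0)).const_mul 10))
    refine this.congr_deriv ?_
    simp only [id, Pi.pow_apply, hD2]
    field_simp
    ring
  · intro y hy
    have hy0 : y ≠ 0 := hy.ne'
    have := (h2 y hy).add ((((hDD y hy).div ((hasDerivAt_id y).pow 10) (pow_ne_zero 10 hy0)).sub
      (((hR.hD1 y hy).div ((hasDerivAt_id y).pow 11) (pow_ne_zero 11 hy0)).const_mul 20)).add
      (((hR.hD y hy).div ((hasDerivAt_id y).pow 12) (pow_ne_zero 12 hy0)).const_mul 110))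
    refine this.congr_deriv ?_
    simp only [id, Pi.pow_apply, hD2]
    field_simp
    ring
  · intro y hy
    have hy0 : y ≠ 0 := hy.ne'
    have e := hz y hy
    have hp := (hpos y hy).ne'
    have key : y ^ 3 * (G3 y + ((9 * D2 y + z y) / y / y ^ 10 - 30 * (D2 y / y ^ 11) +
      330 * (D1 y / y ^ 12) - 1320 * (D y / y ^ 13))) +
      21 * y ^ 2 * (G2 y + (D2 y / y ^ 10 - 20 * (D1 y / y ^ 11) + 110 * (D y / y ^ 12))) +
      90 * y * (G1 y + (D1 y / y ^ 10 - 10 * (D y / y ^ 11))) + 90 * (1 - (G y + D y / y ^ 10)) =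
      y ^ 3 * G3 y + 21 * y ^ 2 * G2 y + 90 * y * G1 y + 90 * (1 - G y) + z y / y ^ 8 := by
      field_simp
      ring
    simp only
    rw [key, e]
    have : y ^ 8 * (-(y ^ 3 * G3 y + 21 * y ^ 2 * G2 y + 90 * y * G1 y
      + 90 * (1 - G y)) - y ^ 2 / 2 * (1 / c - 1 / (G y + D y / y ^ 10))) / y ^ 8 =
      (-(y ^ 3 * G3 y + 21 * y ^ 2 * G2 y + 90 * y * G1 y
      + 90 * (1 - G y)) - y ^ 2 / 2 * (1 / c - 1 / (G y + D y / y ^ 10))) := by
      rw [mul_div_assoc, mul_comm]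
      rw [div_mul_cancel₀ _ (pow_ne_zero 8 hy0)]
    rw [this]
    ring

end Crest.Agent.R213.E
end
end

-- ▼ part R213/E/Lim
section

/-! Row 213, PART E: `h = D/y^10 → 0` at infinity (helper798). -/

set_option autoImplicit false

open Set MeasureTheory Filter Topology

noncomputable section

namespace Crest.Agent.R213.E

namespace LimH

/-- linear growth bound from a derivative bound. -/
theorem growth {f f' : ℝ → ℝ} {K a : ℝ} {n : ℕ} (ha : 1 ≤ a) (hK : 0 ≤ K)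
    (hf : ∀ y, a ≤ y → HasDerivAt f (f' y) y) (hb : ∀ y, a ≤ y → |f' y| ≤ K * y ^ n)
    (y : ℝ) (hy : a ≤ y) : |f y| ≤ (|f a| + K) * y ^ (n + 1) := by
  have hy1 : 1 ≤ y := ha.trans hy
  have h1 : ‖f y - f a‖ ≤ K * y ^ n * (y - a) := by
    refine norm_image_sub_le_of_norm_deriv_le_segment' (f' := f')
      (fun x hx => (hf x hx.1).hasDerivWithinAt) (fun x hx => ?_) y ⟨hy, le_rfl⟩
    have hx0 : 0 ≤ x := zero_le_one.trans (ha.trans hx.1)
    refine (hb x hx.1).trans (mul_le_mul_of_nonneg_left ?_ hK)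
    exact pow_le_pow_left₀ hx0 hx.2.le n
  rw [Real.norm_eq_abs] at h1
  have h2 : |f y| ≤ |f a| + |f y - f a| := by
    have := abs_add_le (f a) (f y - f a)
    rwa [add_sub_cancel] at this
  have h3 : K * y ^ n * (y - a) ≤ K * y ^ (n + 1) := by
    rw [pow_succ, ← mul_assoc]
    refine mul_le_mul_of_nonneg_left (by linarith) (by positivity)
  have h4 : |f a| ≤ |f a| * y ^ (n + 1) :=
    le_mul_of_one_le_right (abs_nonneg _) (one_le_pow₀ hy1)
  rw [add_mul]
  linarith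

end LimH

/-- `h = D/y^10 → 0` at infinity. -/
theorem lim_h {κ Z : ℝ} {z D D1 : ℝ → ℝ} (hR : Rep κ z D D1)
    (hQ : ∀ y, 2 ≤ y → |QQ z y| ≤ Z / y)
    (hi : IntegrableOn (fun y => y ^ 14 * (D y / y ^ 10) ^ 2) (Ioi 1)) :
    Tendsto (fun y => D y / y ^ 10) atTop (𝓝 0) := by
  have hZ : 0 ≤ Z := by
    have h1 := (abs_nonneg _).trans (hQ 2 le_rfl)
    rwa [le_div_iff₀ (by norm_num), zero_mul] at h1
  -- growth of D1 and D
  have hD1 := LimH.growth (f := D1) (n := 8) (K := Z) (a := 2) (by norm_num) hZ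
    (fun y hy => hR.hD1 y (by linarith)) (fun y hy => by
      have hy0 : 0 < y := by linarith
      rw [abs_neg, abs_mul, abs_of_pos (by positivity : (0 : ℝ) < y ^ 9)]
      calc y ^ 9 * |QQ z y| ≤ y ^ 9 * (Z / y) :=
            mul_le_mul_of_nonneg_left (hQ y hy) (by positivity)
        _ = Z * y ^ 8 := by field_simp)
  set K := |D1 2| + Z with hK
  have hK0 : 0 ≤ K := by positivity
  have hD := LimH.growth (f := D) (n := 9) (K := K) (a := 2) (by norm_num) hK0
    (fun y hy => hR.hD y (by linarith)) (fun y hy => by simpa using hD1 y hy)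
  set L := |D 2| + K with hL
  have hL0 : 0 ≤ L := by positivity
  -- `h` and its derivative
  set h : ℝ → ℝ := fun y => D y / y ^ 10 with hh
  set h' : ℝ → ℝ := fun y => D1 y / y ^ 10 - 10 * D y / y ^ 11 with hh'
  have hder : ∀ y, 0 < y → HasDerivAt h (h' y) y := by
    intro y hy
    have := (hR.hD y hy).div (hasDerivAt_pow 10 y) (by positivity)
    refine this.congr_deriv ?_
    simp only [hh']
    push_cast
    field_simp
  have hbd : ∀ y, 2 ≤ y → |h y| ≤ L := by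
    intro y hy
    have hy0 : 0 < y := by linarith
    rw [hh]
    simp only
    rw [abs_div, abs_of_pos (by positivity : (0 : ℝ) < y ^ 10), div_le_iff₀ (by positivity)]
    simpa using hD y hy
  have hbd' : ∀ y, 2 ≤ y → |h' y| ≤ K + 10 * L := by
    intro y hy
    have hy0 : 0 < y := by linarith
    have e1 : |D1 y / y ^ 10| ≤ K := by
      rw [abs_div, abs_of_pos (by positivity : (0 : ℝ) < y ^ 10), div_le_iff₀ (by positivity)]
      have := hD1 y hy
      calc |D1 y| ≤ K * y ^ 9 := by simpa using this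
        _ ≤ K * y ^ 10 := mul_le_mul_of_nonneg_left
            (pow_le_pow_right₀ (by linarith) (by norm_num)) hK0
    have e2 : |10 * D y / y ^ 11| ≤ 10 * L := by
      rw [abs_div, abs_mul, abs_of_pos (by positivity : (0 : ℝ) < y ^ 11),
        div_le_iff₀ (by positivity), abs_of_pos (by norm_num : (0 : ℝ) < 10)]
      have := hD y hy
      calc 10 * |D y| ≤ 10 * (L * y ^ 10) := by
            have : |D y| ≤ L * y ^ 10 := by simpa using this
            linarith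
        _ ≤ 10 * (L * y ^ 11) := by
            have : L * y ^ 10 ≤ L * y ^ 11 := mul_le_mul_of_nonneg_left
              (pow_le_pow_right₀ (by linarith) (by norm_num)) hL0
            linarith
        _ = 10 * L * y ^ 11 := by ring
    calc |h' y| ≤ |D1 y / y ^ 10| + |10 * D y / y ^ 11| := by
          rw [hh']; exact abs_sub _ _
      _ ≤ K + 10 * L := add_le_add e1 e2
  -- continuity / measurability on `Ioi 2`
  have hcont : ContinuousOn h (Ioi 2) := fun y hy =>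
    (hder y (lt_trans two_pos hy)).continuousAt.continuousWithinAt
  have hcD : ContinuousOn D (Ioi 2) := fun y hy =>
    (hR.hD y (lt_trans two_pos hy)).continuousAt.continuousWithinAt
  have hcD1 : ContinuousOn D1 (Ioi 2) := fun y hy =>
    (hR.hD1 y (lt_trans two_pos hy)).continuousAt.continuousWithinAt
  have hne : ∀ y ∈ Ioi (2 : ℝ), y ≠ 0 := fun y hy => (lt_trans two_pos hy).ne'
  have hcont' : ContinuousOn h' (Ioi 2) :=
    (hcD1.div (continuousOn_id.pow 10) fun y hy => pow_ne_zero 10 (hne y hy)).sub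
      ((continuousOn_const.mul hcD).div (continuousOn_id.pow 11)
        fun y hy => pow_ne_zero 11 (hne y hy))
  -- `h²` integrable
  have hi2 : IntegrableOn (fun y => h y ^ 2) (Ioi 2) := by
    refine Integrable.mono' (hi.mono_set (Ioi_subset_Ioi one_le_two))
      ((hcont.pow 2).aestronglyMeasurable measurableSet_Ioi) ?_
    refine (ae_restrict_mem measurableSet_Ioi).mono fun y hy => ?_
    have hy2 : (2 : ℝ) < y := hy
    rw [Real.norm_eq_abs, abs_of_nonneg (sq_nonneg _)]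
    exact le_mul_of_one_le_left (sq_nonneg _) (one_le_pow₀ (by linarith))
  have hi3 : IntegrableOn (fun y => h y ^ 3) (Ioi 2) := by
    refine Integrable.mono' (hi2.const_mul L)
      ((hcont.pow 3).aestronglyMeasurable measurableSet_Ioi) ?_
    refine (ae_restrict_mem measurableSet_Ioi).mono fun y hy => ?_
    have hy2 : (2 : ℝ) < y := hy
    rw [Real.norm_eq_abs, abs_pow]
    have : |h y| ^ 3 = |h y| * h y ^ 2 := by rw [← sq_abs (h y)]; ring
    rw [this]
    exact mul_le_mul_of_nonneg_right (hbd y hy2.le) (sq_nonneg _)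
  have hi3' : IntegrableOn (fun y => 3 * h y ^ 2 * h' y) (Ioi 2) := by
    refine Integrable.mono' (hi2.const_mul (3 * (K + 10 * L)))
      (((continuousOn_const.mul (hcont.pow 2)).mul hcont').aestronglyMeasurable
        measurableSet_Ioi) ?_
    refine (ae_restrict_mem measurableSet_Ioi).mono fun y hy => ?_
    have hy2 : (2 : ℝ) < y := hy
    rw [Real.norm_eq_abs, abs_mul, abs_mul, abs_of_nonneg (sq_nonneg (h y)),
      abs_of_pos (by norm_num : (0 : ℝ) < 3)]
    have := mul_le_mul_of_nonneg_left (hbd' y hy2.le) (by positivity : 0 ≤ 3 * h y ^ 2)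
    calc 3 * h y ^ 2 * |h' y| ≤ 3 * h y ^ 2 * (K + 10 * L) := this
      _ = 3 * (K + 10 * L) * h y ^ 2 := by ring
  have hd3 : ∀ y ∈ Ioi (2 : ℝ), HasDerivAt (fun y => h y ^ 3) (3 * h y ^ 2 * h' y) y := by
    intro y hy
    have := (hder y (lt_trans two_pos hy)).pow 3
    refine this.congr_deriv ?_
    norm_num
  have hlim : Tendsto (fun y => h y ^ 3) atTop (𝓝 0) :=
    tendsto_zero_of_hasDerivAt_of_integrableOn_Ioi hd3 hi3' hi3
  -- cube root
  have habs : Tendsto (fun y => |h y| ^ 3) atTop (𝓝 0) := by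
    have := hlim.abs
    simpa [abs_pow] using this
  have h4 : Tendsto (fun y => |h y|) atTop (𝓝 0) := by
    rw [Metric.tendsto_nhds] at habs ⊢
    intro ε hε
    filter_upwards [habs (ε ^ 3) (by positivity)] with y hy
    rw [Real.dist_eq, sub_zero, abs_of_nonneg (by positivity)] at hy
    rw [Real.dist_eq, sub_zero, abs_abs]
    exact lt_of_pow_lt_pow_left₀ 3 hε.le hy
  exact (tendsto_zero_iff_abs_tendsto_zero _).2 h4

/-- `S3 c y → c` at infinity. -/
theorem tendsto_S3 (c : ℝ) : Tendsto (fun y => S3 c y) atTop (𝓝 c) := by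
  have e : ∀ (b : ℝ) (n : ℕ), n ≠ 0 → Tendsto (fun y : ℝ => b / y ^ n) atTop (𝓝 0) := fun b n hn =>
    (tendsto_const_nhds (x := b)).div_atTop (tendsto_pow_atTop hn)
  have := (((tendsto_const_nhds (x := c) (f := atTop (α := ℝ))).add (e (b1 c) 2 two_ne_zero)).add
    (e (b2 c) 4 (by norm_num))).add (e (b3 c) 6 (by norm_num))
  simpa only [S3, add_zero] using this

/-- `g → c` at infinity from the certificate and the bounds of the fixed point. -/
theorem lim_g {k : Cst} {p R : ℝ → ℝ} {G G1 G2 G3 : ℝ → ℝ → ℝ} {ψ ψ1 ψ2 ψ3 : ℝ → ℝ}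
    (hC : Cert k p R G G1 G2 G3 ψ ψ1 ψ2 ψ3) {c : ℝ} (hc : c ∈ Icc (k.c0 - k.δ) (k.c0 + k.δ))
    {D : ℝ → ℝ} (hD : Tendsto (fun y => D y / y ^ 10) atTop (𝓝 0)) :
    Tendsto (fun y => G c y + D y / y ^ 10) atTop (𝓝 c) := by
  obtain ⟨C, ht⟩ := hC.tail c hc
  have h1 : Tendsto (fun y => G c y - S3 c y) atTop (𝓝 0) := by
    refine squeeze_zero_norm' (a := fun y => C / y ^ 8) ?_
      ((tendsto_const_nhds (x := C)).div_atTop (tendsto_pow_atTop (by norm_num)))
    filter_upwards [eventually_ge_atTop 1] with y hy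
    exact ht y hy
  have h2 := (h1.add (tendsto_S3 c)).add hD
  simpa using h2

end Crest.Agent.R213.E
end
end

-- ▼ part R213/E/PtBound

/-! Row 213, PART E: pointwise bound of the correction (helper510). -/

set_option autoImplicit false

open Set MeasureTheory Filter Topology

noncomputable section

namespace Crest.Agent.R213.E

namespace PtB

theorem mono1 {Y : ℝ} {F F1 : ℝ → ℝ} (h1 : ∀ y, 0 < y → y ≤ Y → HasDerivAt F (F1 y) y)
    (h3 : ∀ y, 0 < y → y ≤ Y → 0 ≤ F1 y) (l0 : Tendsto F (𝓝[>] 0) (𝓝 0)) :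
    ∀ y, 0 < y → y ≤ Y → 0 ≤ F y := by
  have hmono : MonotoneOn F (Ioc 0 Y) := by
    refine monotoneOn_of_deriv_nonneg (convex_Ioc 0 Y) ?_ ?_ ?_
    · exact fun t ht => (h1 t ht.1 ht.2).continuousAt.continuousWithinAt
    · intro t ht
      rw [interior_Ioc] at ht
      exact (h1 t ht.1 ht.2.le).differentiableAt.differentiableWithinAt
    · intro t ht
      rw [interior_Ioc] at ht
      rw [(h1 t ht.1 ht.2.le).deriv]
      exact h3 t ht.1 ht.2.le
  intro y hy hyY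
  refine le_of_tendsto l0 ?_
  filter_upwards [Ioo_mem_nhdsGT hy] with s hs
  exact hmono ⟨hs.1, hs.2.le.trans hyY⟩ ⟨hy, hyY⟩ hs.2.le

theorem mono2 {Y : ℝ} {F F1 F2 : ℝ → ℝ} (h1 : ∀ y, 0 < y → y ≤ Y → HasDerivAt F (F1 y) y)
    (h2 : ∀ y, 0 < y → y ≤ Y → HasDerivAt F1 (F2 y) y)
    (h3 : ∀ y, 0 < y → y ≤ Y → 0 ≤ F2 y) (l0 : Tendsto F (𝓝[>] 0) (𝓝 0))
    (l1 : Tendsto F1 (𝓝[>] 0) (𝓝 0)) :
    ∀ y, 0 < y → y ≤ Y → 0 ≤ F1 y ∧ 0 ≤ F y := by
  have a := mono1 h2 h3 l1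
  exact fun y hy hyY => ⟨a y hy hyY, mono1 h1 a l0 y hy hyY⟩

/-- comparison of `D` with an explicit function. -/
theorem cmp {Y : ℝ} {D D1 D2 Φ Φ1 Φ2 : ℝ → ℝ}
    (h1 : ∀ y, 0 < y → y ≤ Y → HasDerivAt D (D1 y) y)
    (h2 : ∀ y, 0 < y → y ≤ Y → HasDerivAt D1 (D2 y) y)
    (p1 : ∀ y, 0 < y → y ≤ Y → HasDerivAt Φ (Φ1 y) y)
    (p2 : ∀ y, 0 < y → y ≤ Y → HasDerivAt Φ1 (Φ2 y) y)
    (h3 : ∀ y, 0 < y → y ≤ Y → |D2 y| ≤ Φ2 y)
    (l0 : Tendsto D (𝓝[>] 0) (𝓝 0)) (l1 : Tendsto D1 (𝓝[>] 0) (𝓝 0))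
    (q0 : Tendsto Φ (𝓝[>] 0) (𝓝 0)) (q1 : Tendsto Φ1 (𝓝[>] 0) (𝓝 0)) :
    ∀ y, 0 < y → y ≤ Y → |D1 y| ≤ Φ1 y ∧ |D y| ≤ Φ y := by
  intro y hy hyY
  have a := mono2 (F := fun y => Φ y - D y) (F1 := fun y => Φ1 y - D1 y)
    (F2 := fun y => Φ2 y - D2 y) (fun y a b => (p1 y a b).sub (h1 y a b))
    (fun y a b => (p2 y a b).sub (h2 y a b))
    (fun y a b => sub_nonneg.2 ((le_abs_self _).trans (h3 y a b)))
    (by simpa using q0.sub l0) (by simpa using q1.sub l1) y hy hyY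
  have b := mono2 (F := fun y => Φ y + D y) (F1 := fun y => Φ1 y + D1 y)
    (F2 := fun y => Φ2 y + D2 y) (fun y a b => (p1 y a b).add (h1 y a b))
    (fun y a b => (p2 y a b).add (h2 y a b))
    (fun y a b => by have := (neg_abs_le (D2 y)); have := h3 y a b; linarith)
    (by simpa using q0.add l0) (by simpa using q1.add l1) y hy hyY
  constructor
  · rw [abs_le]
    constructor <;> linarith [a.1, b.1]
  · rw [abs_le]
    constructor <;> linarith [a.2, b.2]

theorem tendsto_of_cont {Φ : ℝ → ℝ} (h : Continuous Φ) (h0 : Φ 0 = 0) :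
    Tendsto Φ (𝓝[>] 0) (𝓝 0) := by
  have := h.tendsto 0
  rw [h0] at this
  exact this.mono_left nhdsWithin_le_nhds

theorem Q_bd {z D D1 : ℝ → ℝ} (hR : Rep 0 z D D1) {L ε Z M σ : ℝ} (hL0 : 0 ≤ L)
    (hε : 0 ≤ ε) (hz : ∀ y, 0 < y → y ≤ 2 → |z y| ≤ L * |D y| + ε * y ^ 10)
    (hQ : ∀ y, 2 ≤ y → |QQ z y| ≤ Z / y) (hσ : 0 ≤ σ) (hM : 0 ≤ M)
    (hD : ∀ y, 0 < y → y ≤ 2 → |D y| ≤ M * (y ^ 11 + σ * y)) {s : ℝ} (hs : 0 < s) (hs2 : s ≤ 2) :
    |QQ z s| ≤ Z / 2 + 2 * ε + L * M * (2 + σ / 8 / s ^ 8) := by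
  have hsplit : QQ z s = (∫ t in Ioc s 2, (t ^ 10)⁻¹ * z t) + QQ z 2 := by
    unfold QQ
    rw [← Ioc_union_Ioi_eq_Ioi hs2, setIntegral_union (Ioc_disjoint_Ioi le_rfl) measurableSet_Ioi]
    · exact (hR.int s hs).mono_set Ioc_subset_Ioi_self
    · exact (hR.int s hs).mono_set (Ioi_subset_Ioi hs2)
  have hcont : ContinuousOn (fun t : ℝ => L * M * (t + σ * (t ^ 9)⁻¹) + ε) (Icc s 2) := by
    intro t ht
    have : t ≠ 0 := (hs.trans_le ht.1).ne'
    have h9 : t ^ 9 ≠ 0 := pow_ne_zero _ this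
    fun_prop (disch := assumption)
  have hb : ‖∫ t in Ioc s 2, (t ^ 10)⁻¹ * z t‖ ≤
      ∫ t in Ioc s 2, (L * M * (t + σ * (t ^ 9)⁻¹) + ε) := by
    refine norm_integral_le_of_norm_le ?_ ?_
    · exact (hcont.integrableOn_Icc).mono_set Ioc_subset_Icc_self
    · refine (ae_restrict_iff' measurableSet_Ioc).2 (Eventually.of_forall fun t ht => ?_)
      have t0 : 0 < t := hs.trans ht.1
      rw [Real.norm_eq_abs, abs_mul, abs_of_pos (inv_pos.2 (pow_pos t0 10))]
      have h1 := hz t t0 ht.2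
      have h2 := hD t t0 ht.2
      have h3 : |z t| ≤ L * (M * (t ^ 11 + σ * t)) + ε * t ^ 10 :=
        h1.trans (add_le_add_left (mul_le_mul_of_nonneg_left h2 hL0) _)
      calc (t ^ 10)⁻¹ * |z t| ≤ (t ^ 10)⁻¹ * (L * (M * (t ^ 11 + σ * t)) + ε * t ^ 10) :=
            mul_le_mul_of_nonneg_left h3 (inv_nonneg.2 (pow_nonneg t0.le 10))
        _ = L * M * (t + σ * (t ^ 9)⁻¹) + ε := by
            field_simp
  have hint : ∫ t in Ioc s 2, (L * M * (t + σ * (t ^ 9)⁻¹) + ε) =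
      (L * M * ((2 : ℝ) ^ 2 / 2 - σ / 8 * ((2 : ℝ) ^ 8)⁻¹) + ε * 2) -
      (L * M * (s ^ 2 / 2 - σ / 8 * (s ^ 8)⁻¹) + ε * s) := by
    rw [← intervalIntegral.integral_of_le hs2]
    refine intervalIntegral.integral_eq_sub_of_hasDerivAt
      (f := fun t => L * M * (t ^ 2 / 2 - σ / 8 * (t ^ 8)⁻¹) + ε * t) ?_ ?_
    · intro t ht
      rw [uIcc_of_le hs2] at ht
      have t0 : t ≠ 0 := (hs.trans_le ht.1).ne'
      have h8 : HasDerivAt (fun t : ℝ => (t ^ 8)⁻¹) (-(8 * t ^ 7) / (t ^ 8) ^ 2) t := by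
        have := (hasDerivAt_pow 8 t).inv (pow_ne_zero _ t0)
        refine HasDerivAt.congr_deriv this ?_
        norm_num
      refine (((((hasDerivAt_pow 2 t).div_const 2).sub (h8.const_mul (σ / 8))).const_mul
        (L * M)).add ((hasDerivAt_id t).const_mul ε)).congr_deriv ?_
      field_simp
      ring
    · exact (hcont.mono (by rw [uIcc_of_le hs2])).intervalIntegrable
  rw [hint] at hb
  have h2 := hQ 2 le_rfl
  rw [hsplit]
  have e8 : 0 ≤ σ / 8 * ((2 : ℝ) ^ 8)⁻¹ := by positivity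
  have hLM : 0 ≤ L * M := mul_nonneg hL0 hM
  have e1 : 0 ≤ L * M * (σ / 8 * ((2 : ℝ) ^ 8)⁻¹) := mul_nonneg hLM e8
  have e2 : 0 ≤ L * M * (s ^ 2 / 2) := by positivity
  have e3 : 0 ≤ ε * s := mul_nonneg hε hs.le
  calc |(∫ t in Ioc s 2, (t ^ 10)⁻¹ * z t) + QQ z 2| ≤ _ := abs_add_le _ _
    _ ≤ _ := add_le_add hb h2
    _ ≤ _ := by
      rw [div_eq_mul_inv (σ / 8)]
      nlinarith

/-- `|D| ≤ C y` near `0`. -/
theorem lin_bd {z D D1 : ℝ → ℝ} (hR : Rep 0 z D D1) :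
    ∃ C, 0 ≤ C ∧ ∀ y, 0 < y → y ≤ 2 → |D y| ≤ C * y := by
  -- `D1` is bounded on `(0,2]`
  have h1 : ∀ᶠ y in 𝓝[>] (0 : ℝ), |D1 y| < 1 := by
    have := hR.lim1.abs
    rw [abs_zero] at this
    exact this.eventually (gt_mem_nhds one_pos)
  obtain ⟨r, hr, hr1⟩ := mem_nhdsGT_iff_exists_Ioc_subset.1 h1
  have hr0 : (0 : ℝ) < r := hr
  obtain ⟨C, hC⟩ := (isCompact_Icc (a := min r 2) (b := 2)).exists_bound_of_continuousOn
    (f := D1) (fun y hy => by
      have : 0 < y := lt_of_lt_of_le (lt_min hr0 two_pos) hy.1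
      exact (hR.hD1 y this).continuousAt.continuousWithinAt)
  have hb : ∀ y, 0 < y → y ≤ 2 → |D1 y| ≤ max 1 C := by
    intro y hy hy2
    by_cases h : y ≤ r
    · exact le_max_of_le_left (le_of_lt (hr1 ⟨hy, h⟩))
    · exact le_max_of_le_right (hC y ⟨(min_le_left _ _).trans (le_of_not_ge h), hy2⟩)
  have hC0 : 0 ≤ max 1 C := le_max_of_le_left zero_le_one
  refine ⟨max 1 C, hC0, fun y hy hy2 => ?_⟩
  have hlin : ∀ y : ℝ, HasDerivAt (fun y => max 1 C * y) (max 1 C) y := fun y => by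
    simpa using (hasDerivAt_id y).const_mul (max 1 C)
  have hl0 : Tendsto (fun y => max 1 C * y) (𝓝[>] 0) (𝓝 0) :=
    tendsto_of_cont (by fun_prop) (by simp)
  have a := mono1 (Y := 2) (F := fun y => max 1 C * y - D y) (F1 := fun y => max 1 C - D1 y)
    (fun y a _ => (hlin y).sub (hR.hD y a))
    (fun y a b => sub_nonneg.2 ((le_abs_self _).trans (hb y a b)))
    (by simpa using hl0.sub hR.lim0) y hy hy2
  have b := mono1 (Y := 2) (F := fun y => max 1 C * y + D y) (F1 := fun y => max 1 C + D1 y)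
    (fun y a _ => (hlin y).add (hR.hD y a))
    (fun y a b => by have := neg_abs_le (D1 y); have := hb y a b; linarith)
    (by simpa using hl0.add hR.lim0) y hy hy2
  rw [abs_le]
  constructor <;> linarith

/-- one improvement step. -/
theorem step {z D D1 : ℝ → ℝ} (hR : Rep 0 z D D1) {L ε Z M σ : ℝ} (hL0 : 0 ≤ L) (hL : L ≤ 3)
    (hε : 0 ≤ ε) (hz : ∀ y, 0 < y → y ≤ 2 → |z y| ≤ L * |D y| + ε * y ^ 10)
    (hQ : ∀ y, 2 ≤ y → |QQ z y| ≤ Z / y) (hσ : 0 ≤ σ) (hM : 0 ≤ M)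
    (hD : ∀ y, 0 < y → y ≤ 2 → |D y| ≤ M * (y ^ 11 + σ * y)) :
    ∀ y, 0 < y → y ≤ 2 → |D y| ≤ ((Z / 2 + 2 * ε) / 110 + M / 4) * (y ^ 11 + σ * y) := by
  have hLM : 0 ≤ L * M := mul_nonneg hL0 hM
  have hZ : 0 ≤ Z := by
    have := (abs_nonneg _).trans (hQ 2 le_rfl)
    linarith
  set A : ℝ := Z / 2 + 2 * ε with hA
  have hA0 : 0 ≤ A := by positivity
  have key := cmp (Y := 2) (D := D) (D1 := D1) (D2 := fun y => -(y ^ 9 * QQ z y))
    (Φ := fun y => A * y ^ 11 / 110 + L * M * (2 * y ^ 11 / 110 + σ * y ^ 3 / 48))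
    (Φ1 := fun y => A * y ^ 10 / 10 + L * M * (2 * y ^ 10 / 10 + σ * y ^ 2 / 16))
    (Φ2 := fun y => A * y ^ 9 + L * M * (2 * y ^ 9 + σ * y / 8))
    (fun y a _ => hR.hD y a) (fun y a _ => hR.hD1 y a)
    (fun y _ _ => by
      refine ((((hasDerivAt_pow 11 y).const_mul A).div_const 110).add
        (((((hasDerivAt_pow 11 y).const_mul 2).div_const 110).add
        (((hasDerivAt_pow 3 y).const_mul σ).div_const 48)).const_mul (L * M))).congr_deriv ?_
      norm_num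
      ring)
    (fun y _ _ => by
      refine ((((hasDerivAt_pow 10 y).const_mul A).div_const 10).add
        (((((hasDerivAt_pow 10 y).const_mul 2).div_const 10).add
        (((hasDerivAt_pow 2 y).const_mul σ).div_const 16)).const_mul (L * M))).congr_deriv ?_
      norm_num
      ring)
    (fun y a b => by
      rw [abs_neg, abs_mul, abs_of_pos (pow_pos a 9)]
      have h1 := Q_bd hR hL0 hε hz hQ hσ hM hD a b
      calc y ^ 9 * |QQ z y| ≤ y ^ 9 * (Z / 2 + 2 * ε + L * M * (2 + σ / 8 / y ^ 8)) :=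
            mul_le_mul_of_nonneg_left h1 (pow_nonneg a.le 9)
        _ = A * y ^ 9 + L * M * (2 * y ^ 9 + σ * y / 8) := by
            rw [hA]
            field_simp)
    hR.lim0 hR.lim1 (tendsto_of_cont (by fun_prop) (by simp))
    (tendsto_of_cont (by fun_prop) (by simp))
  intro y hy hy2
  refine (key y hy hy2).2.trans ?_
  have y2 : y ^ 2 ≤ 4 := by nlinarith
  have y3 : y ^ 3 ≤ 4 * y := by
    have := mul_le_mul_of_nonneg_left y2 hy.le
    nlinarith
  have hσy : 0 ≤ σ * y := mul_nonneg hσ hy.le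
  have h11 : 0 ≤ y ^ 11 := pow_nonneg hy.le 11
  have e1 : σ * y ^ 3 / 48 ≤ σ * y / 12 := by
    have := mul_le_mul_of_nonneg_left y3 hσ
    linarith
  have e2 : 2 * y ^ 11 / 110 + σ * y ^ 3 / 48 ≤ 1 / 12 * (y ^ 11 + σ * y) := by linarith
  have e3 : 0 ≤ y ^ 11 + σ * y := by linarith
  have e4 : L * M * (2 * y ^ 11 / 110 + σ * y ^ 3 / 48) ≤ 3 * M * (1 / 12 * (y ^ 11 + σ * y)) :=
    mul_le_mul (mul_le_mul_of_nonneg_right hL hM) e2 (by positivity) (by positivity)
  have e5 : 0 ≤ A * (σ * y) := mul_nonneg hA0 hσy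
  nlinarith

theorem near {z D D1 : ℝ → ℝ} (hR : Rep 0 z D D1) {L ε Z : ℝ} (hL0 : 0 ≤ L) (hL : L ≤ 3)
    (hε : 0 ≤ ε) (hz : ∀ y, 0 < y → y ≤ 2 → |z y| ≤ L * |D y| + ε * y ^ 10)
    (hQ : ∀ y, 2 ≤ y → |QQ z y| ≤ Z / y) :
    ∀ y, 0 < y → y ≤ 2 → |D y| ≤ 4 / 330 * (Z / 2 + 2 * ε) * (y ^ 11) := by
  obtain ⟨C, hC0, hC⟩ := lin_bd hR
  have hZ : 0 ≤ Z := by
    have := (abs_nonneg _).trans (hQ 2 le_rfl)
    linarith
  have hσ : ∀ σ : ℝ, 0 < σ → ∀ y, 0 < y → y ≤ 2 →
      |D y| ≤ 4 / 330 * (Z / 2 + 2 * ε) * (y ^ 11 + σ * y) := by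
    intro σ hσ
    set T : Set ℝ := {M | 0 ≤ M ∧ ∀ y, 0 < y → y ≤ 2 → |D y| ≤ M * (y ^ 11 + σ * y)} with hT
    have hne : T.Nonempty := by
      refine ⟨C / σ, by positivity, fun y hy hy2 => (hC y hy hy2).trans ?_⟩
      have h11 : 0 ≤ y ^ 11 := pow_nonneg hy.le 11
      have : C / σ * (y ^ 11 + σ * y) = C / σ * y ^ 11 + C * y := by
        field_simp
      rw [this]
      have := mul_nonneg (div_nonneg hC0 hσ.le) h11
      linarith
    have hbdd : BddBelow T := ⟨0, fun M hM => hM.1⟩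
    have hm0 : 0 ≤ sInf T := le_csInf hne fun M hM => hM.1
    have hmem : sInf T ∈ T := by
      refine ⟨hm0, fun y hy hy2 => ?_⟩
      have hp : 0 < y ^ 11 + σ * y := by positivity
      rw [← div_le_iff₀ hp]
      exact le_csInf hne fun M hM => (div_le_iff₀ hp).2 (hM.2 y hy hy2)
    have hstep : (Z / 2 + 2 * ε) / 110 + sInf T / 4 ∈ T :=
      ⟨by positivity, step hR hL0 hL hε hz hQ hσ.le hm0 hmem.2⟩
    have h1 := csInf_le hbdd hstep
    intro y hy hy2
    have hp : 0 < y ^ 11 + σ * y := by positivity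
    refine (hmem.2 y hy hy2).trans (mul_le_mul_of_nonneg_right ?_ hp.le)
    linarith
  intro y hy hy2
  have hl : Tendsto (fun σ : ℝ => 4 / 330 * (Z / 2 + 2 * ε) * (y ^ 11 + σ * y)) (𝓝[>] 0)
      (𝓝 (4 / 330 * (Z / 2 + 2 * ε) * (y ^ 11 + 0 * y))) := by
    apply Tendsto.mono_left _ nhdsWithin_le_nhds
    exact Continuous.tendsto (by fun_prop) 0
  rw [zero_mul, add_zero] at hl
  refine ge_of_tendsto hl ?_
  filter_upwards [self_mem_nhdsWithin] with σ hs
  exact hσ σ hs y hy hy2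

/-- comparison on `[a, ∞)`. -/
theorem mono2' {a : ℝ} {F F1 F2 : ℝ → ℝ} (h1 : ∀ y, a ≤ y → HasDerivAt F (F1 y) y)
    (h2 : ∀ y, a ≤ y → HasDerivAt F1 (F2 y) y)
    (h3 : ∀ y, a ≤ y → 0 ≤ F2 y) (l0 : 0 ≤ F a) (l1 : 0 ≤ F1 a) :
    ∀ y, a ≤ y → 0 ≤ F y := by
  have m : ∀ {F F1 : ℝ → ℝ}, (∀ y, a ≤ y → HasDerivAt F (F1 y) y) → (∀ y, a ≤ y → 0 ≤ F1 y) →
      0 ≤ F a → ∀ y, a ≤ y → 0 ≤ F y := by
    intro F F1 h1 h3 l0 y hy
    have hmono : MonotoneOn F (Ici a) := by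
      refine monotoneOn_of_deriv_nonneg (convex_Ici a) ?_ ?_ ?_
      · exact fun t ht => (h1 t ht).continuousAt.continuousWithinAt
      · intro t ht
        rw [interior_Ici] at ht
        exact (h1 t (le_of_lt ht)).differentiableAt.differentiableWithinAt
      · intro t ht
        rw [interior_Ici] at ht
        rw [(h1 t (le_of_lt ht)).deriv]
        exact h3 t (le_of_lt ht)
    exact l0.trans (hmono (le_refl a : a ∈ Ici a) hy hy)
  exact m h1 (m h2 h3 l1) l0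

end PtB

open PtB in
theorem pt_bound {z D D1 : ℝ → ℝ} (hR : Rep 0 z D D1) {L ε Z : ℝ} (hL0 : 0 ≤ L) (hL : L ≤ 3)
    (hε : 0 ≤ ε) (hz : ∀ y, 0 < y → y ≤ 2 → |z y| ≤ L * |D y| + ε * y ^ 10)
    (hQ : ∀ y, 2 ≤ y → |QQ z y| ≤ Z / y) :
    ∀ y, 0 < y → |D y| ≤ (Z / 40 + ε / 16) * y ^ 10 := by
  have hZ : 0 ≤ Z := by
    have := (abs_nonneg _).trans (hQ 2 le_rfl)
    linarith
  set A : ℝ := Z / 2 + 2 * ε with hA
  have hA0 : 0 ≤ A := by positivity
  have hn := near hR hL0 hL hε hz hQ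
  rw [← hA] at hn
  have hm0 : 0 ≤ 4 / 330 * A := by positivity
  have hn' : ∀ y, 0 < y → y ≤ 2 → |D y| ≤ 4 / 330 * A * (y ^ 11 + 0 * y) := by
    simpa using hn
  -- bound of `Q` on `(0,2]`
  set q : ℝ := 118 / 110 * A with hq
  have hq0 : 0 ≤ q := by positivity
  have hQ2 : ∀ y, 0 < y → y ≤ 2 → |QQ z y| ≤ q := by
    intro y hy hy2
    have := Q_bd hR hL0 hε hz hQ le_rfl hm0 hn' hy hy2
    refine this.trans ?_
    have e1 : L * (4 / 330 * A) ≤ 3 * (4 / 330 * A) := mul_le_mul_of_nonneg_right hL hm0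
    simp only [zero_div, add_zero]
    rw [← hA, hq]
    nlinarith
  have key := cmp (Y := 2) (D := D) (D1 := D1) (D2 := fun y => -(y ^ 9 * QQ z y))
    (Φ := fun y => q * y ^ 11 / 110) (Φ1 := fun y => q * y ^ 10 / 10) (Φ2 := fun y => q * y ^ 9)
    (fun y a _ => hR.hD y a) (fun y a _ => hR.hD1 y a)
    (fun y _ _ => by
      refine (((hasDerivAt_pow 11 y).const_mul q).div_const 110).congr_deriv ?_
      norm_num
      ring)
    (fun y _ _ => by
      refine (((hasDerivAt_pow 10 y).const_mul q).div_const 10).congr_deriv ?_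
      norm_num
      ring)
    (fun y a b => by
      rw [abs_neg, abs_mul, abs_of_pos (pow_pos a 9), mul_comm]
      exact mul_le_mul_of_nonneg_right (hQ2 y a b) (pow_nonneg a.le 9))
    hR.lim0 hR.lim1 (tendsto_of_cont (by fun_prop) (by simp))
    (tendsto_of_cont (by fun_prop) (by simp))
  obtain ⟨k1, k2⟩ := key 2 two_pos le_rfl
  intro y hy
  rcases le_or_gt y 2 with h | h
  · refine (hn y hy h).trans ?_
    have h10 : 0 ≤ y ^ 10 := pow_nonneg hy.le 10
    have e1 : y ^ 11 ≤ 2 * y ^ 10 := by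
      rw [pow_succ]
      nlinarith
    calc 4 / 330 * A * y ^ 11 ≤ 4 / 330 * A * (2 * y ^ 10) := mul_le_mul_of_nonneg_left e1 hm0
      _ = (8 / 330 * A) * y ^ 10 := by ring
      _ ≤ _ := mul_le_mul_of_nonneg_right (by rw [hA]; linarith) h10
  · -- `y ≥ 2`
    have dΨ : ∀ y : ℝ, HasDerivAt (fun y => q * (2 ^ 11 / 110) + q * (2 ^ 10 / 10) * (y - 2) +
        Z * ((y ^ 10 - 2 ^ 10) / 90 - 2 ^ 9 / 9 * (y - 2)))
        (q * (2 ^ 10 / 10) + Z * (y ^ 9 / 9 - 2 ^ 9 / 9)) y := by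
      intro y
      refine ((((hasDerivAt_id y).sub_const 2).const_mul (q * (2 ^ 10 / 10))).const_add
        (q * (2 ^ 11 / 110)) |>.add (((((hasDerivAt_pow 10 y).sub_const (2 ^ 10)).div_const 90).sub
        (((hasDerivAt_id y).sub_const 2).const_mul (2 ^ 9 / 9))).const_mul Z)).congr_deriv ?_
      push_cast
      ring
    have dΨ1 : ∀ y : ℝ, HasDerivAt (fun y => q * (2 ^ 10 / 10) + Z * (y ^ 9 / 9 - 2 ^ 9 / 9))
        (Z * y ^ 8) y := by
      intro y
      refine (((((hasDerivAt_pow 9 y).div_const 9).sub_const (2 ^ 9 / 9)).const_mul Z).const_add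
        (q * (2 ^ 10 / 10))).congr_deriv ?_
      push_cast
      ring
    have hQ9 : ∀ y, 2 ≤ y → |-(y ^ 9 * QQ z y)| ≤ Z * y ^ 8 := by
      intro y hy
      have y0 : 0 < y := by linarith
      rw [abs_neg, abs_mul, abs_of_pos (pow_pos y0 9)]
      calc y ^ 9 * |QQ z y| ≤ y ^ 9 * (Z / y) :=
            mul_le_mul_of_nonneg_left (hQ y hy) (pow_nonneg y0.le 9)
        _ = Z * y ^ 8 := by field_simp
    have a := mono2' (a := 2) (F := fun y => (q * (2 ^ 11 / 110) + q * (2 ^ 10 / 10) * (y - 2) +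
        Z * ((y ^ 10 - 2 ^ 10) / 90 - 2 ^ 9 / 9 * (y - 2))) - D y)
      (F1 := fun y => (q * (2 ^ 10 / 10) + Z * (y ^ 9 / 9 - 2 ^ 9 / 9)) - D1 y)
      (F2 := fun y => Z * y ^ 8 - -(y ^ 9 * QQ z y))
      (fun y hy => (dΨ y).sub (hR.hD y (by linarith)))
      (fun y hy => (dΨ1 y).sub (hR.hD1 y (by linarith)))
      (fun y hy => sub_nonneg.2 ((le_abs_self _).trans (hQ9 y hy)))
      (by have := le_abs_self (D 2); norm_num at k2 ⊢; linarith)
      (by have := le_abs_self (D1 2); norm_num at k1 ⊢; linarith) y h.le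
    have b := mono2' (a := 2) (F := fun y => (q * (2 ^ 11 / 110) + q * (2 ^ 10 / 10) * (y - 2) +
        Z * ((y ^ 10 - 2 ^ 10) / 90 - 2 ^ 9 / 9 * (y - 2))) + D y)
      (F1 := fun y => (q * (2 ^ 10 / 10) + Z * (y ^ 9 / 9 - 2 ^ 9 / 9)) + D1 y)
      (F2 := fun y => Z * y ^ 8 + -(y ^ 9 * QQ z y))
      (fun y hy => (dΨ y).add (hR.hD y (by linarith)))
      (fun y hy => (dΨ1 y).add (hR.hD1 y (by linarith)))
      (fun y hy => by have := neg_abs_le (-(y ^ 9 * QQ z y)); have := hQ9 y hy; linarith)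
      (by have := neg_abs_le (D 2); norm_num at k2 ⊢; linarith)
      (by have := neg_abs_le (D1 2); norm_num at k1 ⊢; linarith) y h.le
    have hab : |D y| ≤ q * (2 ^ 11 / 110) + q * (2 ^ 10 / 10) * (y - 2) +
        Z * ((y ^ 10 - 2 ^ 10) / 90 - 2 ^ 9 / 9 * (y - 2)) := by
      rw [abs_le]
      constructor <;> linarith
    refine hab.trans ?_
    -- Bernoulli: `y^10 ≥ 1024 + 5120 (y-2)`
    have hbern : 1024 + 5120 * (y - 2) ≤ y ^ 10 := by
      have h1 := one_add_mul_le_pow (a := (y - 2) / 2) (by linarith) 10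
      have h2 : 1 + (y - 2) / 2 = y / 2 := by ring
      rw [h2, div_pow] at h1
      norm_num at h1
      linarith
    have h10 : 0 ≤ y ^ 10 := pow_nonneg hy.le 10
    have e1 : q * (2 ^ 11 / 110) + q * (2 ^ 10 / 10) * (y - 2) ≤ q * (y ^ 10 / 40) := by
      have : (2 : ℝ) ^ 11 / 110 + 2 ^ 10 / 10 * (y - 2) ≤ y ^ 10 / 40 := by
        norm_num
        linarith
      have := mul_le_mul_of_nonneg_left this hq0
      linarith
    have e2 : Z * ((y ^ 10 - 2 ^ 10) / 90 - 2 ^ 9 / 9 * (y - 2)) ≤ Z * (y ^ 10 / 90) := by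
      refine mul_le_mul_of_nonneg_left ?_ hZ
      norm_num
      linarith
    have e3 : q / 40 + Z / 90 ≤ Z / 40 + ε / 16 := by
      rw [hq, hA]
      linarith
    have e4 := mul_le_mul_of_nonneg_right e3 h10
    linarith

end Crest.Agent.R213.E
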