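import Crest.Agent.R213.E.LinRep2
import Crest.Agent.R213.E.EDefs
import Crest.Agent.R213.E.PtBound_Mg

-- ▼ part R213/E/LinRep3
section

/-!
# Row 213, part E: `κ` for the limits of test pairs
-/

set_option autoImplicit false

open Set MeasureTheory Filter Topology

noncomputable section

namespace Crest.Agent.R213.E

variable {b n1 cq Cq : ℝ} {n p : ℝ → ℝ}

/-- `D = û/p` is `κ y - K z(y)` a.e. -/
def RepP (b : ℝ) (n p : ℝ → ℝ) (v : HH × HH) (κ : ℝ) : Prop :=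
  ∀ᵐ y ∂mu0, v.1 y / p y = κ * y - KK (ZZ b n p v.1 v.2) y

theorem mem_mu0 : ∀ᵐ t ∂mu0, t ∈ Ioi (0:ℝ) := ae_restrict_mem measurableSet_Ioi

theorem ZZ_sub_ae (v w : HH × HH) : ZZ b n p (v - w).1 (v - w).2 =ᵐ[mu0]
    fun t => ZZ b n p v.1 v.2 t - ZZ b n p w.1 w.2 t := by
  filter_upwards [Lp.coeFn_sub v.1 w.1, Lp.coeFn_sub v.2 w.2] with t h1 h2
  simp only [ZZ, Prod.fst_sub, Prod.snd_sub]
  rw [h1, h2, Pi.sub_apply, Pi.sub_apply]
  ring

theorem RepP_sub (hW : WData b n1 cq Cq n p) {v w : HH × HH} {κ κ' : ℝ} (hv : RepP b n p v κ)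
    (hw : RepP b n p w κ') : RepP b n p (v - w) (κ - κ') := by
  filter_upwards [hv, hw, Lp.coeFn_sub v.1 w.1, mem_mu0] with y h1 h2 h3 hy
  rw [KK_congr (ZZ_sub_ae v w) (le_of_lt hy), TB.KK_sub (TB_ZZ hW v) (TB_ZZ hW w) (le_of_lt hy),
    Prod.fst_sub, h3, Pi.sub_apply, sub_div, h1, h2]
  ring

def C2 (b n1 cq Cq : ℝ) : ℝ := Cq * (1 + 1 / b ^ 2) ^ 3 * 3 ^ 6 + C1 b n1 cq Cq * (2 * WW 2)

theorem C2_nonneg (hW : WData b n1 cq Cq n p) : 0 ≤ C2 b n1 cq Cq := by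
  have := hW.C1_nonneg
  have := hW.Cq_pos
  have := WW_nonneg (y := 2) (by norm_num)
  unfold C2; positivity

theorem RepP_bound (hW : WData b n1 cq Cq n p) {v : HH × HH} {κ : ℝ} (hv : RepP b n p v κ) :
    |κ| ≤ C2 b n1 cq Cq * (‖v.1‖ + ‖v.2‖) := by
  have hC1 := hW.C1_nonneg
  have hCq := hW.Cq_pos
  have hW2 := WW_nonneg (y := 2) (by norm_num)
  set k : ℝ → ℝ := (Ioc (1:ℝ) 2).indicator (fun _ => (1:ℝ)) with hk
  have hsub : Ioc (1:ℝ) 2 ⊆ Ioi 0 := fun t ht => lt_trans one_pos ht.1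
  have hkm : Measurable k := measurable_const.indicator measurableSet_Ioc
  have hk2 : (fun t => k t ^ 2) = k := by
    funext t
    by_cases h : t ∈ Ioc (1:ℝ) 2
    · simp [hk, h]
    · simp [hk, h]
  have hres : (mu0.restrict (Ioc (1:ℝ) 2)) = volume.restrict (Ioc (1:ℝ) 2) := by
    rw [Measure.restrict_restrict measurableSet_Ioc, inter_eq_self_of_subset_left hsub]
  have hki : Integrable k mu0 := by
    rw [hk, integrable_indicator_iff measurableSet_Ioc, IntegrableOn, hres]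
    exact integrable_const _
  have hkv : ∫ t, k t ∂mu0 = 1 := by
    rw [hk, integral_indicator measurableSet_Ioc, hres]
    simp
    norm_num
  have hkL : MemLp k 2 mu0 := (memLp_two_iff_integrable_sq hkm.aestronglyMeasurable).2 (by rw [hk2]; exact hki)
  obtain ⟨i1, j1⟩ := HH_cs hkL zero_le_one (by rw [hk2, hkv]; norm_num) v.1
  set S := ‖v.1‖ + ‖v.2‖ with hS
  have hS0 : 0 ≤ S := by positivity
  have hle : (fun t => |κ| * k t) ≤ᵐ[mu0] fun t => (Cq * (1 + 1 / b ^ 2) ^ 3 * 3 ^ 6) * (|k t| * |v.1 t|) +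
      (C1 b n1 cq Cq * S * (2 * WW 2)) * k t := by
    filter_upwards [hv, mem_mu0] with y h hy
    by_cases hy2 : y ∈ Ioc (1:ℝ) 2
    · rw [show k y = 1 by simp [hk, hy2]]
      have e : κ * y = v.1 y / p y + KK (ZZ b n p v.1 v.2) y := by rw [h]; ring
      have h1 : |κ| ≤ |κ * y| := by
        rw [abs_mul, abs_of_pos (show 0 < y from hy)]
        nlinarith [abs_nonneg κ, hy2.1]
      have h2 : |v.1 y / p y| ≤ (Cq * (1 + 1 / b ^ 2) ^ 3 * 3 ^ 6) * |v.1 y| := by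
        rw [abs_div, abs_of_pos (hW.p_pos y hy)]
        have h3 := hW.inv_p_le hy
        have h4 : (1 + y) ^ 6 ≤ 3 ^ 6 := by
          have := hy2.2
          have : 0 < y := hy
          gcongr
          linarith
        calc |v.1 y| / p y = (1 / p y) * |v.1 y| := by ring
          _ ≤ (Cq * (1 + 1 / b ^ 2) ^ 3 * (1 + y) ^ 6) * |v.1 y| := by gcongr
          _ ≤ (Cq * (1 + 1 / b ^ 2) ^ 3 * 3 ^ 6) * |v.1 y| := by gcongr
      have h5 : |KK (ZZ b n p v.1 v.2) y| ≤ C1 b n1 cq Cq * S * (2 * WW 2) := by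
        refine (TB.KK_bd (TB_ZZ hW v) (le_of_lt hy)).trans ?_
        have hm := WW_mono (le_of_lt hy) hy2.2
        have h0 := WW_nonneg (le_of_lt hy)
        have := hy2.2
        have : 0 < y := hy
        gcongr
      calc |κ| * 1 ≤ |κ * y| := by rw [mul_one]; exact h1
        _ ≤ |v.1 y / p y| + |KK (ZZ b n p v.1 v.2) y| := by rw [e]; exact abs_add_le _ _
        _ ≤ _ := by
          rw [abs_one, one_mul, mul_one]
          exact add_le_add h2 h5
    · rw [show k y = 0 by simp [hk, hy2]]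
      simp
  have hI : ∫ t, |κ| * k t ∂mu0 ≤ ∫ t, ((Cq * (1 + 1 / b ^ 2) ^ 3 * 3 ^ 6) * (|k t| * |v.1 t|) +
      (C1 b n1 cq Cq * S * (2 * WW 2)) * k t) ∂mu0 :=
    integral_mono_ae (hki.const_mul |κ|) ((i1.const_mul _).add (hki.const_mul _)) hle
  rw [integral_const_mul, hkv, mul_one, integral_add (i1.const_mul _) (hki.const_mul _),
    integral_const_mul, integral_const_mul, hkv, mul_one] at hI
  refine hI.trans ?_
  rw [one_mul] at j1
  have hb0 : 0 ≤ Cq * (1 + 1 / b ^ 2) ^ 3 * 3 ^ 6 := by positivity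
  have j2 : ‖v.1‖ ≤ S := by rw [hS]; linarith [norm_nonneg v.2]
  calc Cq * (1 + 1 / b ^ 2) ^ 3 * 3 ^ 6 * ∫ t, |k t| * |v.1 t| ∂mu0 + C1 b n1 cq Cq * S * (2 * WW 2)
      ≤ Cq * (1 + 1 / b ^ 2) ^ 3 * 3 ^ 6 * S + C1 b n1 cq Cq * S * (2 * WW 2) := by
        have := mul_le_mul_of_nonneg_left (j1.trans j2) hb0
        linarith
    _ = C2 b n1 cq Cq * S := by unfold C2; ring

theorem RepP_V0 (hW : WData b n1 cq Cq n p) {v : HH × HH} (hv : v ∈ V0 b n p) :
    ∃ κ, RepP b n p v κ := by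
  obtain ⟨z, hz, h1, h2⟩ := hv
  refine ⟨(1 / 10) * ∫ t in Ioi (0:ℝ), z t, ?_⟩
  have hzz : ZZ b n p v.1 v.2 =ᵐ[mu0] z := by
    filter_upwards [h1, h2, mem_mu0] with t e1 e2 ht
    have hp := (hW.p_pos t ht).ne'
    have hc := (chi_pos b t).ne'
    simp only [ZZ]
    rw [e1, e2]
    field_simp
    ring
  filter_upwards [h1, mem_mu0] with y e1 hy
  have hp := (hW.p_pos y hy).ne'
  rw [KK_congr hzz (le_of_lt hy), ← DD_rep hz (le_of_lt hy), e1]
  field_simp

theorem RepP_closure (hW : WData b n1 cq Cq n p) {v : HH × HH} (hv : v ∈ (V0 b n p).topologicalClosure) :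
    ∃ κ, RepP b n p v κ := by
  have hv' : v ∈ closure (V0 b n p : Set (HH × HH)) := hv
  obtain ⟨x, hx, hlim⟩ := mem_closure_iff_seq_limit.1 hv'
  choose κ hκ using fun i => RepP_V0 hW (hx i)
  have hC2 := C2_nonneg hW
  have hC1 := hW.C1_nonneg
  have hdist : ∀ i j, |κ i - κ j| ≤ C2 b n1 cq Cq * (2 * ‖x i - x j‖) := by
    intro i j
    refine (RepP_bound hW (RepP_sub hW (hκ i) (hκ j))).trans ?_
    refine mul_le_mul_of_nonneg_left ?_ hC2
    have h1 := norm_fst_le (x i - x j)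
    have h2 := norm_snd_le (x i - x j)
    linarith
  have hcau : CauchySeq κ := by
    have hxc : CauchySeq x := hlim.cauchySeq
    rw [Metric.cauchySeq_iff] at hxc ⊢
    intro ε hε
    obtain ⟨N, hN⟩ := hxc (ε / (2 * C2 b n1 cq Cq + 1)) (by positivity)
    refine ⟨N, fun i hi j hj => ?_⟩
    have h1 := hN i hi j hj
    rw [dist_eq_norm] at h1
    rw [Real.dist_eq]
    refine (hdist i j).trans_lt ?_
    rw [lt_div_iff₀ (by positivity)] at h1
    nlinarith [norm_nonneg (x i - x j)]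
  obtain ⟨κ0, hκ0⟩ := cauchySeq_tendsto_of_complete hcau
  refine ⟨κ0, ?_⟩
  have hl1 : Tendsto (fun i => (x i).1) atTop (𝓝 v.1) := (continuous_fst.tendsto v).comp hlim
  obtain ⟨ns, hns, hae⟩ := (tendstoInMeasure_of_tendsto_Lp hl1).exists_seq_tendsto_ae
  have hall : ∀ᵐ y ∂mu0, ∀ i, (x i).1 y / p y = κ i * y - KK (ZZ b n p (x i).1 (x i).2) y :=
    ae_all_iff.2 hκ
  filter_upwards [hae, hall, mem_mu0] with y h1 h2 hy
  have hy0 : 0 < y := hy
  have hnst : Tendsto ns atTop atTop := hns.tendsto_atTop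
  have t1 : Tendsto (fun i => (x (ns i)).1 y / p y) atTop (𝓝 (v.1 y / p y)) := h1.div_const _
  have hnorm : Tendsto (fun i => ‖x i - v‖) atTop (𝓝 0) := by
    have := (hlim.sub_const v).norm
    simpa using this
  have t2 : Tendsto (fun i => KK (ZZ b n p (x i).1 (x i).2) y) atTop
      (𝓝 (KK (ZZ b n p v.1 v.2) y)) := by
    rw [tendsto_iff_norm_sub_tendsto_zero]
    have hb : ∀ i, ‖KK (ZZ b n p (x i).1 (x i).2) y - KK (ZZ b n p v.1 v.2) y‖ ≤
        C1 b n1 cq Cq * (2 * ‖x i - v‖) * (y * WW y) := by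
      intro i
      rw [← TB.KK_sub (TB_ZZ hW (x i)) (TB_ZZ hW v) hy0.le, ← KK_congr (ZZ_sub_ae (x i) v) hy0.le,
        Real.norm_eq_abs]
      refine (TB.KK_bd (TB_ZZ hW (x i - v)) hy0.le).trans ?_
      have g1 := norm_fst_le (x i - v)
      have g2 := norm_snd_le (x i - v)
      have g3 := WW_nonneg hy0.le
      refine mul_le_mul_of_nonneg_right ?_ (by positivity)
      refine mul_le_mul_of_nonneg_left ?_ hC1
      linarith
    refine squeeze_zero (fun _ => norm_nonneg _) hb ?_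
    have : Tendsto (fun i => C1 b n1 cq Cq * (2 * ‖x i - v‖) * (y * WW y)) atTop
        (𝓝 (C1 b n1 cq Cq * (2 * 0) * (y * WW y))) :=
      ((hnorm.const_mul 2).const_mul _).mul_const _
    simpa using this
  have t3 : Tendsto (fun i => (x (ns i)).1 y / p y) atTop
      (𝓝 (κ0 * y - KK (ZZ b n p v.1 v.2) y)) := by
    have : Tendsto (fun i => κ (ns i) * y - KK (ZZ b n p (x (ns i)).1 (x (ns i)).2) y) atTop
      (𝓝 (κ0 * y - KK (ZZ b n p v.1 v.2) y)) :=
      ((hκ0.comp hnst).mul_const y).sub (t2.comp hnst)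
    refine this.congr fun i => ?_
    exact (h2 (ns i)).symm
  exact tendsto_nhds_unique t1 t3

end Crest.Agent.R213.E
end
end

-- ▼ part R213/E/NL
section

/-!
# Row 213, part E: the nonlinear fixed point
-/

set_option autoImplicit false

open Set MeasureTheory Filter Topology

noncomputable section

namespace Crest.Agent.R213.E

variable {b n1 cq Cq : ℝ} {n p : ℝ → ℝ}

theorem Rep.congr {κ : ℝ} {z z' D D1 : ℝ → ℝ} (h : Rep κ z D D1) (hz : z =ᵐ[mu0] z') :
    Rep κ z' D D1 where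
  int := by
    intro y hy
    refine (h.int y hy).congr ?_
    have hae : z =ᵐ[volume.restrict (Ioi y)] z' :=
      hz.filter_mono (ae_mono (Measure.restrict_mono (Ioi_subset_Ioi hy.le) le_rfl))
    filter_upwards [hae] with t ht
    rw [ht]
  hD := h.hD
  hD1 := by
    intro y hy
    rw [← QQ_congr hz hy]
    exact h.hD1 y hy
  lim0 := h.lim0
  lim1 := h.lim1

/-- the nonlinearity on the `L²` side -/
def gN (b : ℝ) (p : ℝ → ℝ) (N : ℝ → ℝ → ℝ → ℝ) (c : ℝ) (u : ℝ → ℝ) (y : ℝ) : ℝ :=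
  chi b y / p y * N c y (u y / p y)

variable {c1 c2 η M : ℝ} {N : ℝ → ℝ → ℝ → ℝ} {F : ℝ → ℝ}

theorem gN_aemeas (hW : WData b n1 cq Cq n p) (hN : NLData b p c1 c2 η M N F) {c : ℝ}
    (hc : c ∈ Icc c1 c2) {u : ℝ → ℝ} (hu : Measurable u) : AEStronglyMeasurable (gN b p N c u) mu0 := by
  set N' : ℝ → ℝ → ℝ := fun D y => (Ioi (0:ℝ)).indicator (fun y => N c y D) y with hN'
  have h1 : ∀ D, Measurable (N' D) := fun D => (hN.meas c hc D).indicator measurableSet_Ioi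
  have h2 : ∀ y, Continuous fun D => N' D y := by
    intro y
    by_cases hy : y ∈ Ioi (0:ℝ)
    · simp only [hN', indicator_of_mem hy]
      have hL : LipschitzWith (Real.toNNReal (η * (p y ^ 2 / chi b y))) (fun D => N c y D) := by
        refine LipschitzWith.of_dist_le_mul fun D D' => ?_
        rw [Real.dist_eq, Real.dist_eq, Real.coe_toNNReal]
        · exact hN.lip c hc y hy D D'
        · have := hN.η_nonneg
          have := chi_pos b y
          positivity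
      exact hL.continuous
    · simp only [hN', indicator_of_notMem hy]
      exact continuous_const
  have h3 : Measurable (Function.uncurry N') := measurable_uncurry_of_continuous_of_measurable h2 h1
  have h4 : Measurable (fun y => N' (u y / p y) y) :=
    h3.comp ((hu.div hW.p_meas).prodMk measurable_id)
  have h5 : Measurable (fun y => chi b y / p y * N' (u y / p y) y) := hW.q_meas.mul h4
  refine h5.aestronglyMeasurable.congr ?_
  filter_upwards [mem_mu0] with y hy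
  simp only [gN, hN', indicator_of_mem hy]

theorem gN_diff (hW : WData b n1 cq Cq n p) (hN : NLData b p c1 c2 η M N F) {c : ℝ}
    (hc : c ∈ Icc c1 c2) (u v : ℝ → ℝ) {y : ℝ} (hy : 0 < y) :
    |gN b p N c u y - gN b p N c v y| ≤ η * |u y - v y| := by
  have hq := hW.q_pos hy
  have hp := hW.p_pos y hy
  have hch := chi_pos b y
  have h := hN.lip c hc y hy (u y / p y) (v y / p y)
  simp only [gN]
  rw [← mul_sub, abs_mul, abs_of_pos hq]
  calc chi b y / p y * |N c y (u y / p y) - N c y (v y / p y)|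
      ≤ chi b y / p y * (η * (p y ^ 2 / chi b y) * |u y / p y - v y / p y|) := by gcongr
    _ = η * |u y - v y| := by
        rw [← sub_div, abs_div, abs_of_pos hp]
        field_simp

theorem gN_zero (hW : WData b n1 cq Cq n p) (hN : NLData b p c1 c2 η M N F) {c : ℝ}
    (hc : c ∈ Icc c1 c2) {y : ℝ} (hy : 0 < y) :
    |gN b p N c (fun _ => 0) y| ≤ chi b y / p y * F y := by
  have hq := hW.q_pos hy
  simp only [gN]
  rw [abs_mul, abs_of_pos hq, zero_div]
  have := hN.F_bd c hc y hy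
  gcongr

theorem gN_bound (hW : WData b n1 cq Cq n p) (hN : NLData b p c1 c2 η M N F) {c : ℝ}
    (hc : c ∈ Icc c1 c2) (u : ℝ → ℝ) {y : ℝ} (hy : 0 < y) :
    |gN b p N c u y| ≤ chi b y / p y * F y + η * |u y| := by
  have h1 := gN_diff hW hN hc u (fun _ => 0) hy
  have h2 := gN_zero hW hN hc hy
  simp only [sub_zero] at h1
  have e : gN b p N c u y = gN b p N c (fun _ => 0) y +
    (gN b p N c u y - gN b p N c (fun _ => 0) y) := by ring
  rw [e]
  exact (abs_add_le _ _).trans (add_le_add h2 h1)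

theorem qF_memLp (hW : WData b n1 cq Cq n p) (hN : NLData b p c1 c2 η M N F) :
    MemLp (fun y => chi b y / p y * F y) 2 mu0 :=
  (memLp_two_iff_integrable_sq (hW.q_meas.mul hN.F_meas).aestronglyMeasurable).2 hN.F_int

theorem gN_memLp (hW : WData b n1 cq Cq n p) (hN : NLData b p c1 c2 η M N F) {c : ℝ}
    (hc : c ∈ Icc c1 c2) (u : HH) : MemLp (gN b p N c u) 2 mu0 := by
  have h1 : MemLp (fun y => chi b y / p y * F y + η * |u y|) 2 mu0 :=
    (qF_memLp hW hN).add ((Lp.memLp u).abs.const_mul η)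
  refine h1.of_le (gN_aemeas hW hN hc (HH_meas u)) ?_
  filter_upwards [mem_mu0] with y hy
  exact (gN_bound hW hN hc u hy).trans (le_abs_self _)

/-- fixed points -/
theorem exists_fix (hW : WData b n1 cq Cq n p) (hN : NLData b p c1 c2 η M N F)
    (S : HH →L[ℝ] HH) (hS : ∀ f, ‖S f‖ ≤ ‖f‖) {c : ℝ} (hc : c ∈ Icc c1 c2) :
    ∃ f : HH, (f : ℝ → ℝ) =ᵐ[mu0] gN b p N c (S f) := by
  set Φ : HH → HH := fun f => (gN_memLp hW hN hc (S f)).toLp _ with hΦ
  have hlip : LipschitzWith (Real.toNNReal η) Φ := by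
    refine LipschitzWith.of_dist_le_mul fun f g => ?_
    rw [dist_eq_norm, dist_eq_norm, Real.coe_toNNReal _ hN.η_nonneg]
    have h1 : ‖Φ f - Φ g‖ ≤ η * ‖S f - S g‖ := by
      refine Lp.norm_le_mul_norm_of_ae_le_mul ?_
      filter_upwards [Lp.coeFn_sub (Φ f) (Φ g), Lp.coeFn_sub (S f) (S g),
        (gN_memLp hW hN hc (S f)).coeFn_toLp, (gN_memLp hW hN hc (S g)).coeFn_toLp, mem_mu0]
        with y e1 e2 e3 e4 hy
      rw [e1, e2, Pi.sub_apply, Pi.sub_apply, e3, e4]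
      exact gN_diff hW hN hc _ _ hy
    refine h1.trans (mul_le_mul_of_nonneg_left ?_ hN.η_nonneg)
    rw [← map_sub]
    exact hS _
  have hcon : ContractingWith (Real.toNNReal η) Φ := by
    refine ⟨?_, hlip⟩
    rw [Real.toNNReal_lt_one]
    exact hN.η_lt
  have hfix := hcon.fixedPoint_isFixedPt
  refine ⟨ContractingWith.fixedPoint Φ hcon, ?_⟩
  set f := ContractingWith.fixedPoint Φ hcon with hf
  have e : Φ f = f := hfix
  have := (gN_memLp hW hN hc (S f)).coeFn_toLp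
  have e2 : ((gN_memLp hW hN hc (S f)).toLp _ : HH) = f := e
  rw [e2] at this
  exact this

theorem fix_bound (hW : WData b n1 cq Cq n p) (hN : NLData b p c1 c2 η M N F)
    (S : HH →L[ℝ] HH) (hS : ∀ f, ‖S f‖ ≤ ‖f‖) {c : ℝ} (hc : c ∈ Icc c1 c2) {f : HH}
    (hf : (f : ℝ → ℝ) =ᵐ[mu0] gN b p N c (S f)) : ‖f‖ ≤ M / (1 - η) := by
  have hqF := qF_memLp hW hN
  have hqn : ‖(hqF.toLp _ : HH)‖ ≤ M := by
    have h1 := toLp_norm_sq hqF
    have h2 : ‖(hqF.toLp _ : HH)‖ ^ 2 ≤ M ^ 2 := by rw [h1]; exact hN.F_M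
    exact (abs_le_of_sq_le_sq' h2 hN.M_nonneg).2
  have h1 : ‖f‖ ≤ ‖(hqF.toLp _ : HH) + η • |S f|‖ := by
    refine Lp.norm_le_norm_of_ae_le ?_
    filter_upwards [hf, hqF.coeFn_toLp, Lp.coeFn_add (hqF.toLp _ : HH) (η • |S f|),
      Lp.coeFn_smul η |S f|, Lp.coeFn_abs (S f), mem_mu0] with y e1 e2 e3 e4 e5 hy
    rw [e1, e3, Pi.add_apply, e2, e4, Pi.smul_apply, e5, smul_eq_mul]
    exact (gN_bound hW hN hc _ hy).trans (le_abs_self _)
  have h2 : ‖(hqF.toLp _ : HH) + η • |S f|‖ ≤ M + η * ‖f‖ := by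
    refine (norm_add_le _ _).trans (add_le_add hqn ?_)
    rw [norm_smul, norm_abs_eq_norm, Real.norm_of_nonneg hN.η_nonneg]
    exact mul_le_mul_of_nonneg_left (hS f) hN.η_nonneg
  have h3 := h1.trans h2
  have h4 := hN.η_lt
  rw [le_div_iff₀ (by linarith)]
  linarith

/-- continuity of the Nemytskii operator in `c`. -/
theorem gN_cont (hW : WData b n1 cq Cq n p) (hN : NLData b p c1 c2 η M N F) {c : ℝ}
    (hc : c ∈ Icc c1 c2) (u : HH) :
    Tendsto (fun c' => ∫ y, (gN b p N c' u y - gN b p N c u y) ^ 2 ∂mu0) (𝓝[Icc c1 c2] c) (𝓝 0) := by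
  have h1 : MemLp (fun y => chi b y / p y * F y + η * |u y|) 2 mu0 :=
    (qF_memLp hW hN).add ((Lp.memLp u).abs.const_mul η)
  have h2 := (h1.const_mul 2).integrable_sq
  have key : Tendsto (fun c' => ∫ y, (gN b p N c' u y - gN b p N c u y) ^ 2 ∂mu0) (𝓝[Icc c1 c2] c)
      (𝓝 (∫ _, (0:ℝ) ∂mu0)) := by
    refine tendsto_integral_filter_of_dominated_convergence
      (fun y => (2 * (chi b y / p y * F y + η * |u y|)) ^ 2) ?_ ?_ h2 ?_
    · filter_upwards [self_mem_nhdsWithin] with c' hc'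
      exact ((gN_aemeas hW hN hc' (HH_meas u)).sub (gN_aemeas hW hN hc (HH_meas u))).pow 2
    · filter_upwards [self_mem_nhdsWithin] with c' hc'
      filter_upwards [mem_mu0] with y hy
      have b1 := gN_bound hW hN hc' u hy
      have b2 := gN_bound hW hN hc u hy
      rw [Real.norm_of_nonneg (sq_nonneg _), ← sq_abs]
      refine pow_le_pow_left₀ (abs_nonneg _) ((abs_sub' _ _).trans ?_) 2
      linarith
    · filter_upwards [mem_mu0] with y hy
      have hcc := hN.cont y hy (u y / p y) c hc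
      have t1 : Tendsto (fun c' => gN b p N c' u y) (𝓝[Icc c1 c2] c) (𝓝 (gN b p N c u y)) :=
        hcc.tendsto.const_mul _
      have t2 := (t1.sub_const (gN b p N c u y)).pow 2
      simpa using t2
  simpa using key

theorem fix_cont (hW : WData b n1 cq Cq n p) (hN : NLData b p c1 c2 η M N F)
    (S : HH →L[ℝ] HH) (hS : ∀ f, ‖S f‖ ≤ ‖f‖) {f : ℝ → HH}
    (hf : ∀ c ∈ Icc c1 c2, (f c : ℝ → ℝ) =ᵐ[mu0] gN b p N c (S (f c))) :
    ContinuousOn f (Icc c1 c2) := by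
  intro c hc
  have hη := hN.η_lt
  have hη0 := hN.η_nonneg
  have hg := gN_cont hW hN hc (S (f c))
  have hs : Tendsto (fun c' => √(∫ y, (gN b p N c' (S (f c)) y - gN b p N c (S (f c)) y) ^ 2 ∂mu0) /
      (1 - η)) (𝓝[Icc c1 c2] c) (𝓝 0) := by
    have := (hg.sqrt).div_const (1 - η)
    simpa using this
  show Tendsto f (𝓝[Icc c1 c2] c) (𝓝 (f c))
  rw [tendsto_iff_norm_sub_tendsto_zero]
  refine squeeze_zero' (Eventually.of_forall fun _ => norm_nonneg _) ?_ hs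
  filter_upwards [self_mem_nhdsWithin] with c' hc'
  set P : HH := (gN_memLp hW hN hc' (S (f c))).toLp _ with hP
  have hPe : (P : ℝ → ℝ) =ᵐ[mu0] gN b p N c' (S (f c)) := (gN_memLp hW hN hc' (S (f c))).coeFn_toLp
  have h1 : ‖f c' - P‖ ≤ η * ‖f c' - f c‖ := by
    have h1 : ‖f c' - P‖ ≤ η * ‖S (f c') - S (f c)‖ := by
      refine Lp.norm_le_mul_norm_of_ae_le_mul ?_
      filter_upwards [Lp.coeFn_sub (f c') P, Lp.coeFn_sub (S (f c')) (S (f c)), hPe, hf c' hc', mem_mu0]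
        with y e1 e2 e3 e4 hy
      rw [e1, e2, Pi.sub_apply, Pi.sub_apply, e3, e4]
      exact gN_diff hW hN hc' _ _ hy
    refine h1.trans (mul_le_mul_of_nonneg_left ?_ hη0)
    rw [← map_sub]
    exact hS _
  have h2 : ‖P - f c‖ = √(∫ y, (gN b p N c' (S (f c)) y - gN b p N c (S (f c)) y) ^ 2 ∂mu0) := by
    have e : ‖P - f c‖ ^ 2 = ∫ y, (gN b p N c' (S (f c)) y - gN b p N c (S (f c)) y) ^ 2 ∂mu0 := by
      rw [HH_norm_sq]
      refine integral_congr_ae ?_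
      filter_upwards [Lp.coeFn_sub P (f c), hPe, hf c hc] with y e1 e2 e3
      rw [e1, Pi.sub_apply, e2, e3]
    rw [← e, Real.sqrt_sq (norm_nonneg _)]
  have h3 : ‖f c' - f c‖ ≤ ‖f c' - P‖ + ‖P - f c‖ := norm_sub_le_norm_sub_add_norm_sub _ _ _
  rw [le_div_iff₀ (by linarith), ← h2]
  linarith

/-- **existence for the nonlinear problem** (row 213, E-LIN + E-NL) -/
theorem nl_exists (hW : WData b n1 cq Cq n p) (hN : NLData b p c1 c2 η M N F) :
    ∃ (D D1 : ℝ → ℝ → ℝ) (κ : ℝ → ℝ), ContinuousOn κ (Icc c1 c2) ∧ ∀ c ∈ Icc c1 c2,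
      Rep (κ c) (fun t => N c t (D c t) - n t * D c t) (D c) (D1 c) ∧
      IntegrableOn (fun y => (p y * D c y) ^ 2) (Ioi 0) ∧
      ∫ y in Ioi (0 : ℝ), (p y * D c y) ^ 2 ≤ (M / (1 - η)) ^ 2 := by
  obtain ⟨S, hS, hSV⟩ := exists_solver hW
  have hfix : ∀ c : ℝ, ∃ f : HH, c ∈ Icc c1 c2 → (f : ℝ → ℝ) =ᵐ[mu0] gN b p N c (S f) := by
    intro c
    by_cases hc : c ∈ Icc c1 c2
    · obtain ⟨f, hf⟩ := exists_fix hW hN S hS hc
      exact ⟨f, fun _ => hf⟩
    · exact ⟨0, fun h => absurd h hc⟩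
  choose f hf using hfix
  have hcont := fix_cont hW hN S hS (f := f) hf
  choose κ hκ using fun c => RepP_closure hW (hSV (f c))
  set z : ℝ → ℝ → ℝ := fun c => ZZ b n p (S (f c)) (f c) with hz
  refine ⟨fun c y => κ c * y - KK (z c) y, fun c y => κ c - ∫ s in (0:ℝ)..y, GG (z c) s, κ, ?_, ?_⟩
  · intro c hc
    show Tendsto κ (𝓝[Icc c1 c2] c) (𝓝 (κ c))
    rw [tendsto_iff_norm_sub_tendsto_zero]
    have h1 : ∀ c', ‖κ c' - κ c‖ ≤ C2 b n1 cq Cq * (2 * ‖f c' - f c‖) := by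
      intro c'
      refine (RepP_bound hW (RepP_sub hW (hκ c') (hκ c))).trans ?_
      refine mul_le_mul_of_nonneg_left ?_ (C2_nonneg hW)
      simp only [Prod.fst_sub, Prod.snd_sub]
      rw [← map_sub]
      linarith [hS (f c' - f c)]
    have h2 : Tendsto (fun c' => C2 b n1 cq Cq * (2 * ‖f c' - f c‖)) (𝓝[Icc c1 c2] c) (𝓝 0) := by
      have h3 : Tendsto f (𝓝[Icc c1 c2] c) (𝓝 (f c)) := hcont c hc
      have := ((tendsto_iff_norm_sub_tendsto_zero.1 h3).const_mul 2).const_mul (C2 b n1 cq Cq)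
      simpa using this
    exact squeeze_zero (fun _ => norm_nonneg _) h1 h2
  · intro c hc
    have hD : ∀ᵐ y ∂mu0, κ c * y - KK (z c) y = S (f c) y / p y := by
      filter_upwards [hκ c] with y hy
      exact hy.symm
    refine ⟨?_, ?_, ?_⟩
    · refine (rep_of_TB (κ := κ c) (TB_ZZ hW (S (f c), f c))).congr ?_
      filter_upwards [hD, hf c hc, mem_mu0] with t h1 h2 ht
      have hq := (hW.q_pos ht).ne'
      rw [h1]
      simp only [ZZ]
      rw [h2]
      simp only [gN]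
      rw [mul_div_cancel_left₀ _ hq]
    · have h1 := (Lp.memLp (S (f c))).integrable_sq
      refine Integrable.congr h1 ?_
      filter_upwards [hD, mem_mu0] with y h1 hy
      have hp := (hW.p_pos y hy).ne'
      rw [h1]
      field_simp
    · have e : ∫ y in Ioi (0 : ℝ), (p y * (κ c * y - KK (z c) y)) ^ 2 = ‖S (f c)‖ ^ 2 := by
        rw [HH_norm_sq]
        refine integral_congr_ae ?_
        filter_upwards [hD, mem_mu0] with y h1 hy
        have hp := (hW.p_pos y hy).ne'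
        rw [h1]
        field_simp
      rw [e]
      have h1 := fix_bound hW hN S hS hc (hf c hc)
      exact pow_le_pow_left₀ (norm_nonneg _) ((hS (f c)).trans h1) 2

end Crest.Agent.R213.E
end
end

-- ▼ part R213/E/QQBound
section

/-!
# Row 213, part E: `qq_bound`
-/

set_option autoImplicit false

open Set MeasureTheory Filter Topology

noncomputable section

namespace Crest.Agent.R213.E

namespace QB

theorem tail4 {y : ℝ} (hy : 0 < y) : IntegrableOn (fun t : ℝ => (t ^ 4)⁻¹) (Ioi y) ∧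
    ∫ t in Ioi y, (t ^ 4)⁻¹ = (y ^ 3)⁻¹ / 3 := by
  have h1 := integrableOn_Ioi_rpow_of_lt (a := -4) (c := y) (by norm_num) hy
  have h2 := integral_Ioi_rpow_of_lt (a := -4) (by norm_num) hy
  have e : ∀ t ∈ Ioi y, t ^ (-4 : ℝ) = (t ^ 4)⁻¹ := by
    intro t ht
    have ht0 : 0 ≤ t := hy.le.trans (le_of_lt ht)
    rw [show (-4 : ℝ) = -((4 : ℕ) : ℝ) by norm_num, Real.rpow_neg ht0, Real.rpow_natCast]
  refine ⟨h1.congr_fun e measurableSet_Ioi, ?_⟩
  rw [← setIntegral_congr_fun measurableSet_Ioi e, h2]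
  rw [show ((-4 : ℝ) + 1) = -((3 : ℕ) : ℝ) by norm_num, Real.rpow_neg hy.le, Real.rpow_natCast]
  norm_num

theorem tail2 {y : ℝ} (hy : 0 < y) : IntegrableOn (fun t : ℝ => (t ^ 2)⁻¹) (Ioi y) ∧
    ∫ t in Ioi y, (t ^ 2)⁻¹ = y⁻¹ := by
  have h1 := integrableOn_Ioi_rpow_of_lt (a := -2) (c := y) (by norm_num) hy
  have h2 := integral_Ioi_rpow_of_lt (a := -2) (by norm_num) hy
  have e : ∀ t ∈ Ioi y, t ^ (-2 : ℝ) = (t ^ 2)⁻¹ := by
    intro t ht
    have ht0 : 0 ≤ t := hy.le.trans (le_of_lt ht)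
    rw [show (-2 : ℝ) = -((2 : ℕ) : ℝ) by norm_num, Real.rpow_neg ht0, Real.rpow_natCast]
  refine ⟨h1.congr_fun e measurableSet_Ioi, ?_⟩
  rw [← setIntegral_congr_fun measurableSet_Ioi e, h2]
  rw [show ((-2 : ℝ) + 1) = -((1 : ℕ) : ℝ) by norm_num, Real.rpow_neg hy.le, Real.rpow_natCast]
  norm_num

end QB

theorem qq_bound {b n1 cq Cq : ℝ} {n p : ℝ → ℝ} (hW : WData b n1 cq Cq n p) (hb : 12 ≤ b ^ 2)
    {z D : ℝ → ℝ} {ℓ ρ MD : ℝ} (hℓ : 0 ≤ ℓ) (hρ : 0 ≤ ρ) (hMD : 0 ≤ MD)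
    (hD : ContinuousOn D (Ioi 0))
    (hz : ∀ y, 2 ≤ y → |z y| ≤ ℓ * y ^ 2 * |D y| + ρ * y ^ 8)
    (hDi : IntegrableOn (fun y => (p y * D y) ^ 2) (Ioi 0))
    (hDM : ∫ y in Ioi (0 : ℝ), (p y * D y) ^ 2 ≤ MD ^ 2) :
    ∀ y, 2 ≤ y → |QQ z y| ≤ (ℓ * Cq * MD / 66 + ρ) / y := by
  intro y hy2
  have hy : 0 < y := by linarith
  have hCq := hW.Cq_pos
  have hm : AEStronglyMeasurable (fun y => p y * D y) mu0 :=
    hW.p_meas.aestronglyMeasurable.mul (hD.aestronglyMeasurable measurableSet_Ioi)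
  have hpD : MemLp (fun y => p y * D y) 2 mu0 := (memLp_two_iff_integrable_sq hm).2 hDi
  set g : HH := hpD.toLp _ with hg
  have hgn : ‖g‖ ≤ MD := by
    have h2 : ‖g‖ ^ 2 ≤ MD ^ 2 := by rw [hg, toLp_norm_sq]; exact hDM
    exact (abs_le_of_sq_le_sq' h2 hMD).2
  set k : ℝ → ℝ := (Ioi y).indicator (fun t => (t ^ 2)⁻¹) with hk
  have hkm : Measurable k := Measurable.indicator (by fun_prop) measurableSet_Ioi
  have hres : mu0.restrict (Ioi y) = volume.restrict (Ioi y) := by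
    rw [Measure.restrict_restrict measurableSet_Ioi,
      inter_eq_self_of_subset_left (Ioi_subset_Ioi hy.le)]
  have hk2 : (fun t => k t ^ 2) = (Ioi y).indicator (fun t => (t ^ 4)⁻¹) := by
    funext t
    by_cases h : t ∈ Ioi y
    · simp only [hk, indicator_of_mem h]
      rw [← inv_pow, ← inv_pow, ← pow_mul]
    · simp [hk, h]
  obtain ⟨q1, q2⟩ := QB.tail4 hy
  obtain ⟨r1, r2⟩ := QB.tail2 hy
  have hki : Integrable (fun t => k t ^ 2) mu0 := by
    rw [hk2, integrable_indicator_iff measurableSet_Ioi, IntegrableOn, hres]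
    exact q1
  have hkL : MemLp k 2 mu0 := (memLp_two_iff_integrable_sq hkm.aestronglyMeasurable).2 hki
  have hkv : ∫ t, k t ^ 2 ∂mu0 ≤ (9 / 22 / y) ^ 2 := by
    rw [hk2, integral_indicator measurableSet_Ioi, hres, q2]
    have e : (9 / 22 / y) ^ 2 = 81 / 484 * (y ^ 2)⁻¹ := by rw [div_pow]; ring
    have e2 : (y ^ 3)⁻¹ / 3 = (1 / 3) * y⁻¹ * (y ^ 2)⁻¹ := by field_simp
    rw [e, e2]
    have h3 : y⁻¹ ≤ 1 / 2 := by
      rw [inv_le_comm₀ hy (by norm_num)]; linarith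
    have h4 : 0 < (y ^ 2)⁻¹ := by positivity
    refine mul_le_mul_of_nonneg_right ?_ h4.le
    linarith
  obtain ⟨i1, j1⟩ := HH_cs hkL (by positivity : 0 ≤ 9 / 22 / y) hkv g
  have hgae : ∀ᵐ t ∂mu0, g t = p t * D t := hpD.coeFn_toLp
  -- the majorant on `Ioi y`
  have hi' : IntegrableOn (fun t => (t ^ 2)⁻¹ * |g t|) (Ioi y) ∧
      ∫ t in Ioi y, (t ^ 2)⁻¹ * |g t| ≤ 9 / 22 / y * MD := by
    have e : (fun t => |k t| * |g t|) = (Ioi y).indicator (fun t => (t ^ 2)⁻¹ * |g t|) := by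
      funext t
      by_cases h : t ∈ Ioi y
      · simp only [hk, indicator_of_mem h]
        rw [abs_of_nonneg (by positivity)]
      · simp [hk, h]
    rw [e] at i1 j1
    rw [integrable_indicator_iff measurableSet_Ioi, IntegrableOn, hres] at i1
    rw [integral_indicator measurableSet_Ioi, hres] at j1
    refine ⟨i1, j1.trans ?_⟩
    gcongr
  obtain ⟨a1, a2⟩ := hi'
  have hmaj : IntegrableOn (fun t => ℓ * Cq / 27 * ((t ^ 2)⁻¹ * |g t|) + ρ * (t ^ 2)⁻¹) (Ioi y) :=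
    (a1.const_mul _).add (r1.const_mul _)
  have hae : ∀ᵐ t ∂(volume.restrict (Ioi y)), ‖(t ^ 10)⁻¹ * z t‖ ≤
      ℓ * Cq / 27 * ((t ^ 2)⁻¹ * |g t|) + ρ * (t ^ 2)⁻¹ := by
    have h1 : ∀ᵐ t ∂(volume.restrict (Ioi y)), g t = p t * D t :=
      hgae.filter_mono (ae_mono (Measure.restrict_mono (Ioi_subset_Ioi hy.le) le_rfl))
    filter_upwards [h1, ae_restrict_mem measurableSet_Ioi] with t ht hty
    have hty' : y < t := hty
    have ht2 : 2 ≤ t := by linarith
    have ht0 : 0 < t := by linarith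
    have hp := hW.p_pos t ht0
    have hc := chi_pos b t
    have hq := hW.q_up t ht0
    have hDb : |D t| ≤ Cq * (t ^ 6 / 27) * |g t| := by
      rw [ht, abs_mul, abs_of_pos hp]
      have e2 : 1 / chi b t = (1 + t ^ 2 / b ^ 2) ^ 3 := by
        simp only [chi, uu]
        rw [inv_pow, one_div, inv_inv]
      have e3 : 1 + t ^ 2 / b ^ 2 ≤ t ^ 2 / 3 := by
        have : t ^ 2 / b ^ 2 ≤ t ^ 2 / 12 := by gcongr
        nlinarith
      have hb0 : 0 < b := hW.b_pos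
      have e4 : 1 / chi b t ≤ t ^ 6 / 27 := by
        rw [e2]
        calc (1 + t ^ 2 / b ^ 2) ^ 3 ≤ (t ^ 2 / 3) ^ 3 := by gcongr
          _ = t ^ 6 / 27 := by ring
      have e5 : 1 ≤ Cq * (t ^ 6 / 27) * p t := by
        have h5 : chi b t ≤ Cq * p t := by rwa [div_le_iff₀ hp] at hq
        have h6 : 1 ≤ t ^ 6 / 27 * chi b t := by rwa [div_le_iff₀ hc] at e4
        calc (1:ℝ) ≤ t ^ 6 / 27 * chi b t := h6
          _ ≤ t ^ 6 / 27 * (Cq * p t) := by gcongr
          _ = _ := by ring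
      calc |D t| = 1 * |D t| := (one_mul _).symm
        _ ≤ (Cq * (t ^ 6 / 27) * p t) * |D t| := by gcongr
        _ = _ := by ring
    rw [Real.norm_eq_abs, abs_mul, abs_of_nonneg (by positivity : 0 ≤ (t ^ 10)⁻¹)]
    calc (t ^ 10)⁻¹ * |z t| ≤ (t ^ 10)⁻¹ * (ℓ * t ^ 2 * |D t| + ρ * t ^ 8) := by
          have := hz t ht2
          gcongr
      _ ≤ (t ^ 10)⁻¹ * (ℓ * t ^ 2 * (Cq * (t ^ 6 / 27) * |g t|) + ρ * t ^ 8) := by gcongr
      _ = _ := by field_simp
  simp only [QQ]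
  rw [← Real.norm_eq_abs]
  refine (norm_integral_le_of_norm_le hmaj hae).trans ?_
  rw [integral_add (a1.const_mul _) (r1.const_mul _), integral_const_mul, integral_const_mul, r2]
  calc ℓ * Cq / 27 * (∫ t in Ioi y, (t ^ 2)⁻¹ * |g t|) + ρ * y⁻¹
      ≤ ℓ * Cq / 27 * (9 / 22 / y * MD) + ρ * y⁻¹ := by gcongr
    _ = (ℓ * Cq * MD / 66 + ρ) / y := by field_simp; ring

end Crest.Agent.R213.E
end
end

-- ▼ part R213/E/MidOfCert

/-! Row 213, PART E: `Cert → Mid` (helper9). -/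

set_option autoImplicit false

open Set MeasureTheory Filter Topology

noncomputable section

namespace Crest.Agent.R213.E

namespace MC

lemma clamp_eq {m x : ℝ} (h : |x| ≤ m) : clamp m x = x := by
  rw [abs_le] at h
  unfold clamp
  rw [min_eq_right h.2, max_eq_right h.1]

lemma int_inv_sq : IntegrableOn (fun y : ℝ => (y ^ 2)⁻¹) (Ioi 1) := by
  have h := integrableOn_Ioi_rpow_of_lt (by norm_num : (-2 : ℝ) < -1) (zero_lt_one)
  refine h.congr_fun (fun y hy => ?_) measurableSet_Ioi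
  have hy' : (0 : ℝ) < y := lt_trans one_pos hy
  simp only
  rw [Real.rpow_neg hy'.le]
  norm_num

lemma cont_S3 (c : ℝ) : ContinuousOn (fun y => S3 c y) (Ioi 0) := by
  unfold S3
  have : ∀ y ∈ Ioi (0 : ℝ), y ≠ 0 := fun y hy => ne_of_gt hy
  refine ContinuousOn.add (ContinuousOn.add (ContinuousOn.add continuousOn_const ?_) ?_) ?_
  · exact continuousOn_const.div (by fun_prop) fun y hy => pow_ne_zero _ (this y hy)
  · exact continuousOn_const.div (by fun_prop) fun y hy => pow_ne_zero _ (this y hy)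
  · exact continuousOn_const.div (by fun_prop) fun y hy => pow_ne_zero _ (this y hy)

lemma tail_int {c C a : ℝ} {p D g : ℝ → ℝ} (ha : 0 < a) (hp : ∀ y, 1 ≤ y → a ≤ p y * y ^ 3)
    (hg : ContinuousOn g (Ioi 0)) (hD : ContinuousOn D (Ioi 0))
    (hC : ∀ y, 1 ≤ y → |g y - S3 c y| ≤ C / y ^ 8)
    (hDi : IntegrableOn (fun y => (p y * D y) ^ 2) (Ioi 0)) :
    IntegrableOn (fun y => y ^ 14 * (g y + D y / y ^ 10 - S3 c y) ^ 2) (Ioi 1) := by
  have hi : IntegrableOn (fun y => 2 * C ^ 2 * (y ^ 2)⁻¹ + 2 / a ^ 2 * (p y * D y) ^ 2) (Ioi 1) :=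
    (int_inv_sq.const_mul _).add ((hDi.mono_set (Ioi_subset_Ioi zero_le_one)).const_mul _)
  have hcont : ContinuousOn (fun y => y ^ 14 * (g y + D y / y ^ 10 - S3 c y) ^ 2) (Ioi 0) := by
    have hS : ContinuousOn (fun y => S3 c y) (Ioi 0) := by
      unfold S3
      have : ∀ y ∈ Ioi (0 : ℝ), y ≠ 0 := fun y hy => ne_of_gt hy
      refine ContinuousOn.add (ContinuousOn.add (ContinuousOn.add continuousOn_const ?_) ?_) ?_
      · exact continuousOn_const.div (by fun_prop) fun y hy => pow_ne_zero _ (this y hy)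
      · exact continuousOn_const.div (by fun_prop) fun y hy => pow_ne_zero _ (this y hy)
      · exact continuousOn_const.div (by fun_prop) fun y hy => pow_ne_zero _ (this y hy)
    have h1 : ContinuousOn (fun y => D y / y ^ 10) (Ioi 0) :=
      hD.div (by fun_prop) fun y hy => pow_ne_zero _ (ne_of_gt hy)
    fun_prop
  refine Integrable.mono' hi ?_ ?_
  · exact (hcont.mono (Ioi_subset_Ioi zero_le_one)).aestronglyMeasurable measurableSet_Ioi
  · filter_upwards [ae_restrict_mem measurableSet_Ioi] with y hy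
    have hy1 : (1 : ℝ) ≤ y := le_of_lt hy
    have hy0 : (0 : ℝ) < y := by linarith
    rw [Real.norm_eq_abs, abs_of_nonneg (by positivity)]
    set A := g y - S3 c y
    set B := D y / y ^ 10
    have e : g y + D y / y ^ 10 - S3 c y = A + B := by simp only [A, B]; ring
    rw [e]
    have h1 : y ^ 14 * A ^ 2 ≤ C ^ 2 * (y ^ 2)⁻¹ := by
      have h2 := hC y hy1
      have h3 : A ^ 2 ≤ (C / y ^ 8) ^ 2 := sq_le_sq' (by linarith [neg_abs_le A, h2]) (by
        linarith [le_abs_self A, h2])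
      calc y ^ 14 * A ^ 2 ≤ y ^ 14 * (C / y ^ 8) ^ 2 := by gcongr
        _ = C ^ 2 * (y ^ 2)⁻¹ := by field_simp
    have h2 : y ^ 14 * B ^ 2 ≤ 1 / a ^ 2 * (p y * D y) ^ 2 := by
      have h3 : y ^ 14 * B ^ 2 = D y ^ 2 / y ^ 6 := by
        simp only [B]; field_simp
      rw [h3]
      have h4 := hp y hy1
      have h5 : a ^ 2 ≤ (p y * y ^ 3) ^ 2 := pow_le_pow_left₀ ha.le h4 2
      rw [div_le_iff₀ (by positivity)]
      have : 1 / a ^ 2 * (p y * D y) ^ 2 * y ^ 6 = (D y) ^ 2 * ((p y * y ^ 3) ^ 2 / a ^ 2) := by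
        field_simp
      rw [this]
      have h6 : 1 ≤ (p y * y ^ 3) ^ 2 / a ^ 2 := by
        rw [le_div_iff₀ (by positivity)]; linarith
      nlinarith [sq_nonneg (D y)]
    have h3 : y ^ 14 * (A + B) ^ 2 ≤ 2 * (y ^ 14 * A ^ 2) + 2 * (y ^ 14 * B ^ 2) := by
      have h4 : (A + B) ^ 2 ≤ 2 * A ^ 2 + 2 * B ^ 2 := by nlinarith [sq_nonneg (A - B)]
      nlinarith [pow_pos hy0 14]
    calc y ^ 14 * (A + B) ^ 2 ≤ 2 * (y ^ 14 * A ^ 2) + 2 * (y ^ 14 * B ^ 2) := h3
      _ ≤ 2 * (C ^ 2 * (y ^ 2)⁻¹) + 2 * (1 / a ^ 2 * (p y * D y) ^ 2) := by linarith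
      _ = _ := by ring
end MC

open MC in
theorem mid_of_cert {k : Cst} {p R : ℝ → ℝ} {G G1 G2 G3 : ℝ → ℝ → ℝ} {ψ ψ1 ψ2 ψ3 : ℝ → ℝ}
    (hC : Cert k p R G G1 G2 G3 ψ ψ1 ψ2 ψ3) :
    ∃ (c : ℝ) (g g1 g2 g3 : ℝ → ℝ), Mid c g g1 g2 g3 ∧ Tendsto g atTop (𝓝 c) := by
  obtain ⟨D, D1, κ, hκ, hall⟩ := nl_exists hC.wdata (nlData_of_cert hC)
  have hδ := hC.δ_pos
  have hMD : 0 ≤ k.M / (1 - k.η) := div_nonneg hC.M_nonneg (by linarith [hC.η_lt])
  have hc2 : k.c0 + k.δ ∈ Icc (k.c0 - k.δ) (k.c0 + k.δ) := ⟨by linarith, le_rfl⟩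
  have hc1 : k.c0 - k.δ ∈ Icc (k.c0 - k.δ) (k.c0 + k.δ) := ⟨le_rfl, by linarith⟩
  have hψ0 := hC.ψ_0
  have hhi : 0 ≤ κ (k.c0 + k.δ) := by
    obtain ⟨hR, hDi, hDM⟩ := hall _ hc2
    have h1 := sign_of_cert hC hc2 hR hDi hDM
    have h2 := hC.main_hi
    have h3 := hC.small
    rw [abs_le] at h1
    have h4 : 0 < 10 * ψ 0 * κ (k.c0 + k.δ) := by linarith [h1.1]
    by_contra hneg
    push Not at hneg
    nlinarith
  have hlo : κ (k.c0 - k.δ) ≤ 0 := by
    obtain ⟨hR, hDi, hDM⟩ := hall _ hc1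
    have h1 := sign_of_cert hC hc1 hR hDi hDM
    have h2 := hC.main_lo
    have h3 := hC.small
    rw [abs_le] at h1
    have h4 : 10 * ψ 0 * κ (k.c0 - k.δ) < 0 := by linarith [h1.2]
    by_contra hneg
    push Not at hneg
    nlinarith
  obtain ⟨c, hc, hκc⟩ := intermediate_value_Icc (by linarith : k.c0 - k.δ ≤ k.c0 + k.δ) hκ
    ⟨hlo, hhi⟩
  obtain ⟨hR, hDi, hDM⟩ := hall c hc
  rw [hκc] at hR
  set z : ℝ → ℝ := fun t => NN (G k.c0) k.m G G1 G2 G3 c t (D c t) - nn (G k.c0) t * D c t with hz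
  have hDc : ContinuousOn (D c) (Ioi 0) := fun y hy => (hR.hD y hy).continuousAt.continuousWithinAt
  have hε : 0 ≤ k.ε := by
    have h1 := hC.R_near 1 one_pos (by norm_num)
    have h2 := hC.res c hc 1 one_pos
    have h3 := (abs_nonneg _).trans h2
    nlinarith
  have hρ : 0 ≤ k.ρ := by
    have h1 := hC.R_far 2 le_rfl
    have h2 := hC.res c hc 2 two_pos
    exact ((abs_nonneg _).trans h2).trans h1
  have hQ := qq_bound hC.wdata hC.b_ge (by norm_num : (0 : ℝ) ≤ 2 / 7) hρ hMD hDc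
    (fun y hy => (z_bd hC hc (D c y)).2 y hy) hDi hDM
  have hpt := pt_bound hR (by norm_num : (0 : ℝ) ≤ 3) le_rfl hε
    (fun y hy hy2 => (z_bd hC hc (D c y)).1 y hy hy2) hQ
  have hD : ∀ y, 0 < y → |D c y| ≤ k.m * y ^ 10 := fun y hy =>
    (hpt y hy).trans (mul_le_mul_of_nonneg_right hC.close (by positivity))
  have hh : ∀ y, 0 < y → |D c y / y ^ 10| ≤ k.m := fun y hy => by
    rw [abs_div, abs_of_pos (by positivity : (0 : ℝ) < y ^ 10), div_le_iff₀ (by positivity)]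
    exact hD y hy
  have hm := hC.m_le
  have hlow : ∀ y, 0 < y → 7 / 50 ≤ G c y + D c y / y ^ 10 := fun y hy => by
    have h1 := hC.G_lo c hc y hy
    have h2 := (abs_le.1 (hh y hy)).1
    linarith
  have hC3 := hC.G_C3 c hc
  have hzeq : ∀ y, 0 < y → z y = y ^ 8 * (-(y ^ 3 * G3 c y + 21 * y ^ 2 * G2 c y + 90 * y * G1 c y
      + 90 * (1 - G c y)) - y ^ 2 / 2 * (1 / c - 1 / (G c y + D c y / y ^ 10))) := by
    intro y hy
    simp only [hz, NN, if_pos hy, clamp_eq (hh y hy), resid]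
    have hy0 : y ≠ 0 := hy.ne'
    have e : y ^ 10 * (D c y / y ^ 10) = D c y := by field_simp
    rw [e]
    ring
  obtain ⟨g1, g2, g3, e1, e2, e3, hode⟩ := upgrade (c := c) hC3.d1 hC3.d2 hC3.d3 (hC.G3_cont c hc) hR
    (fun y hy => by linarith [hlow y hy]) hzeq
  have hti : IntegrableOn (fun y => y ^ 14 * (D c y / y ^ 10) ^ 2) (Ioi 1) := by
    obtain ⟨a, ha, hp⟩ := hC.p_tail
    have h := tail_int (c := c) (C := 0) (g := fun y => S3 c y) ha hp (cont_S3 c) hDc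
      (fun y _ => by simp) hDi
    refine h.congr_fun (fun y _ => ?_) measurableSet_Ioi
    simp only
    ring
  have hlim := lim_g hC hc (lim_h hR hQ hti)
  refine ⟨c, fun y => G c y + D c y / y ^ 10, g1, g2, g3, ?_, hlim⟩
  refine
    { c_lo := hC.c_lo.trans hc.1
      c_hi := hc.2.trans hC.c_hi
      C3 := ⟨e1, e2, e3⟩
      ode := hode
      lower := fun y hy => by linarith [hlow y hy]
      upper := fun y hy => ?_
      at_one := ?_
      tail := ?_ }
  · have h1 := hC.G_hi c hc y hy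
    have h2 := (abs_le.1 (hh y hy)).2
    linarith
  · have h1 := hC.at_one c hc
    have h2 := (abs_le.1 (hh 1 one_pos)).2
    linarith
  · obtain ⟨C, hCt⟩ := hC.tail c hc
    obtain ⟨a, ha, hp⟩ := hC.p_tail
    exact tail_int ha hp (fun y hy => (hC3.d1 y hy).continuousAt.continuousWithinAt) hDc hCt hDi

end Crest.Agent.R213.E
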