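import Mathlib
import Crest.Agent.R213.ParamInt
import Crest.Agent.R213.Defs

-- ▼ part R213/E/ZeroLin
section

/-!
# Row 213, part E: linear theory at `y = 0`

`P(θ) = (θ-1)(θ+9)(θ+10)`, `θ = y d/dy`; in ordinary derivatives
`P(θ) u = y³u''' + 21y²u'' + 90yu' - 90u`.
-/

set_option autoImplicit false

open Set Filter Topology MeasureTheory intervalIntegral

noncomputable section

namespace Crest.Agent.R213.EZ

/-- the kernel `1/110 - r¹⁰/10 + r¹¹/11`. -/
def ker (r : ℝ) : ℝ := 1 / 110 - r ^ 10 / 10 + r ^ 11 / 11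

lemma ker_cont : Continuous ker := by unfold ker; fun_prop

/-- scaling substitution. -/
lemma scale_int (φ : ℝ → ℝ) {y : ℝ} (hy : y ≠ 0) (n : ℕ) :
    ∫ z in (0 : ℝ)..y, z ^ n * φ z = y ^ (n + 1) * ∫ r in (0 : ℝ)..1, r ^ n * φ (r * y) := by
  have h := intervalIntegral.integral_comp_mul_right (a := 0) (b := 1)
    (fun z => z ^ n * φ z) hy
  simp only [zero_mul, one_mul, smul_eq_mul] at h
  have h2 : ∫ r in (0 : ℝ)..1, (r * y) ^ n * φ (r * y) =
      y ^ n * ∫ r in (0 : ℝ)..1, r ^ n * φ (r * y) := by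
    rw [← intervalIntegral.integral_const_mul]
    congr 1; ext r; ring
  rw [h2] at h
  have : y * (y ^ n * ∫ r in (0 : ℝ)..1, r ^ n * φ (r * y)) = ∫ z in (0 : ℝ)..y, z ^ n * φ z := by
    rw [h]; field_simp
  rw [← this]; ring

/-- bounded and continuous on `(0,Y)` implies interval integrable on `[0,y]`, `y < Y`. -/
lemma intervalIntegrable_of_bdd {φ : ℝ → ℝ} {Y M : ℝ} (hc : ContinuousOn φ (Ioo 0 Y))
    (hb : ∀ y ∈ Ioo 0 Y, |φ y| ≤ M) {y : ℝ} (hy : y ∈ Ioo 0 Y) :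
    IntervalIntegrable φ volume 0 y := by
  rw [intervalIntegrable_iff_integrableOn_Ioo_of_le hy.1.le]
  have hsub : Ioo 0 y ⊆ Ioo 0 Y := fun z hz => ⟨hz.1, hz.2.trans hy.2⟩
  refine Integrable.of_bound (C := M) ?_ ?_
  · exact (hc.mono hsub).aestronglyMeasurable measurableSet_Ioo
  · refine (ae_restrict_iff' measurableSet_Ioo).2 (Eventually.of_forall fun z hz => ?_)
    simpa using hb z (hsub hz)

lemma hasDerivAt_prim {φ : ℝ → ℝ} {Y M : ℝ} (hc : ContinuousOn φ (Ioo 0 Y))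
    (hb : ∀ y ∈ Ioo 0 Y, |φ y| ≤ M) {y : ℝ} (hy : y ∈ Ioo 0 Y) :
    HasDerivAt (fun y => ∫ z in (0 : ℝ)..y, φ z) (φ y) y := by
  refine intervalIntegral.integral_hasDerivAt_right (intervalIntegrable_of_bdd hc hb hy) ?_ ?_
  · exact hc.stronglyMeasurableAtFilter isOpen_Ioo y hy
  · exact hc.continuousAt (isOpen_Ioo.mem_nhds hy)

/-- a function with zero derivative on `(0,Y)` is constant there. -/
lemma const_of_deriv {f : ℝ → ℝ} {Y : ℝ} (h : ∀ y ∈ Ioo 0 Y, HasDerivAt f 0 y) :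
    ∃ C, ∀ y ∈ Ioo 0 Y, f y = C := by
  by_cases hY : (Ioo 0 Y).Nonempty
  · obtain ⟨y0, hy0⟩ := hY
    refine ⟨f y0, fun y hy => ?_⟩
    have hd : DifferentiableOn ℝ f (Ioo 0 Y) := fun z hz => (h z hz).differentiableAt.differentiableWithinAt
    exact isOpen_Ioo.is_const_of_deriv_eq_zero isPreconnected_Ioo hd
      (fun z hz => (h z hz).deriv) hy hy0
  · exact ⟨0, fun y hy => absurd ⟨y, hy⟩ hY⟩

/-- **Representation** of solutions of `P(θ)u = y²φ` on `(0,Y)` with `φ` bounded. -/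
theorem rep {u u1 u2 u3 φ : ℝ → ℝ} {Y M : ℝ}
    (h0 : ∀ y ∈ Ioo 0 Y, HasDerivAt u (u1 y) y) (h1 : ∀ y ∈ Ioo 0 Y, HasDerivAt u1 (u2 y) y)
    (h2 : ∀ y ∈ Ioo 0 Y, HasDerivAt u2 (u3 y) y)
    (hc : ContinuousOn φ (Ioo 0 Y)) (hb : ∀ y ∈ Ioo 0 Y, |φ y| ≤ M)
    (hode : ∀ y ∈ Ioo 0 Y,
      y ^ 3 * u3 y + 21 * y ^ 2 * u2 y + 90 * y * u1 y - 90 * u y = y ^ 2 * φ y) :
    ∃ α κ9 κ10 : ℝ,
      (∀ y ∈ Ioo 0 Y, y ^ 2 * u2 y + 20 * y * u1 y + 90 * u y =
        y * (110 * α + ∫ z in (0 : ℝ)..y, φ z)) ∧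
      (∀ y ∈ Ioo 0 Y, y ^ 9 * (y ^ 2 * u2 y + 10 * y * u1 y - 10 * u y) =
        -10 * κ9 + ∫ z in (0 : ℝ)..y, z ^ 10 * φ z) ∧
      (∀ y ∈ Ioo 0 Y, y ^ 10 * (y ^ 2 * u2 y + 9 * y * u1 y - 9 * u y) =
        11 * κ10 + ∫ z in (0 : ℝ)..y, z ^ 11 * φ z) ∧
      ∀ y ∈ Ioo 0 Y, u y = α * y + κ9 / y ^ 9 + κ10 / y ^ 10 +
        y ^ 2 * ∫ r in (0 : ℝ)..1, ker r * φ (r * y) := by
  have hbn : ∀ n : ℕ, ∃ Mn, ∀ y ∈ Ioo 0 Y, |y ^ n * φ y| ≤ Mn := by
    intro n
    refine ⟨Y ^ n * M, fun y hy => ?_⟩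
    rw [abs_mul, abs_of_pos (pow_pos hy.1 n)]
    have h1 : y ^ n ≤ Y ^ n := pow_le_pow_left₀ hy.1.le hy.2.le n
    have hM : 0 ≤ M := (abs_nonneg _).trans (hb y hy)
    exact mul_le_mul h1 (hb y hy) (abs_nonneg _) (pow_nonneg (hy.1.le.trans hy.2.le) n)
  have hcn : ∀ n : ℕ, ContinuousOn (fun y => y ^ n * φ y) (Ioo 0 Y) := fun n => by fun_prop
  obtain ⟨M10, hM10⟩ := hbn 10
  obtain ⟨M11, hM11⟩ := hbn 11
  -- a / y
  obtain ⟨Ca, hCa⟩ := const_of_deriv (Y := Y)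
    (f := fun y => (y ^ 2 * u2 y + 20 * y * u1 y + 90 * u y) / y - ∫ z in (0 : ℝ)..y, φ z) (by
      intro y hy
      have hy0 : y ≠ 0 := hy.1.ne'
      have e := ((((((hasDerivAt_id y).pow 2).mul (h2 y hy)).add
        (((hasDerivAt_id y).const_mul 20).mul (h1 y hy))).add
          ((h0 y hy).const_mul 90)).div (hasDerivAt_id y) hy0).sub (hasDerivAt_prim hc hb hy)
      refine e.congr_deriv ?_
      have := hode y hy
      simp only [id, Pi.pow_apply, Pi.mul_apply, Pi.add_apply]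
      field_simp
      ring_nf
      ring_nf at this
      linear_combination this)
  obtain ⟨Cb, hCb⟩ := const_of_deriv (Y := Y)
    (f := fun y => y ^ 9 * (y ^ 2 * u2 y + 10 * y * u1 y - 10 * u y) -
      ∫ z in (0 : ℝ)..y, z ^ 10 * φ z) (by
      intro y hy
      have e := (((hasDerivAt_id y).pow 9).mul
        (((((hasDerivAt_id y).pow 2).mul (h2 y hy)).add
        (((hasDerivAt_id y).const_mul 10).mul (h1 y hy))).sub
          ((h0 y hy).const_mul 10))).sub (hasDerivAt_prim (hcn 10) hM10 hy)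
      refine e.congr_deriv ?_
      have := hode y hy
      simp only [id, Pi.pow_apply, Pi.mul_apply, Pi.add_apply, Pi.sub_apply]
      ring_nf
      ring_nf at this
      linear_combination y ^ 8 * this)
  obtain ⟨Cd, hCd⟩ := const_of_deriv (Y := Y)
    (f := fun y => y ^ 10 * (y ^ 2 * u2 y + 9 * y * u1 y - 9 * u y) -
      ∫ z in (0 : ℝ)..y, z ^ 11 * φ z) (by
      intro y hy
      have e := (((hasDerivAt_id y).pow 10).mul
        (((((hasDerivAt_id y).pow 2).mul (h2 y hy)).add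
        (((hasDerivAt_id y).const_mul 9).mul (h1 y hy))).sub
          ((h0 y hy).const_mul 9))).sub (hasDerivAt_prim (hcn 11) hM11 hy)
      refine e.congr_deriv ?_
      have := hode y hy
      simp only [id, Pi.pow_apply, Pi.mul_apply, Pi.add_apply, Pi.sub_apply]
      ring_nf
      ring_nf at this
      linear_combination y ^ 9 * this)
  have ea : ∀ y ∈ Ioo 0 Y, y ^ 2 * u2 y + 20 * y * u1 y + 90 * u y =
      y * (110 * (Ca / 110) + ∫ z in (0 : ℝ)..y, φ z) := by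
    intro y hy
    have hy0 : y ≠ 0 := hy.1.ne'
    have := hCa y hy
    rw [sub_eq_iff_eq_add, div_eq_iff hy0] at this
    rw [this]; ring
  have eb : ∀ y ∈ Ioo 0 Y, y ^ 9 * (y ^ 2 * u2 y + 10 * y * u1 y - 10 * u y) =
      -10 * (-Cb / 10) + ∫ z in (0 : ℝ)..y, z ^ 10 * φ z := by
    intro y hy
    have := hCb y hy
    linear_combination this
  have ed : ∀ y ∈ Ioo 0 Y, y ^ 10 * (y ^ 2 * u2 y + 9 * y * u1 y - 9 * u y) =
      11 * (Cd / 11) + ∫ z in (0 : ℝ)..y, z ^ 11 * φ z := by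
    intro y hy
    have := hCd y hy
    linear_combination this
  refine ⟨Ca / 110, -Cb / 10, Cd / 11, ea, eb, ed, ?_⟩
  intro y hy
  have hy0 : y ≠ 0 := hy.1.ne'
  have e1 := ea y hy
  have e2 := eb y hy
  have e3 := ed y hy
  have s0 := scale_int φ hy.1.ne' 0
  have s10 := scale_int φ hy.1.ne' 10
  have s11 := scale_int φ hy.1.ne' 11
  simp only [pow_zero, one_mul, zero_add, pow_one] at s0
  rw [s0] at e1
  rw [s10] at e2
  rw [s11] at e3
  have hint : ∀ n : ℕ, IntervalIntegrable (fun r => r ^ n * φ (r * y)) volume 0 1 := by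
    intro n
    rw [intervalIntegrable_iff_integrableOn_Ioo_of_le zero_le_one]
    refine Integrable.of_bound (C := M) ?_ ?_
    · have : ContinuousOn (fun r => r ^ n * φ (r * y)) (Ioo 0 1) := by
        refine ContinuousOn.mul (by fun_prop) (hc.comp (by fun_prop) ?_)
        intro r hr
        exact ⟨mul_pos hr.1 hy.1, by nlinarith [hr.1, hr.2, hy.1, hy.2]⟩
      exact this.aestronglyMeasurable measurableSet_Ioo
    · refine (ae_restrict_iff' measurableSet_Ioo).2 (Eventually.of_forall fun r hr => ?_)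
      have hm : r * y ∈ Ioo 0 Y := ⟨mul_pos hr.1 hy.1, by nlinarith [hr.1, hr.2, hy.1, hy.2]⟩
      rw [Real.norm_eq_abs, abs_mul, abs_of_pos (pow_pos hr.1 n)]
      have h1 : r ^ n ≤ 1 := pow_le_one₀ hr.1.le hr.2.le
      calc r ^ n * |φ (r * y)| ≤ 1 * M :=
            mul_le_mul h1 (hb _ hm) (abs_nonneg _) zero_le_one
        _ = M := one_mul M
  have hk : ∫ r in (0 : ℝ)..1, ker r * φ (r * y) =
      (∫ r in (0 : ℝ)..1, φ (r * y)) / 110 - (∫ r in (0 : ℝ)..1, r ^ 10 * φ (r * y)) / 10 +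
      (∫ r in (0 : ℝ)..1, r ^ 11 * φ (r * y)) / 11 := by
    have i0 := hint 0
    simp only [pow_zero, one_mul] at i0
    rw [← intervalIntegral.integral_div, ← intervalIntegral.integral_div,
      ← intervalIntegral.integral_div, ← intervalIntegral.integral_sub (i0.div_const _)
        ((hint 10).div_const _), ← intervalIntegral.integral_add
        ((i0.div_const _).sub ((hint 10).div_const _)) ((hint 11).div_const _)]
    congr 1; ext r; unfold ker; ring
  rw [hk]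
  have k9 : -Cb / 10 / y ^ 9 = (y ^ 2 * (∫ r in (0 : ℝ)..1, r ^ 10 * φ (r * y)) -
      (y ^ 2 * u2 y + 10 * y * u1 y - 10 * u y)) / 10 := by
    rw [div_eq_iff (pow_ne_zero 9 hy0)]
    linear_combination (1 / 10) * e2
  have k10 : Cd / 11 / y ^ 10 = ((y ^ 2 * u2 y + 9 * y * u1 y - 9 * u y) -
      y ^ 2 * (∫ r in (0 : ℝ)..1, r ^ 11 * φ (r * y))) / 11 := by
    rw [div_eq_iff (pow_ne_zero 10 hy0)]
    linear_combination (-1 / 11) * e3
  rw [k9, k10]
  linear_combination (1 / 110) * e1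

end Crest.Agent.R213.EZ
end
end

-- ▼ part R213/E/ZeroBoot
section

/-!
# Row 213, part E: Volterra operator at `0`: gain of one derivative, bootstrap
-/

set_option autoImplicit false

open Set Filter Topology MeasureTheory intervalIntegral

noncomputable section

namespace Crest.Agent.R213.EZ

/-- the kernel of `d/dy (y² ∫ ker φ) = y ∫ ker1 φ`. -/
def ker1 (r : ℝ) : ℝ := 1 / 110 + 9 / 10 * r ^ 10 - 10 / 11 * r ^ 11


/-- the Volterra operator. -/
def VO (φ : ℝ → ℝ) (y : ℝ) : ℝ := y ^ 2 * ∫ r in (0 : ℝ)..1, ker r * φ (r * y)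

lemma mul_mem_sym {ε y r : ℝ} (hy : y ∈ Ioo (-ε) ε) (hr : r ∈ Icc (0 : ℝ) 1) :
    r * y ∈ Ioo (-ε) ε := by
  rcases le_total 0 y with h | h
  · exact ⟨by nlinarith [hy.1, hy.2, hr.1, hr.2, mul_nonneg hr.1 h],
      by nlinarith [hy.1, hy.2, hr.1, hr.2, mul_nonneg hr.1 h]⟩
  · exact ⟨by nlinarith [hy.1, hy.2, hr.1, hr.2, mul_nonneg hr.1 (neg_nonneg.2 h)],
      by nlinarith [hy.1, hy.2, hr.1, hr.2, mul_nonneg hr.1 (neg_nonneg.2 h)]⟩

/-- parametric integrals keep `C^n`. -/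
lemma contDiffOn_avg {φ w : ℝ → ℝ} {ε : ℝ} (n : ℕ) (hw : ContDiff ℝ n w)
    (hφ : ContDiffOn ℝ n φ (Ioo (-ε) ε)) :
    ContDiffOn ℝ n (fun y => ∫ r in (0 : ℝ)..1, w r * φ (r * y)) (Ioo (-ε) ε) := by
  have h := ParamInt.contDiffOn_param_nat (E := ℝ) (V := ℝ) (convex_Ioo (-ε) ε) (uniqueDiffOn_Ioo (-ε) ε)
    (zero_lt_one' ℝ) n (g := fun p : ℝ × ℝ => w p.2 * φ (p.2 * p.1)) (by
      refine ContDiffOn.mul (hw.comp contDiff_snd).contDiffOn ?_
      refine hφ.comp (by fun_prop) ?_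
      rintro ⟨y, r⟩ ⟨hy, hr⟩
      exact mul_mem_sym hy hr)
  exact h

lemma cont_avg {φ w : ℝ → ℝ} {ε : ℝ} (hw : Continuous w) (hφ : ContinuousOn φ (Ioo (-ε) ε)) :
    ContinuousOn (fun y => ∫ r in (0 : ℝ)..1, w r * φ (r * y)) (Ioo (-ε) ε) := by
  have h := contDiffOn_avg (φ := φ) (w := w) (ε := ε) 0 (by exact_mod_cast (contDiff_zero (𝕜 := ℝ)).2 hw)
    (by exact_mod_cast (contDiffOn_zero (𝕜 := ℝ)).2 hφ)
  exact h.continuousOn

lemma intervalIntegrable_sym {φ : ℝ → ℝ} {ε y : ℝ} (hφ : ContinuousOn φ (Ioo (-ε) ε))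
    (hy : y ∈ Ioo (-ε) ε) : IntervalIntegrable φ volume 0 y := by
  apply ContinuousOn.intervalIntegrable
  refine hφ.mono ?_
  have h0 : (0 : ℝ) ∈ Ioo (-ε) ε := ⟨by linarith [hy.1, hy.2], by linarith [hy.1, hy.2]⟩
  exact (convex_Ioo (-ε) ε).ordConnected.uIcc_subset h0 hy

lemma hasDerivAt_prim_sym {φ : ℝ → ℝ} {ε y : ℝ} (hφ : ContinuousOn φ (Ioo (-ε) ε))
    (hy : y ∈ Ioo (-ε) ε) : HasDerivAt (fun y => ∫ z in (0 : ℝ)..y, φ z) (φ y) y := by
  refine intervalIntegral.integral_hasDerivAt_right (intervalIntegrable_sym hφ hy) ?_ ?_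
  · exact hφ.stronglyMeasurableAtFilter isOpen_Ioo y hy
  · exact hφ.continuousAt (isOpen_Ioo.mem_nhds hy)

lemma int_ker_split {φ : ℝ → ℝ} {ε y : ℝ} (hφ : ContinuousOn φ (Ioo (-ε) ε))
    (hy : y ∈ Ioo (-ε) ε) (a b d : ℝ) :
    ∫ r in (0 : ℝ)..1, (a + b * r ^ 10 + d * r ^ 11) * φ (r * y) =
      a * (∫ r in (0 : ℝ)..1, φ (r * y)) + b * (∫ r in (0 : ℝ)..1, r ^ 10 * φ (r * y)) +
      d * (∫ r in (0 : ℝ)..1, r ^ 11 * φ (r * y)) := by
  have hc : ContinuousOn (fun r => φ (r * y)) (uIcc 0 1) := by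
    rw [uIcc_of_le zero_le_one]
    exact hφ.comp (by fun_prop) (fun r hr => mul_mem_sym hy hr)
  have i0 : IntervalIntegrable (fun r => φ (r * y)) volume 0 1 := hc.intervalIntegrable
  have i10 : IntervalIntegrable (fun r => r ^ 10 * φ (r * y)) volume 0 1 :=
    ContinuousOn.intervalIntegrable (ContinuousOn.mul (by fun_prop) hc)
  have i11 : IntervalIntegrable (fun r => r ^ 11 * φ (r * y)) volume 0 1 :=
    ContinuousOn.intervalIntegrable (ContinuousOn.mul (by fun_prop) hc)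
  rw [← intervalIntegral.integral_const_mul, ← intervalIntegral.integral_const_mul,
    ← intervalIntegral.integral_const_mul, ← intervalIntegral.integral_add (i0.const_mul _)
      (i10.const_mul _), ← intervalIntegral.integral_add ((i0.const_mul _).add (i10.const_mul _))
      (i11.const_mul _)]
  congr 1; ext r; ring

/-- `(y² ∫ ker φ)' = y ∫ ker1 φ`. -/
theorem hasDerivAt_VO {φ : ℝ → ℝ} {ε : ℝ} (hφ : ContinuousOn φ (Ioo (-ε) ε)) {y : ℝ}
    (hy : y ∈ Ioo (-ε) ε) :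
    HasDerivAt (VO φ) (y * ∫ r in (0 : ℝ)..1, ker1 r * φ (r * y)) y := by
  rcases eq_or_ne y 0 with rfl | hy0
  · -- at `0`
    rw [zero_mul]
    have hc : ContinuousAt (fun y => ∫ r in (0 : ℝ)..1, ker r * φ (r * y)) 0 :=
      (cont_avg ker_cont hφ).continuousAt (isOpen_Ioo.mem_nhds hy)
    have : HasDerivAt (fun y : ℝ => y * (y * ∫ r in (0 : ℝ)..1, ker r * φ (r * y)))
        (0 * ∫ r in (0 : ℝ)..1, ker r * φ (r * 0)) 0 := by
      have hd : HasDerivAt (fun y : ℝ => y * (y * ∫ r in (0 : ℝ)..1, ker r * φ (r * y)))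
        ((0 : ℝ) * ∫ r in (0 : ℝ)..1, ker r * φ (r * 0)) 0 := by
        rw [hasDerivAt_iff_tendsto_slope]
        have h1 : Tendsto (fun y : ℝ => y * ∫ r in (0 : ℝ)..1, ker r * φ (r * y)) (𝓝[≠] 0)
            (𝓝 (0 * ∫ r in (0 : ℝ)..1, ker r * φ (r * 0))) :=
          ((continuousAt_id.mul hc).tendsto).mono_left nhdsWithin_le_nhds
        refine h1.congr' ?_
        filter_upwards [self_mem_nhdsWithin] with z hz
        have hz' : z ≠ 0 := hz
        rw [slope_def_field]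
        field_simp
        ring
      exact hd
    rw [zero_mul] at this
    refine this.congr_of_eventuallyEq (Eventually.of_forall fun z => ?_)
    simp only [VO]; ring
  · -- away from `0`
    have hev : VO φ =ᶠ[𝓝 y] fun y => (1 / 110) * (y * ∫ z in (0 : ℝ)..y, φ z) -
        (1 / 10) * ((∫ z in (0 : ℝ)..y, z ^ 10 * φ z) / y ^ 9) +
        (1 / 11) * ((∫ z in (0 : ℝ)..y, z ^ 11 * φ z) / y ^ 10) := by
      filter_upwards [isOpen_Ioo.mem_nhds hy, isOpen_ne.mem_nhds hy0] with z hz hz0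
      have hz0' : z ≠ 0 := hz0
      have s0 := scale_int φ hz0' 0
      simp only [pow_zero, one_mul, zero_add, pow_one] at s0
      rw [s0, scale_int φ hz0' 10, scale_int φ hz0' 11]
      have := int_ker_split hφ hz (1 / 110) (-1 / 10) (1 / 11)
      have e : ∫ r in (0 : ℝ)..1, ker r * φ (r * z) =
          ∫ r in (0 : ℝ)..1, (1 / 110 + -1 / 10 * r ^ 10 + 1 / 11 * r ^ 11) * φ (r * z) := by
        congr 1; ext r; unfold ker; ring
      unfold VO
      rw [e, this]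
      field_simp
      ring
    refine HasDerivAt.congr_of_eventuallyEq ?_ hev
    have hc10 : ContinuousOn (fun z => z ^ 10 * φ z) (Ioo (-ε) ε) := by fun_prop
    have hc11 : ContinuousOn (fun z => z ^ 11 * φ z) (Ioo (-ε) ε) := by fun_prop
    have d0 := ((hasDerivAt_id y).mul (hasDerivAt_prim_sym hφ hy)).const_mul (1 / 110)
    have d1 := ((hasDerivAt_prim_sym hc10 hy).div ((hasDerivAt_id y).pow 9)
      (pow_ne_zero 9 hy0)).const_mul (1 / 10)
    have d2 := ((hasDerivAt_prim_sym hc11 hy).div ((hasDerivAt_id y).pow 10)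
      (pow_ne_zero 10 hy0)).const_mul (1 / 11)
    refine ((d0.sub d1).add d2).congr_deriv ?_
    have e : ∫ r in (0 : ℝ)..1, ker1 r * φ (r * y) =
        ∫ r in (0 : ℝ)..1, (1 / 110 + 9 / 10 * r ^ 10 + -10 / 11 * r ^ 11) * φ (r * y) := by
      congr 1; ext r; unfold ker1; ring
    rw [e, int_ker_split hφ hy]
    have s0 := scale_int φ hy0 0
    simp only [pow_zero, one_mul, zero_add, pow_one] at s0
    simp only [id, Pi.pow_apply]
    rw [s0, scale_int φ hy0 10, scale_int φ hy0 11]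
    field_simp
    ring

/-- `φ ∈ C^n ⇒ VO φ ∈ C^{n+1}`. -/
theorem contDiffOn_VO {φ : ℝ → ℝ} {ε : ℝ} (n : ℕ) (hφ : ContDiffOn ℝ n φ (Ioo (-ε) ε)) :
    ContDiffOn ℝ (n + 1 : ℕ) (VO φ) (Ioo (-ε) ε) := by
  have hc := hφ.continuousOn
  have hd : ∀ y ∈ Ioo (-ε) ε, deriv (VO φ) y = y * ∫ r in (0 : ℝ)..1, ker1 r * φ (r * y) :=
    fun y hy => (hasDerivAt_VO hc hy).deriv
  push_cast
  rw [contDiffOn_succ_iff_deriv_of_isOpen isOpen_Ioo]
  refine ⟨fun y hy => (hasDerivAt_VO hc hy).differentiableAt.differentiableWithinAt,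
    by simp, ?_⟩
  have h1 : ContDiffOn ℝ n (fun y => y * ∫ r in (0 : ℝ)..1, ker1 r * φ (r * y)) (Ioo (-ε) ε) :=
    contDiffOn_id.mul (contDiffOn_avg n (by unfold ker1; fun_prop) hφ)
  exact h1.congr hd

/-- Bootstrap: a continuous solution of `u = αy + VO (Ψ ∘ u)` on `(-ε,ε)` is `C^∞`. -/
theorem boot {u Ψ : ℝ → ℝ} {ε α : ℝ} (hΨ : ContDiff ℝ (⊤ : ℕ∞) Ψ)
    (hu : ContinuousOn u (Ioo (-ε) ε))
    (he : ∀ y ∈ Ioo (-ε) ε, u y = α * y + VO (fun z => Ψ (u z)) y) :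
    ContDiffOn ℝ (⊤ : ℕ∞) u (Ioo (-ε) ε) := by
  rw [contDiffOn_infty]
  intro n
  induction n with
  | zero => exact_mod_cast (contDiffOn_zero (𝕜 := ℝ)).2 hu
  | succ n ih =>
    have h1 : ContDiffOn ℝ n (fun z => Ψ (u z)) (Ioo (-ε) ε) :=
      (hΨ.of_le (by exact_mod_cast le_top)).comp_contDiffOn ih
    have h2 : ContDiffOn ℝ (n + 1 : ℕ) (fun y => α * y + VO (fun z => Ψ (u z)) y) (Ioo (-ε) ε) :=
      (contDiffOn_const.mul contDiffOn_id).add (contDiffOn_VO n h1)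
    exact h2.congr he

end Crest.Agent.R213.EZ
end
end

-- ▼ part R213/E/ZeroFix
section

/-!
# Row 213, part E: contraction on `[-ε, ε]` and smooth extension through `0`
-/

set_option autoImplicit false

open Set Filter Topology MeasureTheory intervalIntegral
open scoped BoundedContinuousFunction NNReal

noncomputable section

namespace Crest.Agent.R213.EZ

lemma ker_abs {r : ℝ} (hr : r ∈ Icc (0 : ℝ) 1) : |ker r| ≤ 1 / 4 := by
  have h10 : r ^ 10 ≤ 1 := pow_le_one₀ hr.1 hr.2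
  have h11 : r ^ 11 ≤ 1 := pow_le_one₀ hr.1 hr.2
  have h10' : 0 ≤ r ^ 10 := pow_nonneg hr.1 10
  have h11' : 0 ≤ r ^ 11 := pow_nonneg hr.1 11
  unfold ker
  rw [abs_le]; constructor <;> linarith

/-- clip to `[-ε, ε]`. -/
def clip (ε y : ℝ) : ℝ := max (-ε) (min ε y)

lemma clip_cont (ε : ℝ) : Continuous (clip ε) := by unfold clip; fun_prop

lemma clip_eq {ε y : ℝ} (hy : y ∈ Icc (-ε) ε) : clip ε y = y := by
  unfold clip; rw [min_eq_right hy.2, max_eq_right hy.1]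

lemma clip_mem {ε : ℝ} (hε : 0 ≤ ε) (y : ℝ) : clip ε y ∈ Icc (-ε) ε := by
  unfold clip
  exact ⟨le_max_left _ _, max_le (by linarith) (min_le_left _ _)⟩

lemma clip_sq {ε : ℝ} (hε : 0 ≤ ε) (y : ℝ) : clip ε y ^ 2 ≤ ε ^ 2 := by
  have := clip_mem hε y
  exact sq_le_sq' (by linarith [this.1]) this.2

/-- the integral operator inside. -/
def IO (Ψ : ℝ → ℝ) (ε : ℝ) (u : ℝ → ℝ) (y : ℝ) : ℝ :=
  ∫ r in (0 : ℝ)..1, ker r * Ψ (u (r * clip ε y))

lemma IO_cont {Ψ : ℝ → ℝ} (hΨ : Continuous Ψ) (ε : ℝ) {u : ℝ → ℝ} (hu : Continuous u) :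
    Continuous (IO Ψ ε u) := by
  unfold IO
  refine intervalIntegral.continuous_parametric_intervalIntegral_of_continuous' ?_ 0 1
  have := clip_cont ε
  have := ker_cont
  fun_prop

lemma IO_bdd {Ψ : ℝ → ℝ} {B : ℝ} (hB : ∀ v, |Ψ v| ≤ B) (ε : ℝ) (u : ℝ → ℝ) (y : ℝ) :
    |IO Ψ ε u y| ≤ B := by
  have hB0 : 0 ≤ B := (abs_nonneg _).trans (hB 0)
  have := intervalIntegral.norm_integral_le_of_norm_le_const (a := 0) (b := 1) (C := B)
    (f := fun r => ker r * Ψ (u (r * clip ε y))) (by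
      intro r hr
      rw [uIoc_of_le zero_le_one] at hr
      rw [Real.norm_eq_abs, abs_mul]
      calc |ker r| * |Ψ (u (r * clip ε y))| ≤ 1 / 4 * B :=
            mul_le_mul (ker_abs ⟨hr.1.le, hr.2⟩) (hB _) (abs_nonneg _) (by norm_num)
        _ ≤ B := by linarith)
  simpa [IO] using this

lemma IO_diff {Ψ : ℝ → ℝ} (hΨ : Continuous Ψ) {K : ℝ≥0} (hK : LipschitzWith K Ψ) (ε : ℝ)
    {u v : ℝ → ℝ} (hu : Continuous u) (hv : Continuous v) {M : ℝ}
    (hM : ∀ y, |u y - v y| ≤ M) (y : ℝ) :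
    |IO Ψ ε u y - IO Ψ ε v y| ≤ K * M / 4 := by
  have hM0 : 0 ≤ M := (abs_nonneg _).trans (hM 0)
  have hcu : Continuous fun r => ker r * Ψ (u (r * clip ε y)) := by
    have := ker_cont; fun_prop
  have hcv : Continuous fun r => ker r * Ψ (v (r * clip ε y)) := by
    have := ker_cont; fun_prop
  unfold IO
  rw [← intervalIntegral.integral_sub (hcu.intervalIntegrable _ _) (hcv.intervalIntegrable _ _)]
  have := intervalIntegral.norm_integral_le_of_norm_le_const (a := 0) (b := 1) (C := K * M / 4)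
    (f := fun r => ker r * Ψ (u (r * clip ε y)) - ker r * Ψ (v (r * clip ε y))) (by
      intro r hr
      rw [uIoc_of_le zero_le_one] at hr
      rw [Real.norm_eq_abs, ← mul_sub, abs_mul]
      have h1 : |Ψ (u (r * clip ε y)) - Ψ (v (r * clip ε y))| ≤ K * M := by
        have := hK.dist_le_mul (u (r * clip ε y)) (v (r * clip ε y))
        rw [Real.dist_eq, Real.dist_eq] at this
        exact this.trans (mul_le_mul_of_nonneg_left (hM _) K.coe_nonneg)
      calc |ker r| * |Ψ (u (r * clip ε y)) - Ψ (v (r * clip ε y))| ≤ 1 / 4 * (K * M) :=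
            mul_le_mul (ker_abs ⟨hr.1.le, hr.2⟩) h1 (abs_nonneg _) (by norm_num)
        _ = K * M / 4 := by ring)
  simpa using this

/-- Existence of a continuous solution on `[-ε, ε]`. -/
theorem exists_fix {Ψ : ℝ → ℝ} (hΨ : Continuous Ψ) {K : ℝ≥0} (hK : LipschitzWith K Ψ) {B : ℝ}
    (hB : ∀ v, |Ψ v| ≤ B) (α : ℝ) {ε : ℝ} (hε : 0 < ε) (hεK : ε ^ 2 * K ≤ 1) :
    ∃ u : ℝ → ℝ, Continuous u ∧
      ∀ y ∈ Icc (-ε) ε, u y = α * y + VO (fun z => Ψ (u z)) y := by
  classical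
  let T : (ℝ →ᵇ ℝ) → (ℝ →ᵇ ℝ) := fun u =>
    BoundedContinuousFunction.ofNormedAddCommGroup
      (fun y => α * clip ε y + clip ε y ^ 2 * IO Ψ ε u y)
      (by
        have := clip_cont ε
        have := IO_cont hΨ ε u.continuous
        fun_prop)
      (|α| * ε + ε ^ 2 * B) (by
        intro y
        have h1 : |clip ε y| ≤ ε := abs_le.2 ⟨(clip_mem hε.le y).1, (clip_mem hε.le y).2⟩
        have hB0 : 0 ≤ B := (abs_nonneg _).trans (hB 0)
        calc ‖α * clip ε y + clip ε y ^ 2 * IO Ψ ε u y‖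
            ≤ ‖α * clip ε y‖ + ‖clip ε y ^ 2 * IO Ψ ε u y‖ := norm_add_le _ _
          _ ≤ |α| * ε + ε ^ 2 * B := by
            rw [Real.norm_eq_abs, Real.norm_eq_abs, abs_mul, abs_mul,
              abs_of_nonneg (sq_nonneg (clip ε y))]
            exact add_le_add (mul_le_mul_of_nonneg_left h1 (abs_nonneg _))
              (mul_le_mul (clip_sq hε.le y) (IO_bdd hB ε u y) (abs_nonneg _) (sq_nonneg _)))
  have hT : ContractingWith (1 / 4) T := by
    refine ⟨by norm_num, LipschitzWith.of_dist_le_mul fun u v => ?_⟩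
    rw [BoundedContinuousFunction.dist_le (by positivity)]
    intro y
    have hd : ∀ z, |u z - v z| ≤ dist u v := fun z => by
      have := BoundedContinuousFunction.dist_coe_le_dist (f := u) (g := v) z
      rwa [Real.dist_eq] at this
    have h2 := IO_diff hΨ hK ε u.continuous v.continuous hd y
    show dist (α * clip ε y + clip ε y ^ 2 * IO Ψ ε u y)
      (α * clip ε y + clip ε y ^ 2 * IO Ψ ε v y) ≤ _
    rw [Real.dist_eq]
    have e : α * clip ε y + clip ε y ^ 2 * IO Ψ ε u y -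
      (α * clip ε y + clip ε y ^ 2 * IO Ψ ε v y) =
        clip ε y ^ 2 * (IO Ψ ε u y - IO Ψ ε v y) := by ring
    rw [e, abs_mul, abs_of_nonneg (sq_nonneg (clip ε y))]
    have hdn : 0 ≤ dist u v := dist_nonneg
    calc clip ε y ^ 2 * |IO Ψ ε u y - IO Ψ ε v y| ≤ ε ^ 2 * (K * dist u v / 4) :=
          mul_le_mul (clip_sq hε.le y) h2 (abs_nonneg _) (sq_nonneg _)
      _ = (ε ^ 2 * K) * dist u v / 4 := by ring
      _ ≤ 1 * dist u v / 4 := by
          have := mul_le_mul_of_nonneg_right hεK hdn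
          linarith
      _ = ((1 / 4 : ℝ≥0) : ℝ) * dist u v := by push_cast; ring
  have hfix : T (ContractingWith.fixedPoint T hT) = ContractingWith.fixedPoint T hT :=
    hT.fixedPoint_isFixedPt
  obtain ⟨u, hu⟩ : ∃ u : ℝ →ᵇ ℝ, T u = u := ⟨_, hfix⟩
  refine ⟨fun y => u y, u.continuous, ?_⟩
  intro y hy
  have h : T u y = u y := congrArg (fun f : ℝ →ᵇ ℝ => f y) hu
  have h' : α * clip ε y + clip ε y ^ 2 * IO Ψ ε u y = u y := h
  unfold IO at h'
  rw [clip_eq hy] at h'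
  exact h'.symm

/-- Uniqueness on `(0, ε]` in the class of bounded continuous solutions. -/
theorem fix_unique {Ψ : ℝ → ℝ} (hΨ : Continuous Ψ) {K : ℝ≥0} (hK : LipschitzWith K Ψ) {α ε : ℝ}
    (hεK : ε ^ 2 * K ≤ 1) {u v : ℝ → ℝ} {M : ℝ}
    (hu : ContinuousOn u (Ioc 0 ε)) (hv : ContinuousOn v (Ioc 0 ε))
    (hbu : ∀ y ∈ Ioc 0 ε, |u y| ≤ M) (hbv : ∀ y ∈ Ioc 0 ε, |v y| ≤ M)
    (heu : ∀ y ∈ Ioc 0 ε, u y = α * y + VO (fun z => Ψ (u z)) y)
    (hev : ∀ y ∈ Ioc 0 ε, v y = α * y + VO (fun z => Ψ (v z)) y) :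
    ∀ y ∈ Ioc 0 ε, u y = v y := by
  have hstep : ∀ D : ℝ, (∀ y ∈ Ioc 0 ε, |u y - v y| ≤ D) → ∀ y ∈ Ioc 0 ε, |u y - v y| ≤ D / 4 := by
    intro D hD y hy
    have hD0 : 0 ≤ D := (abs_nonneg _).trans (hD y hy)
    have hmem : ∀ r ∈ Ioc (0 : ℝ) 1, r * y ∈ Ioc 0 ε := fun r hr =>
      ⟨mul_pos hr.1 hy.1, by nlinarith [hr.1, hr.2, hy.1, hy.2]⟩
    have hint : ∀ w : ℝ → ℝ, ContinuousOn w (Ioc 0 ε) → (∀ y ∈ Ioc 0 ε, |w y| ≤ M) →
        IntervalIntegrable (fun r => ker r * Ψ (w (r * y))) volume 0 1 := by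
      intro w hw hbw
      rw [intervalIntegrable_iff_integrableOn_Ioc_of_le zero_le_one]
      obtain ⟨C, hC⟩ := (isCompact_Icc (a := -M) (b := M)).exists_bound_of_continuousOn
        hΨ.continuousOn
      refine Integrable.of_bound (C := 1 / 4 * C) ?_ ?_
      · have hcc : ContinuousOn (fun r => ker r * Ψ (w (r * y))) (Ioc 0 1) :=
          ker_cont.continuousOn.mul (hΨ.comp_continuousOn (hw.comp (by fun_prop) hmem))
        exact hcc.aestronglyMeasurable measurableSet_Ioc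
      · refine (ae_restrict_iff' measurableSet_Ioc).2 (Eventually.of_forall fun r hr => ?_)
        rw [norm_mul]
        exact mul_le_mul (by simpa using ker_abs ⟨hr.1.le, hr.2⟩)
          (hC _ (abs_le.1 (hbw _ (hmem r hr)))) (norm_nonneg _) (by norm_num)
    rw [heu y hy, hev y hy]
    unfold VO
    have e : α * y + y ^ 2 * (∫ r in (0 : ℝ)..1, ker r * Ψ (u (r * y))) -
        (α * y + y ^ 2 * ∫ r in (0 : ℝ)..1, ker r * Ψ (v (r * y))) =
        y ^ 2 * ((∫ r in (0 : ℝ)..1, ker r * Ψ (u (r * y))) -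
          ∫ r in (0 : ℝ)..1, ker r * Ψ (v (r * y))) := by ring
    rw [e, ← intervalIntegral.integral_sub (hint u hu hbu) (hint v hv hbv), abs_mul,
      abs_of_nonneg (sq_nonneg y)]
    have h2 := intervalIntegral.norm_integral_le_of_norm_le_const (a := 0) (b := 1)
      (C := K * D / 4)
      (f := fun r => ker r * Ψ (u (r * y)) - ker r * Ψ (v (r * y))) (by
        intro r hr
        rw [uIoc_of_le zero_le_one] at hr
        rw [Real.norm_eq_abs, ← mul_sub, abs_mul]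
        have h1 : |Ψ (u (r * y)) - Ψ (v (r * y))| ≤ K * D := by
          have := hK.dist_le_mul (u (r * y)) (v (r * y))
          rw [Real.dist_eq, Real.dist_eq] at this
          exact this.trans (mul_le_mul_of_nonneg_left (hD _ (hmem r hr)) K.coe_nonneg)
        calc |ker r| * |Ψ (u (r * y)) - Ψ (v (r * y))| ≤ 1 / 4 * (K * D) :=
              mul_le_mul (ker_abs ⟨hr.1.le, hr.2⟩) h1 (abs_nonneg _) (by norm_num)
          _ = K * D / 4 := by ring)
    have h3 : |∫ r in (0 : ℝ)..1, (ker r * Ψ (u (r * y)) - ker r * Ψ (v (r * y)))| ≤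
        K * D / 4 := by simpa using h2
    have hy2 : y ^ 2 ≤ ε ^ 2 := pow_le_pow_left₀ hy.1.le hy.2 2
    calc y ^ 2 * |∫ r in (0 : ℝ)..1, (ker r * Ψ (u (r * y)) - ker r * Ψ (v (r * y)))|
        ≤ ε ^ 2 * (K * D / 4) := mul_le_mul hy2 h3 (abs_nonneg _) (sq_nonneg _)
      _ = (ε ^ 2 * K) * D / 4 := by ring
      _ ≤ 1 * D / 4 := by
          have := mul_le_mul_of_nonneg_right hεK hD0
          linarith
      _ = D / 4 := by ring
  have hall : ∀ n : ℕ, ∀ y ∈ Ioc 0 ε, |u y - v y| ≤ (2 * M) * (1 / 4) ^ n := by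
    intro n
    induction n with
    | zero =>
      intro y hy
      have h1 := hbu y hy
      have h2 := hbv y hy
      have h3 := abs_sub (u y) (v y)
      simp only [pow_zero, mul_one]
      linarith
    | succ n ih =>
      intro y hy
      have := hstep _ ih y hy
      rw [pow_succ]; linarith
  intro y hy
  have hlim : Tendsto (fun n : ℕ => (2 * M) * (1 / 4 : ℝ) ^ n) atTop (𝓝 ((2 * M) * 0)) :=
    (tendsto_pow_atTop_nhds_zero_of_lt_one (by norm_num) (by norm_num)).const_mul _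
  rw [mul_zero] at hlim
  have : |u y - v y| ≤ 0 := ge_of_tendsto' hlim (fun n => hall n y hy)
  exact sub_eq_zero.1 (abs_eq_zero.1 (le_antisymm this (abs_nonneg _)))

end Crest.Agent.R213.EZ
end
end

-- ▼ part R213/E/ZeroMain
section

/-!
# Row 213, part E: behaviour of the profile at `y = 0` (E-ZERO)

`zero_main`: a positive smooth solution of the soliton equation on `(0,∞)` which is bounded and bounded
below near `0` extends to a `C^∞` function on `ℝ`, with value `1` and derivative `α` at `0`, where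
`g y = 1 + α y + VO (-(1/c - 1/g)/2) y`.
-/

set_option autoImplicit false

open Set Filter Topology MeasureTheory intervalIntegral
open scoped NNReal

noncomputable section

namespace Crest.Agent.R213.EZ

lemma ker_nonneg {r : ℝ} (hr : r ∈ Icc (0 : ℝ) 1) : 0 ≤ ker r := by
  have h0 := hr.1
  have h1 := hr.2
  have e : ker r = (1 - r) ^ 2 * ((1 + 2 * r + 3 * r ^ 2 + 4 * r ^ 3 + 5 * r ^ 4 + 6 * r ^ 5 +
      7 * r ^ 6 + 8 * r ^ 7 + 9 * r ^ 8 + 10 * r ^ 9) / 110) := by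
    unfold ker; ring
  rw [e]; positivity

lemma ker_int : ∫ r in (0 : ℝ)..1, ker r = 1 / 132 := by
  have h1 : IntervalIntegrable (fun r : ℝ => (1 : ℝ) / 110) volume 0 1 := by simp
  have h2 : IntervalIntegrable (fun r : ℝ => r ^ 10 / 10) volume 0 1 :=
    (by fun_prop : Continuous fun r : ℝ => r ^ 10 / 10).intervalIntegrable _ _
  have h3 : IntervalIntegrable (fun r : ℝ => r ^ 11 / 11) volume 0 1 :=
    (by fun_prop : Continuous fun r : ℝ => r ^ 11 / 11).intervalIntegrable _ _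
  unfold ker
  rw [intervalIntegral.integral_add (h1.sub h2) h3, intervalIntegral.integral_sub h1 h2]
  simp only [intervalIntegral.integral_div, integral_pow, intervalIntegral.integral_const]
  norm_num

/-- bound of the average. -/
lemma avg_bdd {φ : ℝ → ℝ} {Y M : ℝ} (hb : ∀ y ∈ Ioo 0 Y, |φ y| ≤ M) {y : ℝ} (hy : y ∈ Ioo 0 Y) :
    |∫ r in (0 : ℝ)..1, ker r * φ (r * y)| ≤ M := by
  have hM : 0 ≤ M := (abs_nonneg _).trans (hb y hy)
  have := intervalIntegral.norm_integral_le_of_norm_le_const (a := 0) (b := 1) (C := M)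
    (f := fun r => ker r * φ (r * y)) (by
      intro r hr
      rw [uIoc_of_le zero_le_one] at hr
      rw [Real.norm_eq_abs, abs_mul]
      have hm : r * y ∈ Ioo 0 Y := ⟨mul_pos hr.1 hy.1, by nlinarith [hr.1, hr.2, hy.1, hy.2]⟩
      calc |ker r| * |φ (r * y)| ≤ 1 / 4 * M :=
            mul_le_mul (ker_abs ⟨hr.1.le, hr.2⟩) (hb _ hm) (abs_nonneg _) (by norm_num)
        _ ≤ M := by linarith)
  simpa using this

lemma eq_zero_of_le_mul {κ K b : ℝ} (hb : 0 < b) (h : ∀ y ∈ Ioo 0 b, |κ| ≤ K * y) : κ = 0 := by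
  have h1 : Tendsto (fun y : ℝ => K * y) (𝓝[>] 0) (𝓝 (K * 0)) :=
    ((continuous_const.mul continuous_id).tendsto 0).mono_left nhdsWithin_le_nhds
  rw [mul_zero] at h1
  have h2 : ∀ᶠ y in 𝓝[>] (0 : ℝ), |κ| ≤ K * y := by
    filter_upwards [Ioo_mem_nhdsGT hb] with y hy using h y hy
  have : |κ| ≤ 0 := ge_of_tendsto h1 h2
  exact abs_eq_zero.1 (le_antisymm this (abs_nonneg _))

/-- the singular coefficients vanish for bounded solutions. -/
lemma kill {u I : ℝ → ℝ} {α κ9 κ10 b C M : ℝ} (hb : 0 < b) (hb1 : b ≤ 1)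
    (hu : ∀ y ∈ Ioo 0 b, |u y| ≤ C) (hI : ∀ y ∈ Ioo 0 b, |I y| ≤ M)
    (he : ∀ y ∈ Ioo 0 b, u y = α * y + κ9 / y ^ 9 + κ10 / y ^ 10 + y ^ 2 * I y) :
    κ9 = 0 ∧ κ10 = 0 := by
  have hpow : ∀ y ∈ Ioo 0 b, ∀ n : ℕ, y ^ (n + 1) ≤ y := fun y hy n => by
    have : y ^ n ≤ 1 := pow_le_one₀ hy.1.le (hy.2.le.trans hb1)
    rw [pow_succ]; nlinarith [hy.1]
  have hC : ∀ y ∈ Ioo 0 b, 0 ≤ C := fun y hy => (abs_nonneg _).trans (hu y hy)
  have hM : ∀ y ∈ Ioo 0 b, 0 ≤ M := fun y hy => (abs_nonneg _).trans (hI y hy)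
  have h10 : κ10 = 0 := by
    refine eq_zero_of_le_mul (K := C + |α| + |κ9| + M) hb fun y hy => ?_
    have hy0 : y ≠ 0 := hy.1.ne'
    have e : κ10 = y ^ 10 * u y - α * y ^ 11 - κ9 * y - y ^ 12 * I y := by
      rw [he y hy]; field_simp; ring
    have t1 : |y ^ 10 * u y| ≤ C * y := by
      rw [abs_mul, abs_of_pos (pow_pos hy.1 10), mul_comm]
      exact mul_le_mul (hu y hy) (hpow y hy 9) (pow_nonneg hy.1.le 10) (hC y hy)
    have t2 : |α * y ^ 11| ≤ |α| * y := by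
      rw [abs_mul, abs_of_pos (pow_pos hy.1 11)]
      exact mul_le_mul_of_nonneg_left (hpow y hy 10) (abs_nonneg _)
    have t3 : |κ9 * y| = |κ9| * y := by rw [abs_mul, abs_of_pos hy.1]
    have t4 : |y ^ 12 * I y| ≤ M * y := by
      rw [abs_mul, abs_of_pos (pow_pos hy.1 12), mul_comm]
      exact mul_le_mul (hI y hy) (hpow y hy 11) (pow_nonneg hy.1.le 12) (hM y hy)
    rw [e]
    have a1 := abs_sub (y ^ 10 * u y - α * y ^ 11 - κ9 * y) (y ^ 12 * I y)
    have a2 := abs_sub (y ^ 10 * u y - α * y ^ 11) (κ9 * y)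
    have a3 := abs_sub (y ^ 10 * u y) (α * y ^ 11)
    nlinarith
  refine ⟨?_, h10⟩
  refine eq_zero_of_le_mul (K := C + |α| + M) hb fun y hy => ?_
  have hy0 : y ≠ 0 := hy.1.ne'
  have e : κ9 = y ^ 9 * u y - α * y ^ 10 - y ^ 11 * I y := by
    rw [he y hy, h10]; field_simp; ring
  have t1 : |y ^ 9 * u y| ≤ C * y := by
    rw [abs_mul, abs_of_pos (pow_pos hy.1 9), mul_comm]
    exact mul_le_mul (hu y hy) (hpow y hy 8) (pow_nonneg hy.1.le 9) (hC y hy)
  have t2 : |α * y ^ 10| ≤ |α| * y := by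
    rw [abs_mul, abs_of_pos (pow_pos hy.1 10)]
    exact mul_le_mul_of_nonneg_left (hpow y hy 9) (abs_nonneg _)
  have t4 : |y ^ 11 * I y| ≤ M * y := by
    rw [abs_mul, abs_of_pos (pow_pos hy.1 11), mul_comm]
    exact mul_le_mul (hI y hy) (hpow y hy 10) (pow_nonneg hy.1.le 11) (hM y hy)
  rw [e]
  have a2 := abs_sub (y ^ 9 * u y - α * y ^ 10) (y ^ 11 * I y)
  have a3 := abs_sub (y ^ 9 * u y) (α * y ^ 10)
  nlinarith

lemma smooth_chain {g : ℝ → ℝ} (hg : ContDiffOn ℝ (⊤ : ℕ∞) g (Ioi 0)) (n : ℕ) :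
    ContDiffOn ℝ (⊤ : ℕ∞) (iteratedDeriv n g) (Ioi 0) ∧
    ∀ y ∈ Ioi (0 : ℝ), HasDerivAt (iteratedDeriv n g) (iteratedDeriv (n + 1) g y) y := by
  have key : ∀ n : ℕ, ContDiffOn ℝ (⊤ : ℕ∞) (iteratedDeriv n g) (Ioi 0) := by
    intro n
    induction n with
    | zero => simpa using hg
    | succ n ih =>
      rw [iteratedDeriv_succ]
      exact ((contDiffOn_infty_iff_deriv_of_isOpen isOpen_Ioi).1 ih).2
  refine ⟨key n, fun y hy => ?_⟩
  rw [iteratedDeriv_succ]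
  exact (((key n).differentiableOn (by simp)).differentiableAt (Ioi_mem_nhds hy)).hasDerivAt

/-- **E-ZERO, representation**: a positive solution on `(0,∞)`, bounded and bounded below near `0`. -/
theorem zero_rep {c : ℝ} {g : ℝ → ℝ} (hg : ContDiffOn ℝ (⊤ : ℕ∞) g (Ioi 0))
    (hpos : ∀ y, 0 < y → 0 < g y)
    (hode : ∀ y, 0 < y → y ^ 3 * iteratedDeriv 3 g y + 21 * y ^ 2 * iteratedDeriv 2 g y
      + 90 * y * deriv g y + 90 * (1 - g y) + y ^ 2 / 2 * (1 / c - 1 / g y) = 0)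
    {y0 δ C : ℝ} (hy0 : 0 < y0) (hδ : 0 < δ) (hlo : ∀ y ∈ Ioo 0 y0, δ ≤ g y)
    (hup : ∀ y ∈ Ioo 0 y0, g y ≤ C) :
    ∃ α : ℝ, ∀ y, 0 < y →
      g y = 1 + α * y + VO (fun z => -(1 / 2) * (1 / c - 1 / g z)) y := by
  set φ : ℝ → ℝ := fun z => -(1 / 2) * (1 / c - 1 / g z) with hφ
  have hgc : ContinuousOn g (Ioi 0) := hg.continuousOn
  have hφc : ContinuousOn φ (Ioi 0) := by
    have : ContinuousOn (fun z => 1 / g z) (Ioi 0) :=
      continuousOn_const.div hgc (fun z hz => (hpos z hz).ne')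
    exact continuousOn_const.mul (continuousOn_const.sub this)
  -- boundedness on `(0,Y)`
  have hbd : ∀ Y : ℝ, ∃ M, ∀ y ∈ Ioo 0 Y, |φ y| ≤ M := by
    intro Y
    obtain ⟨M1, hM1⟩ := (isCompact_Icc (a := y0 / 2) (b := Y)).exists_bound_of_continuousOn
      (hφc.mono fun z hz => lt_of_lt_of_le (by linarith : (0 : ℝ) < y0 / 2) hz.1)
    refine ⟨max M1 (1 / 2 * (|1 / c| + 1 / δ)), fun y hy => ?_⟩
    rcases lt_or_ge y (y0 / 2) with h | h
    · refine le_trans ?_ (le_max_right _ _)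
      have hgy : δ ≤ g y := hlo y ⟨hy.1, by linarith⟩
      have h1 : |1 / g y| ≤ 1 / δ := by
        rw [abs_of_pos (one_div_pos.2 (hpos y hy.1))]
        exact one_div_le_one_div_of_le hδ hgy
      simp only [hφ]
      rw [abs_mul, show |(-(1 / 2) : ℝ)| = 1 / 2 by norm_num [abs_of_neg]]
      have := abs_sub (1 / c) (1 / g y)
      nlinarith
    · exact (by simpa using hM1 y ⟨h, hy.2.le⟩ : |φ y| ≤ M1).trans (le_max_left _ _)
  have h0 := fun y (hy : y ∈ Ioi (0 : ℝ)) => ((smooth_chain hg 0).2 y hy)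
  have h1 := fun y (hy : y ∈ Ioi (0 : ℝ)) => ((smooth_chain hg 1).2 y hy)
  have h2 := fun y (hy : y ∈ Ioi (0 : ℝ)) => ((smooth_chain hg 2).2 y hy)
  simp only [iteratedDeriv_zero, zero_add, iteratedDeriv_one] at h0
  simp only [iteratedDeriv_one, Nat.reduceAdd] at h1
  simp only [Nat.reduceAdd] at h2
  -- the representation on `(0,Y)`
  have hrep : ∀ Y : ℝ, 0 < Y → ∃ α : ℝ, ∀ y ∈ Ioo 0 Y, g y = 1 + α * y + VO φ y := by
    intro Y hY
    obtain ⟨M, hM⟩ := hbd Y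
    obtain ⟨α, κ9, κ10, -, -, -, he⟩ := rep (u := fun y => g y - 1) (u1 := deriv g)
      (u2 := iteratedDeriv 2 g) (u3 := iteratedDeriv 3 g) (φ := φ) (Y := Y) (M := M)
      (fun y hy => (h0 y hy.1).sub_const 1) (fun y hy => h1 y hy.1) (fun y hy => h2 y hy.1)
      (hφc.mono fun z hz => hz.1) hM (fun y hy => by
        have := hode y hy.1
        simp only [hφ]
        linear_combination this)
    set b := min 1 (min Y y0)
    have hbpos : 0 < b := lt_min one_pos (lt_min hY hy0)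
    obtain ⟨e9, e10⟩ := kill (u := fun y => g y - 1)
      (I := fun y => ∫ r in (0 : ℝ)..1, ker r * φ (r * y)) (α := α) (κ9 := κ9) (κ10 := κ10)
      (b := b) (C := |C| + 1) (M := M) hbpos (min_le_left _ _)
      (fun y hy => by
        have hy' : y ∈ Ioo 0 y0 :=
          ⟨hy.1, hy.2.trans_le ((min_le_right _ _).trans (min_le_right _ _))⟩
        have h3 := hup y hy'
        have h4 := hpos y hy.1
        have h5 := le_abs_self C
        rw [abs_le]; constructor <;> linarith)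
      (fun y hy => avg_bdd hM
        ⟨hy.1, hy.2.trans_le ((min_le_right _ _).trans (min_le_left _ _))⟩)
      (fun y hy => he y ⟨hy.1, hy.2.trans_le ((min_le_right _ _).trans (min_le_left _ _))⟩)
    refine ⟨α, fun y hy => ?_⟩
    have := he y hy
    rw [e9, e10] at this
    simp only [zero_div, add_zero] at this
    unfold VO
    linear_combination this
  obtain ⟨α, hα⟩ := hrep 1 one_pos
  refine ⟨α, fun y hy => ?_⟩
  obtain ⟨β, hβ⟩ := hrep (y + 1) (by linarith)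
  have : β - α = 0 := by
    refine eq_zero_of_le_mul (K := 0) (b := min 1 (y + 1)) (lt_min one_pos (by linarith)) ?_
    intro z hz
    have e1 := hα z ⟨hz.1, hz.2.trans_le (min_le_left _ _)⟩
    have e2 := hβ z ⟨hz.1, hz.2.trans_le (min_le_right _ _)⟩
    have : (β - α) * z = 0 := by linear_combination e1 - e2
    rcases mul_eq_zero.1 this with h | h
    · rw [h]; simp
    · exact absurd h hz.1.ne'
  have hab : β = α := by linarith
  rw [← hab]
  exact hβ y ⟨hy, by linarith⟩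

/-- `α < 0` as soon as `g` is somewhere below `1 - y²/(264 c)`. -/
theorem alpha_neg {c α : ℝ} {g : ℝ → ℝ} (hgc : ContinuousOn g (Ioi 0))
    (hpos : ∀ y, 0 < y → 0 < g y) {y0 δ : ℝ} (hy0 : 0 < y0) (hδ : 0 < δ)
    (hlo : ∀ y ∈ Ioo 0 y0, δ ≤ g y)
    {y : ℝ} (hy : 0 < y) (he : g y = 1 + α * y + VO (fun z => -(1 / 2) * (1 / c - 1 / g z)) y)
    (hsmall : g y < 1 - y ^ 2 / (264 * c)) : α < 0 := by
  -- integrability of `ker r / g (r y)`
  have hcont : ContinuousOn (fun r => ker r * (1 / g (r * y))) (Ioc 0 1) := by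
    refine ker_cont.continuousOn.mul (continuousOn_const.div (hgc.comp (by fun_prop) ?_) ?_)
    · intro r hr; exact mul_pos hr.1 hy
    · intro r hr; exact (hpos _ (mul_pos hr.1 hy)).ne'
  have hbd : ∃ M, ∀ z ∈ Ioc 0 y, |1 / g z| ≤ M := by
    obtain ⟨M1, hM1⟩ := (isCompact_Icc (a := y0 / 2) (b := y)).exists_bound_of_continuousOn
      ((continuousOn_const.div hgc (fun z hz => (hpos z hz).ne')).mono
        (fun z hz => lt_of_lt_of_le (by linarith : (0 : ℝ) < y0 / 2) hz.1) :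
        ContinuousOn (fun z => 1 / g z) _)
    refine ⟨max M1 (1 / δ), fun z hz => ?_⟩
    rcases lt_or_ge z (y0 / 2) with h | h
    · refine le_trans ?_ (le_max_right _ _)
      rw [abs_of_pos (one_div_pos.2 (hpos z hz.1))]
      exact one_div_le_one_div_of_le hδ (hlo z ⟨hz.1, by linarith⟩)
    · exact (by simpa using hM1 z ⟨h, hz.2⟩ : |1 / g z| ≤ M1).trans (le_max_left _ _)
  obtain ⟨M, hM⟩ := hbd
  have hint : IntervalIntegrable (fun r => ker r * (1 / g (r * y))) volume 0 1 := by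
    rw [intervalIntegrable_iff_integrableOn_Ioc_of_le zero_le_one]
    refine Integrable.of_bound (C := 1 / 4 * M) (hcont.aestronglyMeasurable measurableSet_Ioc) ?_
    refine (ae_restrict_iff' measurableSet_Ioc).2 (Eventually.of_forall fun r hr => ?_)
    rw [norm_mul]
    have hm : r * y ∈ Ioc 0 y := ⟨mul_pos hr.1 hy, by nlinarith [hr.1, hr.2]⟩
    exact mul_le_mul (by simpa using ker_abs ⟨hr.1.le, hr.2⟩) (by simpa using hM _ hm)
      (norm_nonneg _) (by norm_num)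
  have hk : IntervalIntegrable (fun r => ker r * (1 / c)) volume 0 1 :=
    (by have := ker_cont; fun_prop : Continuous fun r => ker r * (1 / c)).intervalIntegrable _ _
  have e : VO (fun z => -(1 / 2) * (1 / c - 1 / g z)) y =
      y ^ 2 * (-(1 / 2)) * (1 / c * (1 / 132) - ∫ r in (0 : ℝ)..1, ker r * (1 / g (r * y))) := by
    unfold VO
    have : ∫ r in (0 : ℝ)..1, ker r * (-(1 / 2) * (1 / c - 1 / g (r * y))) =
        -(1 / 2) * ((∫ r in (0 : ℝ)..1, ker r * (1 / c)) -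
          ∫ r in (0 : ℝ)..1, ker r * (1 / g (r * y))) := by
      rw [← intervalIntegral.integral_sub hk hint, ← intervalIntegral.integral_const_mul]
      congr 1; ext r; ring
    rw [this, intervalIntegral.integral_mul_const, ker_int]
    ring
  have hnn : 0 ≤ ∫ r in (0 : ℝ)..1, ker r * (1 / g (r * y)) := by
    rw [intervalIntegral.integral_of_le zero_le_one]
    refine setIntegral_nonneg measurableSet_Ioc fun r hr => ?_
    exact mul_nonneg (ker_nonneg ⟨hr.1.le, hr.2⟩)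
      (one_div_pos.2 (hpos _ (mul_pos hr.1 hy))).le
  rw [e] at he
  have h1 : α * y < 0 := by
    have hy2 : 0 < y ^ 2 := pow_pos hy 2
    have h2 : y ^ 2 * (1 / c) * (1 / 264) = y ^ 2 / (264 * c) := by
      rcases eq_or_ne c 0 with rfl | hc
      · simp
      · field_simp
    nlinarith [mul_nonneg hy2.le hnn]
  by_contra hα
  push Not at hα
  nlinarith [mul_nonneg hα hy.le]

/-- smooth truncation of `v ↦ 1/(1+v)`. -/
lemma exists_trunc : ∃ f : ℝ → ℝ, ContDiff ℝ (⊤ : ℕ∞) f ∧ (∃ K : ℝ≥0, LipschitzWith K f) ∧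
    (∃ B : ℝ, ∀ v, |f v| ≤ B) ∧ ∀ v, |v| ≤ 1 / 2 → f v = 1 / (1 + v) := by
  let χ : ContDiffBump (0 : ℝ) := ⟨1 / 2, 3 / 4, by norm_num, by norm_num⟩
  have hχ : ContDiff ℝ (⊤ : ℕ∞) (χ : ℝ → ℝ) := χ.contDiff
  have hηpos : ∀ v : ℝ, 1 / 4 ≤ 1 + v * χ v := by
    intro v
    have h0 := χ.nonneg' v
    have h1 := χ.le_one (x := v)
    rcases lt_or_ge |v| (3 / 4) with h | h
    · have := abs_lt.1 h
      nlinarith
    · have : χ v = 0 := χ.zero_of_le_dist (by simpa [Real.dist_eq] using h)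
      rw [this]; norm_num
  have hη : ContDiff ℝ (⊤ : ℕ∞) (fun v : ℝ => 1 / (1 + v * χ v)) := by
    refine contDiff_const.div (contDiff_const.add (contDiff_id.mul hχ)) ?_
    intro v; have := hηpos v; linarith
  have hsub : ContDiff ℝ (⊤ : ℕ∞) (fun v : ℝ => 1 / (1 + v * χ v) - 1) := hη.sub contDiff_const
  have hcs : HasCompactSupport (fun v : ℝ => 1 / (1 + v * χ v) - 1) := by
    refine χ.hasCompactSupport.mono ?_
    intro v hv hv'
    apply hv
    simp only [hv', mul_zero, add_zero, div_one, sub_self]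
  obtain ⟨K, hK⟩ := hsub.lipschitzWith_of_hasCompactSupport hcs (by simp)
  refine ⟨fun v => 1 / (1 + v * χ v), hη, ⟨K, ?_⟩, ⟨4, fun v => ?_⟩, fun v hv => ?_⟩
  · refine LipschitzWith.of_dist_le_mul fun x y => ?_
    have := hK.dist_le_mul x y
    simpa [Real.dist_eq] using this
  · have := hηpos v
    rw [abs_of_pos (by positivity)]
    rw [div_le_iff₀ (by linarith)]; linarith
  · have : χ v = 1 := χ.one_of_mem_closedBall (by
      rw [Metric.mem_closedBall, Real.dist_eq, sub_zero]; exact hv)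
    simp only [this, mul_one]

/-- **E-ZERO, smooth extension.** -/
theorem zero_ext {c α : ℝ} {g : ℝ → ℝ} (hg : ContDiffOn ℝ (⊤ : ℕ∞) g (Ioi 0))
    {y0 δ : ℝ} (hy0 : 0 < y0) (hδ : 0 < δ) (hlo : ∀ y ∈ Ioo 0 y0, δ ≤ g y)
    (he : ∀ y, 0 < y → g y = 1 + α * y + VO (fun z => -(1 / 2) * (1 / c - 1 / g z)) y) :
    ∃ G : ℝ → ℝ, ContDiff ℝ (⊤ : ℕ∞) G ∧ (∀ y, 0 < y → G y = g y) ∧ G 0 = 1 ∧
      deriv G 0 = α := by
  classical
  obtain ⟨f, hf, ⟨K, hK⟩, ⟨B, hB⟩, hf1⟩ := exists_trunc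
  have hB0 : 0 ≤ B := (abs_nonneg _).trans (hB 0)
  set Ψ : ℝ → ℝ := fun v => -(1 / 2) * (1 / c - f v) with hΨdef
  have hΨ : ContDiff ℝ (⊤ : ℕ∞) Ψ := contDiff_const.mul (contDiff_const.sub hf)
  have hΨK : LipschitzWith K Ψ := by
    refine LipschitzWith.of_dist_le_mul fun x y => ?_
    have h1 := hK.dist_le_mul x y
    rw [Real.dist_eq] at h1 ⊢
    have e : Ψ x - Ψ y = 1 / 2 * (f x - f y) := by simp only [hΨdef]; ring
    rw [e, abs_mul, abs_of_pos (by norm_num : (0 : ℝ) < 1 / 2)]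
    have := abs_nonneg (f x - f y)
    linarith
  have hΨB : ∀ v, |Ψ v| ≤ 1 / 2 * (|1 / c| + B) := by
    intro v
    simp only [hΨdef]
    rw [abs_mul, show |(-(1 / 2) : ℝ)| = 1 / 2 by norm_num [abs_of_neg]]
    have h1 := abs_sub (1 / c) (f v)
    have h2 := hB v
    nlinarith
  -- choice of `ε`
  set φ : ℝ → ℝ := fun z => -(1 / 2) * (1 / c - 1 / g z) with hφ
  set M : ℝ := 1 / 2 * (|1 / c| + 1 / δ) with hMdef
  have hM0 : 0 ≤ M := by positivity
  have hφb : ∀ y ∈ Ioo 0 y0, |φ y| ≤ M := by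
    intro y hy
    have hgy := hlo y hy
    have h1 : |1 / g y| ≤ 1 / δ := by
      rw [abs_of_pos (one_div_pos.2 (hδ.trans_le hgy))]
      exact one_div_le_one_div_of_le hδ hgy
    simp only [hφ]
    rw [abs_mul, show |(-(1 / 2) : ℝ)| = 1 / 2 by norm_num [abs_of_neg]]
    have := abs_sub (1 / c) (1 / g y)
    rw [hMdef]
    nlinarith
  set ε : ℝ := min (min 1 (y0 / 2)) (1 / (2 * (|α| + M + K + 1))) with hε
  have hden : 0 < 2 * (|α| + M + K + 1) := by
    have := K.coe_nonneg; have := abs_nonneg α; positivity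
  have hεpos : 0 < ε := lt_min (lt_min one_pos (by linarith)) (by positivity)
  have hε1 : ε ≤ 1 := (min_le_left _ _).trans (min_le_left _ _)
  have hεy0 : ε < y0 := ((min_le_left _ _).trans (min_le_right _ _)).trans_lt (by linarith)
  have hεd : ε * (2 * (|α| + M + K + 1)) ≤ 1 := by
    have : ε ≤ 1 / (2 * (|α| + M + K + 1)) := min_le_right _ _
    rwa [le_div_iff₀ hden] at this
  have hεK : ε ^ 2 * K ≤ 1 := by
    have hK0 := K.coe_nonneg
    have ha := abs_nonneg α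
    have p1 := mul_nonneg hεpos.le ha
    have p2 := mul_nonneg hεpos.le hM0
    have p3 := mul_nonneg hεpos.le hK0
    have h1 : ε * K ≤ 1 := by nlinarith
    nlinarith
  -- `u = g - 1`
  have hu : ∀ y ∈ Ioc 0 ε, |g y - 1| ≤ 1 / 2 := by
    intro y hy
    have hy' : y ∈ Ioo 0 y0 := ⟨hy.1, hy.2.trans_lt hεy0⟩
    have h1 := avg_bdd hφb hy'
    rw [he y hy.1]
    unfold VO
    have hK0 := K.coe_nonneg
    have ha := abs_nonneg α
    have e : 1 + α * y + y ^ 2 * (∫ r in (0 : ℝ)..1, ker r * φ (r * y)) - 1 =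
        α * y + y ^ 2 * (∫ r in (0 : ℝ)..1, ker r * φ (r * y)) := by ring
    rw [e]
    have t1 : |α * y| ≤ |α| * ε := by
      rw [abs_mul, abs_of_pos hy.1]; exact mul_le_mul_of_nonneg_left hy.2 ha
    have t2 : |y ^ 2 * (∫ r in (0 : ℝ)..1, ker r * φ (r * y))| ≤ ε * M := by
      rw [abs_mul, abs_of_nonneg (sq_nonneg y)]
      refine mul_le_mul ?_ h1 (abs_nonneg _) hεpos.le
      nlinarith [hy.1, hy.2]
    have t3 := abs_add_le (α * y) (y ^ 2 * (∫ r in (0 : ℝ)..1, ker r * φ (r * y)))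
    nlinarith [mul_nonneg hεpos.le hK0]
  have hgc : ContinuousOn g (Ioi 0) := hg.continuousOn
  obtain ⟨v, hvc, hve⟩ := exists_fix (K := K) hΨ.continuous hΨK hΨB α hεpos hεK
  obtain ⟨Mv, hMv⟩ := (isCompact_Icc (a := (0 : ℝ)) (b := ε)).exists_bound_of_continuousOn
    hvc.continuousOn
  have hagree : ∀ y ∈ Ioc 0 ε, g y - 1 = v y := by
    refine fix_unique (Ψ := Ψ) (K := K) (α := α) (M := max (1 / 2) Mv) hΨ.continuous hΨK hεK
      (u := fun y => g y - 1) ((hgc.mono fun z hz => hz.1).sub continuousOn_const)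
      hvc.continuousOn (fun y hy => (hu y hy).trans (le_max_left _ _))
      (fun y hy => (by simpa using hMv y ⟨hy.1.le, hy.2⟩ : |v y| ≤ Mv).trans (le_max_right _ _))
      ?_ (fun y hy => hve y ⟨by linarith [hy.1], hy.2⟩)
    intro y hy
    have h1 := he y hy.1
    have h2 : VO φ y = VO (fun z => Ψ (g z - 1)) y := by
      unfold VO
      congr 1
      rw [intervalIntegral.integral_of_le zero_le_one, intervalIntegral.integral_of_le zero_le_one]
      refine setIntegral_congr_fun measurableSet_Ioc fun r hr => ?_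
      have hm : r * y ∈ Ioc 0 ε := ⟨mul_pos hr.1 hy.1, by nlinarith [hr.1, hr.2, hy.1, hy.2]⟩
      have h3 := hf1 (g (r * y) - 1) (hu _ hm)
      simp only [hφ, hΨdef]
      rw [h3]
      congr 4
      ring
    rw [← h2]
    linear_combination h1
  have hvs : ContDiffOn ℝ (⊤ : ℕ∞) v (Ioo (-ε) ε) :=
    boot hΨ hvc.continuousOn (fun y hy => hve y ⟨hy.1.le, hy.2.le⟩)
  -- cutoff
  set χ : ℝ → ℝ := fun y => Real.smoothTransition (3 * y / ε + 2) with hχ
  have hχs : ContDiff ℝ (⊤ : ℕ∞) χ := by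
    refine Real.smoothTransition.contDiff.comp ?_
    fun_prop
  have hχ1 : ∀ y, -(ε / 3) ≤ y → χ y = 1 := by
    intro y hy
    refine Real.smoothTransition.one_of_one_le ?_
    have : -1 ≤ 3 * y / ε := by
      rw [le_div_iff₀ hεpos]; linarith
    linarith
  have hχ0 : ∀ y, y ≤ -(2 * ε / 3) → χ y = 0 := by
    intro y hy
    refine Real.smoothTransition.zero_of_nonpos ?_
    have : 3 * y / ε ≤ -2 := by
      rw [div_le_iff₀ hεpos]; linarith
    linarith
  set G : ℝ → ℝ := fun y => if 0 < y then g y else 1 + χ y * v y with hG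
  have hG1 : ∀ y ∈ Ioo (-(ε / 3)) ε, G y = 1 + v y := by
    intro y hy
    simp only [hG]
    split_ifs with h
    · have := hagree y ⟨h, hy.2.le⟩
      linarith
    · rw [hχ1 y hy.1.le]; ring
  have hGev : G =ᶠ[𝓝 0] fun y => 1 + v y := by
    filter_upwards [Ioo_mem_nhds (by linarith : -(ε / 3) < (0 : ℝ)) hεpos] with y hy using hG1 y hy
  refine ⟨G, ?_, fun y hy => by simp [hG, hy], ?_, ?_⟩
  · rw [contDiff_iff_contDiffAt]
    intro y
    rcases lt_or_ge 0 y with h | h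
    · have : G =ᶠ[𝓝 y] g := by
        filter_upwards [Ioi_mem_nhds h] with z hz
        simp only [hG]
        rw [if_pos (show (0 : ℝ) < z from hz)]
      exact (hg.contDiffAt (Ioi_mem_nhds h)).congr_of_eventuallyEq this
    rcases lt_or_ge (-(ε / 3)) y with h' | h'
    · have hmem : y ∈ Ioo (-(ε / 3)) ε := ⟨h', by linarith⟩
      have : G =ᶠ[𝓝 y] fun y => 1 + v y := by
        filter_upwards [isOpen_Ioo.mem_nhds hmem] with z hz using hG1 z hz
      refine ContDiffAt.congr_of_eventuallyEq ?_ this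
      exact contDiffAt_const.add (hvs.contDiffAt (isOpen_Ioo.mem_nhds
        ⟨by linarith, by linarith⟩))
    · have hy0' : y < 0 := by linarith
      rcases lt_or_ge (-ε) y with h'' | h''
      · have : G =ᶠ[𝓝 y] fun y => 1 + χ y * v y := by
          filter_upwards [Iio_mem_nhds hy0'] with z hz
          simp only [hG]
          rw [if_neg (not_lt.2 (le_of_lt (show z < 0 from hz)))]
        refine ContDiffAt.congr_of_eventuallyEq ?_ this
        exact contDiffAt_const.add (hχs.contDiffAt.mul (hvs.contDiffAt (isOpen_Ioo.mem_nhds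
          ⟨h'', by linarith⟩)))
      · have : G =ᶠ[𝓝 y] fun _ => 1 := by
          filter_upwards [Iio_mem_nhds (by linarith : y < -(2 * ε / 3))] with z hz
          have hz' : z < -(2 * ε / 3) := hz
          simp only [hG]
          rw [if_neg (by linarith : ¬ 0 < z), hχ0 z hz'.le]
          ring
        exact contDiffAt_const.congr_of_eventuallyEq this
  · have := hG1 0 ⟨by linarith, hεpos⟩
    rw [this, hve 0 ⟨by linarith, hεpos.le⟩]
    simp [VO]
  · rw [hGev.deriv_eq]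
    have hc : ContinuousOn (fun z => Ψ (v z)) (Ioo (-ε) ε) :=
      (hΨ.continuous.comp hvc).continuousOn
    have h1 := hasDerivAt_VO hc (y := 0) ⟨by linarith, hεpos⟩
    rw [zero_mul] at h1
    have h2 : HasDerivAt (fun y => α * y + VO (fun z => Ψ (v z)) y) (α * 1 + 0) 0 :=
      ((hasDerivAt_id 0).const_mul α).add h1
    have h3 : v =ᶠ[𝓝 0] fun y => α * y + VO (fun z => Ψ (v z)) y := by
      filter_upwards [Icc_mem_nhds (by linarith : -ε < (0 : ℝ)) hεpos] with y hy using hve y hy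
    have h4 : HasDerivAt v (α * 1 + 0) 0 := h2.congr_of_eventuallyEq h3
    rw [(h4.const_add 1).deriv]; ring

end Crest.Agent.R213.EZ
end
end

-- ▼ part R213/E/SolitonOf

/-!
# Row 213, part E: final glue: a classical positive solution on `(0,∞)` with the right behaviour at both
ends gives a `Soliton`.
-/

set_option autoImplicit false

open Set Filter Topology MeasureTheory

noncomputable section

namespace Crest.Agent.R213.E

/-- `HasDerivAt` chain on `y > 0` gives the iterated derivatives. -/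
lemma iter_of_chain {g g1 g2 g3 : ℝ → ℝ} (h1 : ∀ y, 0 < y → HasDerivAt g (g1 y) y)
    (h2 : ∀ y, 0 < y → HasDerivAt g1 (g2 y) y) (h3 : ∀ y, 0 < y → HasDerivAt g2 (g3 y) y)
    {y : ℝ} (hy : 0 < y) :
    deriv g y = g1 y ∧ iteratedDeriv 2 g y = g2 y ∧ iteratedDeriv 3 g y = g3 y := by
  have e1 : ∀ y, 0 < y → deriv g y = g1 y := fun y hy => (h1 y hy).deriv
  have e2 : ∀ y, 0 < y → iteratedDeriv 2 g y = g2 y := by
    intro y hy
    rw [show (2 : ℕ) = 1 + 1 from rfl, iteratedDeriv_succ, iteratedDeriv_one]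
    have : deriv g =ᶠ[𝓝 y] g1 := by
      filter_upwards [Ioi_mem_nhds hy] with x hx using e1 x hx
    rw [this.deriv_eq]; exact (h2 y hy).deriv
  refine ⟨e1 y hy, e2 y hy, ?_⟩
  rw [show (3 : ℕ) = 2 + 1 from rfl, iteratedDeriv_succ]
  have : iteratedDeriv 2 g =ᶠ[𝓝 y] g2 := by
    filter_upwards [Ioi_mem_nhds hy] with x hx using e2 x hx
  rw [this.deriv_eq]; exact (h3 y hy).deriv

/-- **Glue at `0` and `∞`.** -/
theorem soliton_of {c : ℝ} (hc : 0 < c) {g g1 g2 g3 : ℝ → ℝ}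
    (h1 : ∀ y, 0 < y → HasDerivAt g (g1 y) y) (h2 : ∀ y, 0 < y → HasDerivAt g1 (g2 y) y)
    (h3 : ∀ y, 0 < y → HasDerivAt g2 (g3 y) y) (hpos : ∀ y, 0 < y → 0 < g y)
    (hode : ∀ y, 0 < y → y ^ 3 * g3 y + 21 * y ^ 2 * g2 y + 90 * y * g1 y + 90 * (1 - g y)
      + y ^ 2 / 2 * (1 / c - 1 / g y) = 0)
    (hs : ContDiffOn ℝ (⊤ : ℕ∞) g (Ioi 0))
    (hinf : ∃ gh : ℝ → ℝ, ContDiffOn ℝ (⊤ : ℕ∞) gh (Ici 0) ∧
      (∀ y, 0 < y → g y = gh (1 / y ^ 2)) ∧ gh 0 = c)
    {y0 δ C : ℝ} (hy0 : 0 < y0) (hδ : 0 < δ) (hlo : ∀ y ∈ Ioo 0 y0, δ ≤ g y)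
    (hup : ∀ y ∈ Ioo 0 y0, g y ≤ C)
    {y4 : ℝ} (hy4 : 0 < y4) (hsmall : g y4 < 1 - y4 ^ 2 / (264 * c)) :
    ∃ (A : ℝ) (g' gh : ℝ → ℝ), Soliton c A g' gh := by
  have hode' : ∀ y, 0 < y → y ^ 3 * iteratedDeriv 3 g y + 21 * y ^ 2 * iteratedDeriv 2 g y
      + 90 * y * deriv g y + 90 * (1 - g y) + y ^ 2 / 2 * (1 / c - 1 / g y) = 0 := by
    intro y hy
    obtain ⟨e1, e2, e3⟩ := iter_of_chain h1 h2 h3 hy
    rw [e1, e2, e3]; exact hode y hy
  obtain ⟨α, hα⟩ := EZ.zero_rep hs hpos hode' hy0 hδ hlo hup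
  obtain ⟨G, hG, hGg, hG0, hG1⟩ := EZ.zero_ext hs hy0 hδ hlo hα
  have hαneg : α < 0 := EZ.alpha_neg hs.continuousOn hpos hy0 hδ hlo hy4 (hα y4 hy4) hsmall
  obtain ⟨gh, hgh, hlink, hgh0⟩ := hinf
  refine ⟨-α, G, gh, ?_⟩
  refine
    { c_pos := hc
      A_pos := by linarith
      smooth := hG
      smooth_inf := hgh
      link := fun y hy => by rw [hGg y hy]; exact hlink y hy
      g_zero := hG0
      deriv_zero := by rw [hG1]; ring
      gh_zero := hgh0
      pos := ?_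
      ode := ?_ }
  · intro y hy
    rcases hy.lt_or_eq with h | h
    · rw [hGg y h]; exact hpos y h
    · rw [← h, hG0]; exact one_pos
  · intro y hy
    have hev : G =ᶠ[𝓝 y] g := by
      filter_upwards [Ioi_mem_nhds hy] with x hx using hGg x hx
    have hev1 : deriv G =ᶠ[𝓝 y] deriv g := hev.deriv
    rw [hev.iteratedDeriv_eq 3, hev.iteratedDeriv_eq 2, hev.deriv_eq, hGg y hy]
    exact hode' y hy

end Crest.Agent.R213.E
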