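import Crest.Agent.R213.E.EDefs
import Crest.Agent.R213.E.SolitonOf
import Crest.Agent.R213.E.Inf_Mg
import Crest.Agent.R213.E.MidOfCert
import Crest.Agent.R213.E.CertFam
import Crest.Agent.R213.E.CTailData
import Crest.Agent.R213.J0
import Crest.Agent.R213.J310
import Crest.Agent.R213.F.FDefs
import Crest.Agent.R213.F.HBasic
import Crest.Agent.R213.F.OneD
import Crest.Prelude.Def_ProjKahler
import Crest.Statements.S0331
import Crest.Agent.R213.Lin
import Crest.Agent.R213.A.WeakExists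
import Crest.Agent.R213.C.PdeMain_Mg
import Crest.Agent.R213.P.FlowExists_Mg
import Crest.Agent.R213.E.CCheck0
import Crest.Agent.R213.E.NLDefs
import Crest.Agent.R213.E.CCheck1
import Crest.Agent.R213.E.CCheck2

-- ▼ part R213/E/SolOfMid
section

/-! Row 213, PART E: `Mid` + regularity at infinity → `Soliton` (helper9). -/

set_option autoImplicit false

open Set MeasureTheory Filter Topology

noncomputable section

namespace Crest.Agent.R213.E

/-- `Mid` and the smooth function of `1/y²` give the soliton. -/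
theorem soliton_of_mid {c : ℝ} {g g1 g2 g3 : ℝ → ℝ} (hM : Mid c g g1 g2 g3)
    (hinf : ∃ gh : ℝ → ℝ, ContDiffOn ℝ (⊤ : ℕ∞) gh (Ici 0) ∧ gh 0 = c ∧
      ∀ y, 0 < y → g y = gh (1 / y ^ 2)) :
    ∃ (c A : ℝ) (g gh : ℝ → ℝ), Soliton c A g gh := by
  obtain ⟨gh, hgh, h0, hl⟩ := hinf
  have hc : 0 < c := by linarith [hM.c_lo]
  have hs : ContDiffOn ℝ (⊤ : ℕ∞) g (Ioi 0) := by
    have h1 : ContDiffOn ℝ (⊤ : ℕ∞) (fun y : ℝ => gh (1 / y ^ 2)) (Ioi 0) := by
      refine hgh.comp (ContDiffOn.div contDiffOn_const (contDiffOn_id.pow 2) ?_) ?_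
      · intro y hy; exact pow_ne_zero 2 (ne_of_gt hy)
      · intro y hy
        have hy' : (0 : ℝ) < y := hy
        show (0 : ℝ) ≤ 1 / y ^ 2
        positivity
    exact h1.congr fun y hy => hl y hy
  obtain ⟨A, g', gh', h⟩ := soliton_of hc hM.C3.d1 hM.C3.d2 hM.C3.d3
    (fun y hy => by linarith [hM.lower y hy]) (fun y hy => hM.ode y hy) hs ⟨gh, hgh, hl, h0⟩
    (y0 := 1) (δ := 1 / 10) (C := 2) one_pos (by norm_num) (fun y hy => hM.lower y hy.1)
    (fun y hy => hM.upper y hy.1) (y4 := 1) one_pos (by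
      have h1 := hM.at_one
      have h2 : (1 : ℝ) ^ 2 / (264 * c) ≤ 1 / 100 := by
        rw [one_pow, div_le_div_iff₀ (by positivity) (by norm_num)]
        linarith [hM.c_lo]
      linarith)
  exact ⟨c, A, g', gh', h⟩

end Crest.Agent.R213.E
end
end

-- ▼ part R213/E/SolOfMid2
section

/-! Row 213, PART E: `Mid` + `g → c` → `Soliton` (helper9). -/

set_option autoImplicit false

open Set MeasureTheory Filter Topology

noncomputable section

namespace Crest.Agent.R213.E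

theorem soliton_of_mid_lim {c : ℝ} {g g1 g2 g3 : ℝ → ℝ} (hM : Mid c g g1 g2 g3)
    (hlim : Tendsto g atTop (𝓝 c)) : ∃ (c A : ℝ) (g gh : ℝ → ℝ), Soliton c A g gh := by
  have hc : 0 < c := by linarith [hM.c_lo]
  have hpos : ∀ y, 0 < y → 0 < g y := fun y hy => by linarith [hM.lower y hy]
  have hs := BootSm.contDiffOn_of_ode hM.C3 hM.ode hpos
  exact soliton_of_mid hM (Inf.exists_gh (Y := 0) hc hs hM.C3.d1 hM.C3.d2 hM.C3.d3
    (fun y hy => hM.ode y hy) hlim)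

end Crest.Agent.R213.E
end
end

-- ▼ part R213/E/SolOfCert
section

/-! Row 213, PART E: `Cert → Soliton` (helper9). -/

set_option autoImplicit false

open Set MeasureTheory Filter Topology

noncomputable section

namespace Crest.Agent.R213.E

/-- the certificate implies the existence of the soliton profile -/
theorem soliton_of_cert {k : Cst} {p R : ℝ → ℝ} {G G1 G2 G3 : ℝ → ℝ → ℝ} {ψ ψ1 ψ2 ψ3 : ℝ → ℝ}
    (hC : Cert k p R G G1 G2 G3 ψ ψ1 ψ2 ψ3) :
    ∃ (c A : ℝ) (g gh : ℝ → ℝ), Soliton c A g gh := by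
  obtain ⟨c, g, g1, g2, g3, hM, hlim⟩ := mid_of_cert hC
  exact soliton_of_mid_lim hM hlim

end Crest.Agent.R213.E
end
end

-- ▼ part R213/E/SolOfCells
section

/-! Row 213, PART E: cell facts → Soliton (helper9). -/

set_option autoImplicit false

noncomputable section

namespace Crest.Agent.R213.E

theorem soliton_of_cells (H : CellFacts) : ∃ (c A : ℝ) (g gh : ℝ → ℝ), Soliton c A g gh := by
  obtain ⟨k, p, R, G, G1, G2, G3, ψ, ψ1, ψ2, ψ3, hC⟩ := cert_of_cells C.tail_ok H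
  exact soliton_of_cert hC

end Crest.Agent.R213.E
end
end

-- ▼ part R213/F/Pot
section

/-!
# Row 213, part F, F0: the symplectic potential (helper690)
`g t x := ∫₀ˣ w(t,s) ds - ∫₀ᵗ S_x(r,0) dr`, `f t x := ∫₀ˣ g(t,s) ds + ∫₀ᵗ (110 - S(r,0)) dr`.
-/

set_option autoImplicit false

open Set MeasureTheory Filter Topology

noncomputable section

namespace Crest.Agent.R213.F

/-- fundamental theorem in `x` for `Sm` functions -/
theorem integral_dx {s : Set ℝ} {L : ℝ} (hs : IsOpen s) (hL : 0 < L) {u : ℝ → ℝ → ℝ}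
    (hu : Sm s L u) {t x : ℝ} (ht : t ∈ s) (hx : x ∈ Icc 0 L) :
    ∫ ξ in (0 : ℝ)..x, dx L u t ξ = u t x - u t 0 := by
  refine intervalIntegral.integral_eq_sub_of_hasDeriv_right_of_le hx.1
    ((hu.continuousOn_right ht).mono (Icc_subset_Icc_right hx.2)) (fun y hy => ?_) ?_
  · have hy' : y ∈ Icc 0 L := ⟨hy.1.le, hy.2.le.trans hx.2⟩
    refine (hu.hasDx hL ht hy').mono_of_mem_nhdsWithin ?_
    refine mem_nhdsWithin_of_mem_nhds (Icc_mem_nhds hy.1 (hy.2.trans_le hx.2))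
  · apply ContinuousOn.intervalIntegrable
    rw [uIcc_of_le hx.1]
    exact ((Sm.dx hs hL hu).continuousOn_right ht).mono (Icc_subset_Icc_right hx.2)

theorem exists_pot {T ε : ℝ} {w S : ℝ → ℝ → ℝ} (hF : Flow T ε w S) :
    ∃ f g : ℝ → ℝ → ℝ, Pot T ε w S f g := by
  have hT := hF.T_pos
  have hε := hF.eps_pos
  have hso : IsOpen (Ioo (-ε) T) := isOpen_Ioo
  have hsc : Convex ℝ (Ioo (-ε) T) := convex_Ioo _ _
  have hsu : UniqueDiffOn ℝ (Ioo (-ε) T) := hso.uniqueDiffOn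
  have h0 : (0 : ℝ) ∈ Ioo (-ε) T := ⟨by linarith, hT⟩
  have m0 : (0 : ℝ) ∈ Icc (0 : ℝ) 1 := ⟨le_rfl, zero_le_one⟩
  have h1 : (0 : ℝ) < 1 := zero_lt_one
  have hSx : Sm (Ioo (-ε) T) 1 (dx 1 S) := Sm.dx hso h1 hF.smS
  -- primitives in time at `x = 0`
  have pA : ∀ {u : ℝ → ℝ → ℝ}, Sm (Ioo (-ε) T) 1 u →
      Sm (Ioo (-ε) T) 1 (fun t _ => J310.Pt 0 u t 0) := fun {u} hu =>
    (J310.sm_Pt hsc hsu h1 h0 hu).comp2 Sm.fst (Sm.const 0) (fun _ ht _ _ => ht)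
      fun _ _ _ _ => m0
  have pB : ∀ {u : ℝ → ℝ → ℝ}, Sm (Ioo (-ε) T) 1 u → ∀ t ∈ Ioo (-ε) T,
      HasDerivAt (fun r => J310.Pt 0 u r 0) (u t 0) t := fun {u} hu t ht => by
    have := (J310.sm_Pt hsc hsu h1 h0 hu).hasDt hso ht m0
    rwa [J310.dt_Pt hsc hso h0 hu ht m0] at this
  set g : ℝ → ℝ → ℝ := fun t x => J310.Px w t x - J310.Pt 0 (dx 1 S) t 0 with hg
  have smg : Sm (Ioo (-ε) T) 1 g := (J310.sm_Px hsc hsu h1 hF.smw).sub (pA hSx)
  have gx : ∀ t ∈ Ioo (-ε) T, ∀ x ∈ Icc (0 : ℝ) 1,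
      HasDerivWithinAt (fun r => g t r) (w t x) (Icc 0 1) x := fun t ht x hx =>
    (J310.hasDeriv_Px hF.smw ht hx).sub_const _
  have gt : ∀ t ∈ Ioo (-ε) T, ∀ x ∈ Icc (0 : ℝ) 1,
      HasDerivAt (fun r => g r x) (- dx 1 S t x) t := fun t ht x hx => by
    have a1 := (J310.sm_Px hsc hsu h1 hF.smw).hasDt hso ht hx
    rw [J310.dt_Px hsc hso h1 hF.smw ht hx] at a1
    have a2 : J310.Px (dt w) t x = -(dx 1 S t x - dx 1 S t 0) := by
      rw [← integral_dx hso h1 hSx ht hx, ← intervalIntegral.integral_neg]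
      refine intervalIntegral.integral_congr fun ξ hξ => ?_
      rw [uIcc_of_le hx.1] at hξ
      exact hF.flow t ht ξ ⟨hξ.1, hξ.2.trans hx.2⟩
    refine (a1.sub (pB hSx t ht)).congr_deriv ?_
    rw [a2]
    ring
  set f : ℝ → ℝ → ℝ := fun t x => J310.Px g t x + J310.Pt 0 (fun t x => 110 - S t x) t 0 with hf
  have smC : Sm (Ioo (-ε) T) 1 (fun t x => 110 - S t x) := (Sm.const 110).sub hF.smS
  have smf : Sm (Ioo (-ε) T) 1 f := (J310.sm_Px hsc hsu h1 smg).add (pA smC)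
  refine ⟨f, g, hF, smf, smg, ?_, gx, ?_, gt⟩
  · intro t ht x hx
    exact (J310.hasDeriv_Px smg ht hx).add_const _
  · intro t ht x hx
    have a1 := (J310.sm_Px hsc hsu h1 smg).hasDt hso ht hx
    rw [J310.dt_Px hsc hso h1 smg ht hx] at a1
    have a2 : J310.Px (dt g) t x = -(S t x - S t 0) := by
      rw [← integral_dx hso h1 hF.smS ht hx, ← intervalIntegral.integral_neg]
      refine intervalIntegral.integral_congr fun ξ hξ => ?_
      rw [uIcc_of_le hx.1] at hξ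
      exact (gt t ht ξ ⟨hξ.1, hξ.2.trans hx.2⟩).deriv
    refine (a1.add (pB smC t ht)).congr_deriv ?_
    rw [a2]
    ring

end Crest.Agent.R213.F
end
end

-- ▼ part R213/F/Inverse
section

/-!
# Row 213, part F, F1a: smooth inverse function with parameter on the closed interval (helper380)
-/

set_option autoImplicit false

open Set MeasureTheory Filter Topology

noncomputable section

namespace Crest.Agent.R213.F

/-- the linear map `(a,b) ↦ (a, α a + β b)` as an equivalence (`β ≠ 0`) -/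
def shear (α β : ℝ) (hβ : β ≠ 0) : (ℝ × ℝ) ≃L[ℝ] (ℝ × ℝ) :=
  ContinuousLinearEquiv.equivOfInverse
    ((ContinuousLinearMap.fst ℝ ℝ ℝ).prod
      (α • ContinuousLinearMap.fst ℝ ℝ ℝ + β • ContinuousLinearMap.snd ℝ ℝ ℝ))
    ((ContinuousLinearMap.fst ℝ ℝ ℝ).prod
      (β⁻¹ • ContinuousLinearMap.snd ℝ ℝ ℝ - (α / β) • ContinuousLinearMap.fst ℝ ℝ ℝ))
    (by
      intro p
      ext
      · simp
      · simp only [ContinuousLinearMap.prod_apply, ContinuousLinearMap.coe_fst',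
          add_apply, sub_apply,
          smul_apply, ContinuousLinearMap.coe_snd', smul_eq_mul]
        field_simp
        ring)
    (by
      intro p
      ext
      · simp
      · simp only [ContinuousLinearMap.prod_apply, ContinuousLinearMap.coe_fst',
          add_apply, sub_apply,
          smul_apply, ContinuousLinearMap.coe_snd', smul_eq_mul]
        field_simp
        ring)

section

variable {s : Set ℝ} {Y : ℝ → ℝ → ℝ}

theorem inv_strictMono (hY : Sm s 1 Y) 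
    (hpos : ∀ t ∈ s, ∀ x ∈ Icc (0 : ℝ) 1, 0 < dx 1 Y t x) {t : ℝ} (ht : t ∈ s) :
    StrictMonoOn (Y t) (Icc 0 1) := by
  apply strictMonoOn_of_deriv_pos (convex_Icc 0 1) (hY.continuousOn_right ht)
  intro x hx
  rw [interior_Icc] at hx
  rw [← dx_eq_deriv hx]
  exact hpos t ht x (Ioo_subset_Icc_self hx)

theorem inv_surj (hY : Sm s 1 Y) (h0 : ∀ t ∈ s, Y t 0 = 0) (h1 : ∀ t ∈ s, Y t 1 = 1)
    {t : ℝ} (ht : t ∈ s) {y : ℝ} (hy : y ∈ Icc (0 : ℝ) 1) : ∃ x ∈ Icc (0 : ℝ) 1, Y t x = y := by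
  have := intermediate_value_Icc (zero_le_one) (hY.continuousOn_right ht)
  rw [h0 t ht, h1 t ht] at this
  exact this hy

/-- total derivative of a `Sm` function in terms of `dt`, `dx` -/
theorem Sm_total (hs : IsOpen s) (hY : Sm s 1 Y) {t x : ℝ} (ht : t ∈ s) (hx : x ∈ Icc (0 : ℝ) 1) :
    HasFDerivWithinAt (fun p : ℝ × ℝ => Y p.1 p.2)
      (dt Y t x • ContinuousLinearMap.fst ℝ ℝ ℝ + dx 1 Y t x • ContinuousLinearMap.snd ℝ ℝ ℝ)
      (s ×ˢ Icc 0 1) (t, x) := by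
  have h := (hY.differentiableWithinAt ht hx).hasFDerivWithinAt
  have e : fderivWithin ℝ (fun p : ℝ × ℝ => Y p.1 p.2) (s ×ˢ Icc 0 1) (t, x) =
      (dt Y t x • ContinuousLinearMap.fst ℝ ℝ ℝ + dx 1 Y t x • ContinuousLinearMap.snd ℝ ℝ ℝ) := by
    apply ContinuousLinearMap.ext
    intro v
    have hv : v = v.1 • ((1, 0) : ℝ × ℝ) + v.2 • ((0, 1) : ℝ × ℝ) := by
      ext <;> simp
    rw [hY.dt_eq hs ht hx, hY.dx_eq one_pos ht hx]
    conv_lhs => rw [hv]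
    rw [map_add, map_smul, map_smul]
    simp [mul_comm]
  rw [← e]
  exact h

end

theorem exists_inverse {s : Set ℝ} (hs : IsOpen s) {Y : ℝ → ℝ → ℝ} (hY : Sm s 1 Y)
    (h0 : ∀ t ∈ s, Y t 0 = 0) (h1 : ∀ t ∈ s, Y t 1 = 1)
    (hpos : ∀ t ∈ s, ∀ x ∈ Icc (0 : ℝ) 1, 0 < dx 1 Y t x) :
    ∃ X : ℝ → ℝ → ℝ, Sm s 1 X ∧
      (∀ t ∈ s, ∀ y ∈ Icc (0 : ℝ) 1, X t y ∈ Icc (0 : ℝ) 1 ∧ Y t (X t y) = y) ∧
      (∀ t ∈ s, ∀ x ∈ Icc (0 : ℝ) 1, X t (Y t x) = x) ∧
      (∀ t ∈ s, ∀ y ∈ Icc (0 : ℝ) 1,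
        HasDerivWithinAt (fun r => X t r) (dx 1 Y t (X t y))⁻¹ (Icc 0 1) y) ∧
      (∀ t ∈ s, ∀ y ∈ Icc (0 : ℝ) 1,
        HasDerivAt (fun r => X r y) (- dt Y t (X t y) / dx 1 Y t (X t y)) t) := by
  classical
  have hmono : ∀ t ∈ s, StrictMonoOn (Y t) (Icc 0 1) := fun t ht => inv_strictMono hY hpos ht
  set K : Set (ℝ × ℝ) := s ×ˢ Icc (0 : ℝ) 1 with hK
  have hKu : UniqueDiffOn ℝ K := uniqueDiffOn_dom hs one_pos
  -- the inverse
  set X : ℝ → ℝ → ℝ := fun t y => Function.invFunOn (Y t) (Icc 0 1) y with hXdef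
  have hX : ∀ t ∈ s, ∀ y ∈ Icc (0 : ℝ) 1, X t y ∈ Icc (0 : ℝ) 1 ∧ Y t (X t y) = y := by
    intro t ht y hy
    have hex := inv_surj hY h0 h1 ht hy
    exact ⟨Function.invFunOn_mem hex, Function.invFunOn_eq hex⟩
  have hYmem : ∀ t ∈ s, ∀ x ∈ Icc (0 : ℝ) 1, Y t x ∈ Icc (0 : ℝ) 1 := by
    intro t ht x hx
    have a := (hmono t ht).monotoneOn (left_mem_Icc.2 zero_le_one) hx hx.1
    have b := (hmono t ht).monotoneOn hx (right_mem_Icc.2 zero_le_one) hx.2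
    rw [h0 t ht] at a
    rw [h1 t ht] at b
    exact ⟨a, b⟩
  have hXY : ∀ t ∈ s, ∀ x ∈ Icc (0 : ℝ) 1, X t (Y t x) = x := by
    intro t ht x hx
    have h := hX t ht (Y t x) (hYmem t ht x hx)
    exact (hmono t ht).injOn h.1 hx h.2
  -- joint continuity
  have hcont : ContinuousOn (fun p : ℝ × ℝ => X p.1 p.2) K := by
    rintro ⟨t0, y0⟩ ⟨ht0, hy0⟩
    simp only at ht0 hy0
    have hx0 := hX t0 ht0 y0 hy0
    have hYc : ∀ a ∈ Icc (0 : ℝ) 1, ContinuousWithinAt (fun p : ℝ × ℝ => Y p.1 a) K (t0, y0) := by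
      intro a ha
      have h2 : ContinuousOn (fun t => Y t a) s := hY.continuousOn_left ha
      exact ContinuousWithinAt.comp (f := fun p : ℝ × ℝ => p.1) (x := (t0, y0)) (t := s)
        (g := fun t => Y t a) (h2 t0 ht0) continuous_fst.continuousWithinAt (fun p hp => hp.1)
    refine tendsto_order.2 ⟨fun a ha => ?_, fun a ha => ?_⟩
    · by_cases ha0 : a < 0
      · filter_upwards [self_mem_nhdsWithin] with p hp
        exact lt_of_lt_of_le ha0 (hX p.1 hp.1 p.2 hp.2).1.1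
      · push Not at ha0
        have haI : a ∈ Icc (0 : ℝ) 1 := ⟨ha0, ha.le.trans hx0.1.2⟩
        have hlt : Y t0 a < y0 := by
          have := hmono t0 ht0 haI hx0.1 ha
          rwa [hx0.2] at this
        have hev : ∀ᶠ p : ℝ × ℝ in 𝓝[K] (t0, y0), Y p.1 a < p.2 :=
          (hYc a haI).eventually_lt continuous_snd.continuousWithinAt hlt
        filter_upwards [hev, self_mem_nhdsWithin] with p hp hpK
        by_contra hcon
        push Not at hcon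
        have hp' := hX p.1 hpK.1 p.2 hpK.2
        have := (hmono p.1 hpK.1).monotoneOn hp'.1 haI hcon
        rw [hp'.2] at this
        exact absurd hp (not_lt.2 this)
    · by_cases ha1 : 1 < a
      · filter_upwards [self_mem_nhdsWithin] with p hp
        exact lt_of_le_of_lt (hX p.1 hp.1 p.2 hp.2).1.2 ha1
      · push Not at ha1
        have haI : a ∈ Icc (0 : ℝ) 1 := ⟨hx0.1.1.trans ha.le, ha1⟩
        have hlt : y0 < Y t0 a := by
          have := hmono t0 ht0 hx0.1 haI ha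
          rwa [hx0.2] at this
        have hev : ∀ᶠ p : ℝ × ℝ in 𝓝[K] (t0, y0), p.2 < Y p.1 a :=
          continuous_snd.continuousWithinAt.eventually_lt (hYc a haI) hlt
        filter_upwards [hev, self_mem_nhdsWithin] with p hp hpK
        by_contra hcon
        push Not at hcon
        have hp' := hX p.1 hpK.1 p.2 hpK.2
        have := (hmono p.1 hpK.1).monotoneOn haI hp'.1 hcon
        rw [hp'.2] at this
        exact absurd hp (not_lt.2 this)
  -- total derivative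
  have hder : ∀ t ∈ s, ∀ y ∈ Icc (0 : ℝ) 1,
      HasFDerivWithinAt (fun p : ℝ × ℝ => X p.1 p.2)
        ((dx 1 Y t (X t y))⁻¹ • ContinuousLinearMap.snd ℝ ℝ ℝ -
          (dt Y t (X t y) / dx 1 Y t (X t y)) • ContinuousLinearMap.fst ℝ ℝ ℝ) K (t, y) := by
    intro t ht y hy
    have hx := hX t ht y hy
    have hne : dx 1 Y t (X t y) ≠ 0 := (hpos t ht _ hx.1).ne'
    have hF : HasFDerivWithinAt (fun p : ℝ × ℝ => (p.1, Y p.1 p.2))
        ((shear (dt Y t (X t y)) (dx 1 Y t (X t y)) hne : (ℝ × ℝ) ≃L[ℝ] (ℝ × ℝ)) :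
          ℝ × ℝ →L[ℝ] ℝ × ℝ) K (t, X t y) := by
      exact (hasFDerivWithinAt_fst).prodMk (Sm_total hs hY ht hx.1)
    have hG : HasFDerivWithinAt (fun p : ℝ × ℝ => (p.1, X p.1 p.2))
        (((shear (dt Y t (X t y)) (dx 1 Y t (X t y)) hne).symm : (ℝ × ℝ) ≃L[ℝ] (ℝ × ℝ)) :
          ℝ × ℝ →L[ℝ] ℝ × ℝ) K (t, y) := by
      have hty : ((t, y) : ℝ × ℝ) ∈ K := ⟨ht, hy⟩
      have hT : Tendsto (fun p : ℝ × ℝ => (p.1, X p.1 p.2)) (𝓝[K] (t, y)) (𝓝[K] (t, X t y)) := by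
        apply tendsto_nhdsWithin_of_tendsto_nhds_of_eventually_within
        · exact (continuous_fst.continuousWithinAt).prodMk (hcont (t, y) hty)
        · filter_upwards [self_mem_nhdsWithin] with p hp
          exact ⟨hp.1, (hX p.1 hp.1 p.2 hp.2).1⟩
      have hev : ∀ᶠ p : ℝ × ℝ in 𝓝[K] (t, y), (fun p : ℝ × ℝ => (p.1, Y p.1 p.2))
          ((fun p : ℝ × ℝ => (p.1, X p.1 p.2)) p) = p := by
        filter_upwards [self_mem_nhdsWithin] with p hp
        show (p.1, Y p.1 (X p.1 p.2)) = p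
        rw [(hX p.1 hp.1 p.2 hp.2).2]
      exact HasFDerivWithinAt.of_local_left_inverse (g := fun p : ℝ × ℝ => (p.1, X p.1 p.2))
        (f := fun p : ℝ × ℝ => (p.1, Y p.1 p.2)) (s := K) (t := K) (a := (t, y)) hT hF hty hev
    have h2 := (hasFDerivAt_snd (𝕜 := ℝ) (E := ℝ) (F := ℝ)
      (p := (t, X t y))).comp_hasFDerivWithinAt (t, y) hG
    exact h2
  -- bootstrapping
  have hsm : ∀ n : ℕ, ContDiffOn ℝ n (fun p : ℝ × ℝ => X p.1 p.2) K := by
    intro n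
    induction n with
    | zero => simpa [contDiffOn_zero] using hcont
    | succ n ih =>
      have hG : ContDiffOn ℝ n (fun p : ℝ × ℝ => (p.1, X p.1 p.2)) K :=
        contDiff_fst.contDiffOn.prodMk ih
      have hGm : MapsTo (fun p : ℝ × ℝ => (p.1, X p.1 p.2)) K K :=
        fun p hp => ⟨hp.1, (hX p.1 hp.1 p.2 hp.2).1⟩
      have hdx : ContDiffOn ℝ n (fun p : ℝ × ℝ => dx 1 Y p.1 (X p.1 p.2)) K :=
        ContDiffOn.comp (g := fun p : ℝ × ℝ => dx 1 Y p.1 p.2) (t := K)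
          ((hY.dx hs one_pos).of_le (by exact_mod_cast le_top)) hG hGm
      have hdt : ContDiffOn ℝ n (fun p : ℝ × ℝ => dt Y p.1 (X p.1 p.2)) K :=
        ContDiffOn.comp (g := fun p : ℝ × ℝ => dt Y p.1 p.2) (t := K)
          ((hY.dt hs one_pos).of_le (by exact_mod_cast le_top)) hG hGm
      have hne : ∀ p ∈ K, dx 1 Y p.1 (X p.1 p.2) ≠ 0 := fun p hp =>
        (hpos p.1 hp.1 _ (hX p.1 hp.1 p.2 hp.2).1).ne'
      rw [Nat.cast_add, Nat.cast_one]
      rw [contDiffOn_succ_iff_hasFDerivWithinAt_of_uniqueDiffOn hKu]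
      refine ⟨by simp, fun p => (dx 1 Y p.1 (X p.1 p.2))⁻¹ • ContinuousLinearMap.snd ℝ ℝ ℝ -
          (dt Y p.1 (X p.1 p.2) / dx 1 Y p.1 (X p.1 p.2)) • ContinuousLinearMap.fst ℝ ℝ ℝ, ?_,
        fun p hp => hder p.1 hp.1 p.2 hp.2⟩
      exact ((hdx.inv hne).smul contDiffOn_const).sub ((hdt.div hdx hne).smul contDiffOn_const)
  have hXsm : Sm s 1 X := contDiffOn_infty.2 hsm
  refine ⟨X, hXsm, hX, hXY, ?_, ?_⟩
  · intro t ht y hy
    have h2 : HasDerivWithinAt (fun y : ℝ => ((t, y) : ℝ × ℝ)) (0, 1) (Icc 0 1) y :=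
      (hasDerivWithinAt_const y _ t).prodMk (hasDerivWithinAt_id y _)
    have h3 := HasFDerivWithinAt.comp_hasDerivWithinAt (f := fun y : ℝ => ((t, y) : ℝ × ℝ)) y
      (hder t ht y hy) h2 fun z hz => mk_mem_prod ht hz
    have e : (dx 1 Y t (X t y))⁻¹ =
        ((dx 1 Y t (X t y))⁻¹ • ContinuousLinearMap.snd ℝ ℝ ℝ -
          (dt Y t (X t y) / dx 1 Y t (X t y)) • ContinuousLinearMap.fst ℝ ℝ ℝ) ((0, 1) : ℝ × ℝ) := by
      simp
    rw [e]
    exact h3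
  · intro t ht y hy
    have h2 : HasDerivWithinAt (fun r : ℝ => ((r, y) : ℝ × ℝ)) (1, 0) s t :=
      (hasDerivWithinAt_id t _).prodMk (hasDerivWithinAt_const t _ y)
    have h3 := HasFDerivWithinAt.comp_hasDerivWithinAt (f := fun r : ℝ => ((r, y) : ℝ × ℝ)) t
      (hder t ht y hy) h2 fun z hz => mk_mem_prod hz hy
    have h4 := h3.hasDerivAt (hs.mem_nhds ht)
    have e : - dt Y t (X t y) / dx 1 Y t (X t y) =
        ((dx 1 Y t (X t y))⁻¹ • ContinuousLinearMap.snd ℝ ℝ ℝ -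
          (dt Y t (X t y) / dx 1 Y t (X t y)) • ContinuousLinearMap.fst ℝ ℝ ℝ) ((1, 0) : ℝ × ℝ) := by
      simp [neg_div]
    rw [e]
    exact h4

end Crest.Agent.R213.F
end
end

-- ▼ part R213/F/Inv
section

/-!
# Row 213, part F, F1b: the inverse of `YY g` (helper690)
-/

set_option autoImplicit false

open Set MeasureTheory Filter Topology

noncomputable section

namespace Crest.Agent.R213.F

/-- `exists_inv` from the general statement `exists_inverse` (F1a) -/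
theorem exists_inv_of
    (hinv : ∀ {s : Set ℝ}, IsOpen s → ∀ {Y : ℝ → ℝ → ℝ}, Sm s 1 Y →
      (∀ t ∈ s, Y t 0 = 0) → (∀ t ∈ s, Y t 1 = 1) →
      (∀ t ∈ s, ∀ x ∈ Icc (0 : ℝ) 1, 0 < dx 1 Y t x) →
      ∃ X : ℝ → ℝ → ℝ, Sm s 1 X ∧
        (∀ t ∈ s, ∀ y ∈ Icc (0 : ℝ) 1, X t y ∈ Icc (0 : ℝ) 1 ∧ Y t (X t y) = y) ∧
        (∀ t ∈ s, ∀ x ∈ Icc (0 : ℝ) 1, X t (Y t x) = x) ∧
        (∀ t ∈ s, ∀ y ∈ Icc (0 : ℝ) 1,
          HasDerivWithinAt (fun r => X t r) (dx 1 Y t (X t y))⁻¹ (Icc 0 1) y) ∧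
        (∀ t ∈ s, ∀ y ∈ Icc (0 : ℝ) 1,
          HasDerivAt (fun r => X r y) (- dt Y t (X t y) / dx 1 Y t (X t y)) t))
    {T ε : ℝ} {w S f g : ℝ → ℝ → ℝ} (hP : Pot T ε w S f g) :
    ∃ X : ℝ → ℝ → ℝ, Inv T ε w S g X := by
  have hdx : ∀ t ∈ Ioo (-ε) T, ∀ x ∈ Icc (0 : ℝ) 1,
      dx 1 (YY g) t x = Real.exp (g t x) * PP w t x / DD g t x ^ 2 := fun t ht x hx =>
    dx_eq_of_hasDerivWithinAt zero_lt_one hx (hP.hasDerivX_YY ht hx)
  have hdt : ∀ t ∈ Ioo (-ε) T, ∀ x ∈ Icc (0 : ℝ) 1,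
      dt (YY g) t x = -(x * (1 - x) * Real.exp (g t x) * dx 1 S t x) / DD g t x ^ 2 :=
    fun t ht x hx => (hP.hasDerivT_YY ht hx).deriv
  obtain ⟨X, h1, h2, h3, h4, h5⟩ := hinv (s := Ioo (-ε) T) isOpen_Ioo hP.sm_YY
    (fun t _ => YY_zero g t) (fun t _ => YY_one g t) (fun t ht x hx => by
      rw [hdx t ht x hx]
      exact div_pos (mul_pos (Real.exp_pos _) (hP.P_pos ht hx)) (pow_pos (DD_pos g t hx) 2))
  have m0 : (0 : ℝ) ∈ Icc (0 : ℝ) 1 := ⟨le_rfl, zero_le_one⟩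
  have m1 : (1 : ℝ) ∈ Icc (0 : ℝ) 1 := ⟨zero_le_one, le_rfl⟩
  refine ⟨X, ?_⟩
  constructor
  · exact h1
  · exact fun t ht y hy => (h2 t ht y hy).1
  · exact fun t ht y hy => (h2 t ht y hy).2
  · exact h3
  · intro t ht
    have := h3 t ht 0 m0
    rwa [YY_zero] at this
  · intro t ht
    have := h3 t ht 1 m1
    rwa [YY_one] at this
  · intro t ht y hy
    have hy' : y ∈ Icc (0 : ℝ) 1 := ⟨hy.1.le, hy.2⟩
    have h6 := h2 t ht y hy'
    refine lt_of_le_of_ne h6.1.1 fun h => ?_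
    have h7 := h6.2
    rw [← h, YY_zero] at h7
    exact hy.1.ne h7
  · intro t ht y hy
    have hy' : y ∈ Icc (0 : ℝ) 1 := ⟨hy.1, hy.2.le⟩
    have h6 := h2 t ht y hy'
    refine lt_of_le_of_ne h6.1.2 fun h => ?_
    have h7 := h6.2
    rw [h, YY_one] at h7
    exact hy.2.ne' h7
  · intro t ht y hy
    have h6 := (h2 t ht y hy).1
    refine (h4 t ht y hy).congr_deriv ?_
    rw [hdx t ht _ h6, inv_div]
  · intro t ht y hy
    have h6 := (h2 t ht y hy).1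
    have hD := (DD_pos g t h6).ne'
    have hPP := (hP.P_pos ht h6).ne'
    have hE := (Real.exp_pos (g t (X t y))).ne'
    refine (h5 t ht y hy).congr_deriv ?_
    rw [hdx t ht _ h6, hdt t ht _ h6]
    field_simp

theorem exists_inv {T ε : ℝ} {w S f g : ℝ → ℝ → ℝ} (hP : Pot T ε w S f g) :
    ∃ X : ℝ → ℝ → ℝ, Inv T ε w S g X :=
  exists_inv_of (fun hs _ hY h0 h1 hpos => exists_inverse hs hY h0 h1 hpos) hP

end Crest.Agent.R213.F
end
end

-- ▼ part R213/F/HH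
section

/-!
# Row 213, part F, F2: the relative potential as a function of `y` (helper690)
-/

set_option autoImplicit false

open Set MeasureTheory Filter Topology

noncomputable section

namespace Crest.Agent.R213.F

/-- chain rule for `u(t, X(t,y))` in the time variable -/
theorem hasDerivT_comp {s : Set ℝ} (hs : IsOpen s) {u X : ℝ → ℝ → ℝ} (hu : Sm s 1 u)
    {t y a b c : ℝ} (ht : t ∈ s)
    (hX : ∀ r ∈ s, X r y ∈ Icc (0 : ℝ) 1)
    (ha : HasDerivAt (fun r => u r (X t y)) a t)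
    (hb : HasDerivWithinAt (fun r => u t r) b (Icc 0 1) (X t y))
    (hc : HasDerivAt (fun r => X r y) c t) :
    HasDerivAt (fun r => u r (X r y)) (a + b * c) t := by
  have hx := hX t ht
  have hF := (hu.differentiableWithinAt ht hx).hasFDerivWithinAt
  set F' := fderivWithin ℝ (fun p : ℝ × ℝ => u p.1 p.2) (s ×ˢ Icc (0 : ℝ) 1) (t, X t y) with hF'
  have e1 : F' (1, 0) = a := (hasDerivAt_left hs hF ht hx).unique ha
  have e2 : F' (0, 1) = b :=
    (uniqueDiffOn_Icc zero_lt_one (X t y) hx).eq_deriv _ (hasDerivWithinAt_right hF ht) hb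
  have h1 : HasDerivWithinAt (fun r : ℝ => ((r, X r y) : ℝ × ℝ)) (1, c) s t :=
    (hasDerivWithinAt_id t _).prodMk hc.hasDerivWithinAt
  have h2 := HasFDerivWithinAt.comp_hasDerivWithinAt (f := fun r : ℝ => ((r, X r y) : ℝ × ℝ)) t
    hF h1 fun r hr => mk_mem_prod hr (hX r hr)
  have h3 := h2.hasDerivAt (hs.mem_nhds ht)
  refine h3.congr_deriv ?_
  have e3 : ((1, c) : ℝ × ℝ) = (1, 0) + c • ((0, 1) : ℝ × ℝ) := by
    ext <;> simp
  rw [e3, map_add, map_smul, e1, e2, smul_eq_mul, mul_comm c b]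

theorem HH_sm {T ε : ℝ} {w S f g X : ℝ → ℝ → ℝ} (hP : Pot T ε w S f g) (hX : Inv T ε w S g X) :
    Sm (Ioo (-ε) T) 1 (HH f g X) :=
  hP.sm_h0.comp2 Sm.fst hX.sm (fun _ ht _ _ => ht) fun t ht y hy => hX.mem t ht y hy

theorem HH_dt {T ε : ℝ} {w S f g X : ℝ → ℝ → ℝ} (hP : Pot T ε w S f g) (hX : Inv T ε w S g X)
    {t y : ℝ} (ht : t ∈ Ioo (-ε) T) (hy : y ∈ Icc (0 : ℝ) 1) :
    HasDerivAt (fun r => HH f g X r y) (S t (X t y) - 110) t := by
  have hx := hX.mem t ht y hy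
  have hD := (DD_pos g t hx).ne'
  have hPP := (hP.P_pos ht hx).ne'
  have h1 := hasDerivT_comp isOpen_Ioo hP.sm_h0 ht (fun r hr => hX.mem r hr y hy)
    (hP.hasDerivT_h0 ht hx) (hP.hasDerivX_h0 ht hx) (hX.dt t ht y hy)
  refine h1.congr_deriv ?_
  have e1 : -((Real.exp (g t (X t y)) - 1) * PP w t (X t y) / DD g t (X t y)) *
      (X t y * (1 - X t y) / PP w t (X t y) * dx 1 S t (X t y)) =
      -((Real.exp (g t (X t y)) - 1) * (X t y * (1 - X t y)) * dx 1 S t (X t y)) /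
        DD g t (X t y) := by
    field_simp
  rw [e1, add_assoc, ← add_div]
  have e2 : (X t y * Real.exp (g t (X t y)) * dx 1 S t (X t y) +
      -((Real.exp (g t (X t y)) - 1) * (X t y * (1 - X t y)) * dx 1 S t (X t y))) =
      X t y * dx 1 S t (X t y) * DD g t (X t y) := by
    unfold DD; ring
  rw [e2, mul_div_cancel_right₀ _ hD]
  ring


end Crest.Agent.R213.F
end
end

-- ▼ part R213/F/Scal
section

/-!
# Row 213, part F, F4c: the scalar curvature identity in one variable (helper465)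
-/

set_option autoImplicit false

open Set MeasureTheory Filter Topology

noncomputable section

namespace Crest.Agent.R213.F

/-! ### derivatives of `Kint` -/

theorem prim_hasDerivAt {F : ℝ → ℝ} (hF : ContinuousOn F (Icc 0 1)) {x : ℝ} (hx : x ∈ Ioo (0 : ℝ) 1) :
    HasDerivAt (fun y => ∫ ξ in (0 : ℝ)..y, F ξ) (F x) x := by
  have hsub : uIcc 0 x ⊆ Icc (0 : ℝ) 1 := by
    rw [uIcc_of_le hx.1.le]; exact Icc_subset_Icc le_rfl hx.2.le
  refine intervalIntegral.integral_hasDerivAt_right (hF.mono hsub).intervalIntegrable ?_ ?_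
  · exact (hF.mono Ioo_subset_Icc_self).stronglyMeasurableAtFilter isOpen_Ioo x hx
  · exact hF.continuousAt (Icc_mem_nhds hx.1 hx.2)

theorem Kint_eq {F : ℝ → ℝ} (hF : ContinuousOn F (Icc 0 1)) {x : ℝ} (hx : x ∈ Icc (0 : ℝ) 1) :
    Kint F x = x * (∫ ξ in (0 : ℝ)..x, ξ ^ 9 * F ξ) - ∫ ξ in (0 : ℝ)..x, ξ ^ 10 * F ξ := by
  have hsub : uIcc 0 x ⊆ Icc (0 : ℝ) 1 := by
    rw [uIcc_of_le hx.1]; exact Icc_subset_Icc le_rfl hx.2
  have h9 : IntervalIntegrable (fun ξ => ξ ^ 9 * F ξ) volume 0 x :=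
    ((continuous_id.pow 9).continuousOn.mul (hF.mono hsub)).intervalIntegrable
  have h10 : IntervalIntegrable (fun ξ => ξ ^ 10 * F ξ) volume 0 x :=
    ((continuous_id.pow 10).continuousOn.mul (hF.mono hsub)).intervalIntegrable
  unfold Kint
  rw [← intervalIntegral.integral_const_mul, ← intervalIntegral.integral_sub (h9.const_mul x) h10]
  congr 1
  ext ξ
  ring

theorem Kint_hasDerivAt {F : ℝ → ℝ} (hF : ContinuousOn F (Icc 0 1)) {x : ℝ}
    (hx : x ∈ Ioo (0 : ℝ) 1) :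
    HasDerivAt (Kint F) (∫ ξ in (0 : ℝ)..x, ξ ^ 9 * F ξ) x := by
  have c9 : ContinuousOn (fun ξ : ℝ => ξ ^ 9 * F ξ) (Icc 0 1) :=
    (continuous_id.pow 9).continuousOn.mul hF
  have c10 : ContinuousOn (fun ξ : ℝ => ξ ^ 10 * F ξ) (Icc 0 1) :=
    (continuous_id.pow 10).continuousOn.mul hF
  have h1 := ((hasDerivAt_id x).mul (prim_hasDerivAt c9 hx)).sub (prim_hasDerivAt c10 hx)
  have h2 : HasDerivAt (Kint F) (1 * (∫ ξ in (0 : ℝ)..x, ξ ^ 9 * F ξ) + id x * (x ^ 9 * F x) -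
      x ^ 10 * F x) x := by
    refine h1.congr_of_eventuallyEq ?_
    filter_upwards [Icc_mem_nhds hx.1 hx.2] with y hy
    rw [Kint_eq hF hy]
    simp
  convert h2 using 1
  simp only [id]
  ring

/-! ### the ODE: `110 r + 22 x r' + x² r'' = S` -/

theorem ode_of_Kint {r r1 r2 F : ℝ → ℝ} (hF : ContinuousOn F (Icc 0 1))
    (hr : ∀ x ∈ Icc (0 : ℝ) 1, HasDerivWithinAt r (r1 x) (Icc 0 1) x)
    (hr1 : ∀ x ∈ Icc (0 : ℝ) 1, HasDerivWithinAt r1 (r2 x) (Icc 0 1) x)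
    (hr2 : ContinuousOn r2 (Icc 0 1))
    (hK : ∀ x ∈ Icc (0 : ℝ) 1, x ^ 11 * r x = Kint F x) :
    ∀ x ∈ Icc (0 : ℝ) 1, 110 * r x + 22 * x * r1 x + x ^ 2 * r2 x = F x := by
  have hrc : ContinuousOn r (Icc 0 1) := fun x hx => (hr x hx).continuousWithinAt
  have hr1c : ContinuousOn r1 (Icc 0 1) := fun x hx => (hr1 x hx).continuousWithinAt
  have c9 : ContinuousOn (fun ξ : ℝ => ξ ^ 9 * F ξ) (Icc 0 1) :=
    (continuous_id.pow 9).continuousOn.mul hF
  have hin : ∀ x ∈ Ioo (0 : ℝ) 1, 110 * r x + 22 * x * r1 x + x ^ 2 * r2 x = F x := by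
    have d1 : ∀ x ∈ Ioo (0 : ℝ) 1,
        11 * x ^ 10 * r x + x ^ 11 * r1 x = ∫ ξ in (0 : ℝ)..x, ξ ^ 9 * F ξ := by
      intro x hx
      have e1 := (hasDerivAt_pow 11 x).mul ((hr x (Ioo_subset_Icc_self hx)).hasDerivAt
        (Icc_mem_nhds hx.1 hx.2))
      have e2 : HasDerivAt (fun y => y ^ 11 * r y) (∫ ξ in (0 : ℝ)..x, ξ ^ 9 * F ξ) x := by
        refine (Kint_hasDerivAt hF hx).congr_of_eventuallyEq ?_
        filter_upwards [Icc_mem_nhds hx.1 hx.2] with y hy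
        exact hK y hy
      have e3 := e1.unique e2
      rw [← e3]
      norm_num
    intro x hx
    have e0 := (hr x (Ioo_subset_Icc_self hx)).hasDerivAt (Icc_mem_nhds hx.1 hx.2)
    have e0' := (hr1 x (Ioo_subset_Icc_self hx)).hasDerivAt (Icc_mem_nhds hx.1 hx.2)
    have e1 : HasDerivAt (fun y => 11 * y ^ 10 * r y + y ^ 11 * r1 y)
        ((11 * (10 * x ^ 9)) * r x + 11 * x ^ 10 * r1 x + (11 * x ^ 10 * r1 x + x ^ 11 * r2 x)) x := by
      have a1 : HasDerivAt (fun y : ℝ => 11 * y ^ 10) (11 * (10 * x ^ 9)) x := by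
        have := (hasDerivAt_pow 10 x).const_mul (11 : ℝ)
        simpa using this
      have a2 : HasDerivAt (fun y : ℝ => y ^ 11) (11 * x ^ 10) x := by
        have := hasDerivAt_pow 11 x
        simpa using this
      exact (a1.mul e0).add (a2.mul e0')
    have e2 : HasDerivAt (fun y => 11 * y ^ 10 * r y + y ^ 11 * r1 y) (x ^ 9 * F x) x := by
      refine (prim_hasDerivAt c9 hx).congr_of_eventuallyEq ?_
      filter_upwards [Ioo_mem_nhds hx.1 hx.2] with y hy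
      exact d1 y hy
    have e3 := e1.unique e2
    have hx9 : x ^ 9 ≠ 0 := pow_ne_zero 9 hx.1.ne'
    apply mul_left_cancel₀ hx9
    rw [← e3]
    ring
  have hcl : closure (Ioo (0 : ℝ) 1) = Icc 0 1 := closure_Ioo (by norm_num)
  have := Set.EqOn.of_subset_closure (s := Ioo (0 : ℝ) 1) (t := Icc (0 : ℝ) 1)
    (f := fun x => 110 * r x + 22 * x * r1 x + x ^ 2 * r2 x) (g := F) hin
    (((continuousOn_const.mul hrc).add ((continuousOn_const.mul continuousOn_id).mul hr1c)).add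
      ((continuous_id.pow 2).continuousOn.mul hr2)) hF Ioo_subset_Icc_self hcl.ge
  exact this

/-! ### the one-dimensional data -/

/-- `r = (1+(1-x)w)/P` -/
def RR (w : ℝ → ℝ → ℝ) (t x : ℝ) : ℝ := (1 + (1 - x) * w t x) / PP w t x

section
variable {T ε : ℝ} {w S f g X : ℝ → ℝ → ℝ}

theorem PP_pos (hP : Pot T ε w S f g) {t x : ℝ} (ht : t ∈ Ioo (-ε) T) (hx : x ∈ Icc (0 : ℝ) 1) :
    0 < PP w t x := hP.flow.pos t ht x hx

theorem PP_sm (hP : Pot T ε w S f g) : Sm (Ioo (-ε) T) 1 (PP w) := by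
  unfold PP
  exact (Sm.const 1).add ((Sm.snd.mul ((Sm.const 1).sub Sm.snd)).mul hP.flow.smw)

theorem RR_sm (hP : Pot T ε w S f g) : Sm (Ioo (-ε) T) 1 (RR w) := by
  unfold RR
  exact ((Sm.const 1).add (((Sm.const 1).sub Sm.snd).mul hP.flow.smw)).div (PP_sm hP)
    (fun t ht x hx => (PP_pos hP ht hx).ne')

theorem RR_Kint (hP : Pot T ε w S f g) {t x : ℝ} (ht : t ∈ Ioo (-ε) T) (hx : x ∈ Icc (0 : ℝ) 1) :
    x ^ 11 * RR w t x = Kint (S t) x := by
  rw [← hP.flow.scal t ht x hx]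
  have h := PP_pos hP ht hx
  unfold RR
  unfold PP at h ⊢
  field_simp
  ring

/-- `S = 110 r + 22 x r' + x² r''` -/
theorem RR_ode (hP : Pot T ε w S f g) {t : ℝ} (ht : t ∈ Ioo (-ε) T) :
    ∀ x ∈ Icc (0 : ℝ) 1, 110 * RR w t x + 22 * x * dx 1 (RR w) t x +
      x ^ 2 * dx 1 (dx 1 (RR w)) t x = S t x := by
  have h1 := RR_sm hP
  have h2 := h1.dx isOpen_Ioo one_pos
  have h3 := h2.dx isOpen_Ioo one_pos
  exact ode_of_Kint (hP.flow.smS.continuousOn_right ht) (fun x hx => h1.hasDx one_pos ht hx)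
    (fun x hx => h2.hasDx one_pos ht hx) (h3.continuousOn_right ht) (fun x hx => RR_Kint hP ht hx)

theorem PP_hasDeriv (hP : Pot T ε w S f g) {t x : ℝ} (ht : t ∈ Ioo (-ε) T)
    (hx : x ∈ Icc (0 : ℝ) 1) :
    HasDerivWithinAt (PP w t) ((1 - 2 * x) * w t x + x * (1 - x) * dx 1 w t x) (Icc 0 1) x := by
  have hw := hP.flow.smw.hasDx one_pos ht hx
  have h0 := hasDerivWithinAt_id x (Icc (0 : ℝ) 1)
  have h1 := ((h0.mul (h0.const_sub 1)).mul hw).const_add 1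
  refine h1.congr_deriv ?_
  simp only [id, Pi.mul_apply]
  ring

theorem RR_dx (hP : Pot T ε w S f g) {t x : ℝ} (ht : t ∈ Ioo (-ε) T) (hx : x ∈ Icc (0 : ℝ) 1) :
    dx 1 (RR w) t x = ((-(w t x) + (1 - x) * dx 1 w t x) * PP w t x -
      (1 + (1 - x) * w t x) * ((1 - 2 * x) * w t x + x * (1 - x) * dx 1 w t x)) /
      PP w t x ^ 2 := by
  have hw := hP.flow.smw.hasDx one_pos ht hx
  have h0 := hasDerivWithinAt_id x (Icc (0 : ℝ) 1)
  have h1 := ((h0.const_sub 1).mul hw).const_add 1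
  have h2 := h1.div (PP_hasDeriv hP ht hx) (PP_pos hP ht hx).ne'
  have h3 : HasDerivWithinAt (RR w t) (((-(w t x) + (1 - x) * dx 1 w t x) * PP w t x -
      (1 + (1 - x) * w t x) * ((1 - 2 * x) * w t x + x * (1 - x) * dx 1 w t x)) /
      PP w t x ^ 2) (Icc 0 1) x := by
    refine h2.congr_deriv ?_
    simp only [id, Pi.mul_apply]
    ring
  exact h3.derivWithin (uniqueDiffOn_Icc one_pos x hx)

/-- `N = ψ' - 10 r = -(11 r + x r')` -/
def NN (w : ℝ → ℝ → ℝ) (t x : ℝ) : ℝ := -(11 * RR w t x + x * dx 1 (RR w) t x)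

/-- `N'` -/
def NN1 (w : ℝ → ℝ → ℝ) (t x : ℝ) : ℝ :=
  -(12 * dx 1 (RR w) t x + x * dx 1 (dx 1 (RR w)) t x)

theorem NN_hasDeriv (hP : Pot T ε w S f g) {t x : ℝ} (ht : t ∈ Ioo (-ε) T)
    (hx : x ∈ Icc (0 : ℝ) 1) :
    HasDerivWithinAt (NN w t) (NN1 w t x) (Icc 0 1) x := by
  have h1 := RR_sm hP
  have h2 := h1.dx isOpen_Ioo one_pos
  have e1 := h1.hasDx one_pos ht hx
  have e2 := h2.hasDx one_pos ht hx
  have h0 := hasDerivWithinAt_id x (Icc (0 : ℝ) 1)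
  have h3 := ((e1.const_mul 11).add (h0.mul e2)).neg
  refine h3.congr_deriv ?_
  simp only [id, NN1]
  ring

theorem NN_eq (hP : Pot T ε w S f g) {t x : ℝ} (ht : t ∈ Ioo (-ε) T) (hx : x ∈ Icc (0 : ℝ) 1) :
    NN w t x = (-11 - 10 * (1 - x) * w t x) / PP w t x -
      (1 - x) * ((1 - 2 * x) * w t x + x * (1 - x) * dx 1 w t x) / PP w t x ^ 2 := by
  have h := PP_pos hP ht hx
  unfold NN
  rw [RR_dx hP ht hx]
  unfold RR
  have hPP : PP w t x = 1 + x * (1 - x) * w t x := rfl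
  field_simp
  rw [hPP]
  ring

/-- the function `l` with `L0 ρ = l (x(ρ))` -/
def ll (w g : ℝ → ℝ → ℝ) (t x : ℝ) : ℝ :=
  11 * Real.log (1 - x) - 10 * g t x - Real.log (PP w t x)

theorem ll_hasDeriv (hP : Pot T ε w S f g) {t x : ℝ} (ht : t ∈ Ioo (-ε) T)
    (hx : x ∈ Icc (0 : ℝ) 1) (hx1 : x < 1) :
    HasDerivWithinAt (ll w g t) (-11 / (1 - x) - 10 * w t x -
      ((1 - 2 * x) * w t x + x * (1 - x) * dx 1 w t x) / PP w t x) (Icc 0 1) x := by
  have h0 := hasDerivWithinAt_id x (Icc (0 : ℝ) 1)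
  have e1 := ((h0.const_sub 1).log (by simp only [id]; linarith)).const_mul 11
  have e2 := (hP.gx t ht x hx).const_mul 10
  have e3 := (PP_hasDeriv hP ht hx).log (PP_pos hP ht hx).ne'
  refine ((e1.sub e2).sub e3).congr_deriv ?_
  simp only [id]
  ring

theorem xr_mem_Ico (hX : Inv T ε w S g X) {t ρ : ℝ} (ht : t ∈ Ioo (-ε) T) (hρ : 0 ≤ ρ) :
    xr X t ρ ∈ Icc (0 : ℝ) 1 ∧ xr X t ρ < 1 := by
  have h1 : ρ / (1 + ρ) ∈ Ico (0 : ℝ) 1 := by
    constructor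
    · positivity
    · rw [div_lt_one (by linarith)]; linarith
  exact ⟨hX.mem t ht _ ⟨h1.1, h1.2.le⟩, hX.lt_one t ht _ h1⟩

/-- `ρ (1-x) = x e^g` -/
theorem rho_eq (hX : Inv T ε w S g X) {t ρ : ℝ} (ht : t ∈ Ioo (-ε) T) (hρ : 0 ≤ ρ) :
    ρ * (1 - xr X t ρ) = xr X t ρ * Real.exp (g t (xr X t ρ)) := by
  have h1 : ρ / (1 + ρ) ∈ Icc (0 : ℝ) 1 := by
    constructor
    · positivity
    · rw [div_le_one (by linarith)]; linarith
  have h2 := hX.YX t ht _ h1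
  obtain ⟨h3, h4⟩ := xr_mem_Ico hX ht hρ
  change YY g t (xr X t ρ) = _ at h2
  generalize xr X t ρ = x at *
  unfold YY DD at h2
  have he := Real.exp_pos (g t x)
  have hD : 0 < 1 - x + x * Real.exp (g t x) := by
    have := mul_nonneg h3.1 he.le
    linarith
  rw [div_eq_div_iff hD.ne' (by linarith)] at h2
  linarith

theorem rho_K1 (hX : Inv T ε w S g X) {t ρ : ℝ} (ht : t ∈ Ioo (-ε) T) (hρ : 0 ≤ ρ) :
    ρ * K1 g X t ρ = xr X t ρ := by
  unfold K1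
  rw [← mul_assoc, rho_eq hX ht hρ, mul_assoc, ← Real.exp_add]
  simp

theorem K1_pos' (hX : Inv T ε w S g X) {t ρ : ℝ} (ht : t ∈ Ioo (-ε) T) (hρ : 0 ≤ ρ) :
    0 < K1 g X t ρ := by
  have := (xr_mem_Ico hX ht hρ).2
  unfold K1
  exact mul_pos (by linarith) (Real.exp_pos _)

theorem L0_eq (hP : Pot T ε w S f g) (hX : Inv T ε w S g X) {t ρ : ℝ} (ht : t ∈ Ioo (-ε) T)
    (hρ : 0 ≤ ρ)
    (hadd : K1 g X t ρ + ρ * K2 w g X t ρ =
      (1 - xr X t ρ) ^ 2 * Real.exp (-(g t (xr X t ρ))) / PP w t (xr X t ρ)) :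
    L0 w g X t ρ = ll w g t (xr X t ρ) := by
  obtain ⟨h3, h4⟩ := xr_mem_Ico hX ht hρ
  have hPP := PP_pos hP ht h3
  unfold L0 ll
  rw [hadd]
  unfold K1
  generalize xr X t ρ = x at *
  have h1x : 0 < 1 - x := by linarith
  have he := Real.exp_pos (-(g t x))
  rw [Real.log_mul (by positivity) (by positivity), Real.log_pow,
    Real.log_mul h1x.ne' he.ne', Real.log_exp, Real.log_div (by positivity) hPP.ne',
    Real.log_mul (by positivity) he.ne', Real.log_pow, Real.log_exp]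
  push_cast
  ring

/-- F4c with the outputs of F4a as hypotheses -/
theorem exists_L_of (hP : Pot T ε w S f g) (hX : Inv T ε w S g X) {t : ℝ}
    (ht : t ∈ Ioo (-ε) T)
    (hK1 : ∀ ρ, 0 ≤ ρ → HasDerivWithinAt (K1 g X t) (K2 w g X t ρ) (Ici 0) ρ)
    (hadd : ∀ ρ, 0 ≤ ρ → K1 g X t ρ + ρ * K2 w g X t ρ =
      (1 - xr X t ρ) ^ 2 * Real.exp (-(g t (xr X t ρ))) / PP w t (xr X t ρ) ∧
      0 < K1 g X t ρ + ρ * K2 w g X t ρ)
    (hxr : ∀ ρ, 0 ≤ ρ → HasDerivWithinAt (xr X t)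
      ((1 - xr X t ρ) ^ 2 * Real.exp (-(g t (xr X t ρ))) / PP w t (xr X t ρ)) (Ici 0) ρ) :
    ∃ L1 L2 : ℝ → ℝ,
      (∀ ρ, 0 ≤ ρ → HasDerivWithinAt (L0 w g X t) (L1 ρ) (Ici 0) ρ) ∧
      (∀ ρ, 0 ≤ ρ → HasDerivWithinAt L1 (L2 ρ) (Ici 0) ρ) ∧
      ∀ ρ, 0 ≤ ρ → -(9 * (L1 ρ / K1 g X t ρ) +
        (L1 ρ + ρ * L2 ρ) / (K1 g X t ρ + ρ * K2 w g X t ρ)) = S t (xr X t ρ) := by
  have hmaps : MapsTo (xr X t) (Ici 0) (Icc (0 : ℝ) 1) := fun ρ hρ => (xr_mem_Ico hX ht hρ).1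
  refine ⟨fun ρ => NN w t (xr X t ρ) * K1 g X t ρ,
    fun ρ => NN1 w t (xr X t ρ) * (K1 g X t ρ + ρ * K2 w g X t ρ) * K1 g X t ρ +
      NN w t (xr X t ρ) * K2 w g X t ρ, ?_, ?_, ?_⟩
  · intro ρ hρ
    obtain ⟨h3, h4⟩ := xr_mem_Ico hX ht hρ
    have hPP := PP_pos hP ht h3
    have e1 := (ll_hasDeriv hP ht h3 h4).comp ρ (hxr ρ hρ) hmaps
    have e2 : HasDerivWithinAt (L0 w g X t) ((-11 / (1 - xr X t ρ) - 10 * w t (xr X t ρ) -
      ((1 - 2 * xr X t ρ) * w t (xr X t ρ) + xr X t ρ * (1 - xr X t ρ) * dx 1 w t (xr X t ρ)) /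
        PP w t (xr X t ρ)) * ((1 - xr X t ρ) ^ 2 * Real.exp (-(g t (xr X t ρ))) /
        PP w t (xr X t ρ))) (Ici 0) ρ := by
      refine e1.congr (fun y hy => ?_) ?_
      · exact L0_eq hP hX ht hy (hadd y hy).1
      · exact L0_eq hP hX ht hρ (hadd ρ hρ).1
    refine e2.congr_deriv ?_
    beta_reduce
    rw [NN_eq hP ht h3]
    unfold K1
    generalize xr X t ρ = x at *
    have h1x : 1 - x ≠ 0 := by
      have : 0 < 1 - x := by linarith
      exact this.ne'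
    have hPP' := hPP.ne'
    field_simp
  · intro ρ hρ
    obtain ⟨h3, h4⟩ := xr_mem_Ico hX ht hρ
    have e1 := (NN_hasDeriv hP ht h3).comp ρ (hxr ρ hρ) hmaps
    rw [← (hadd ρ hρ).1] at e1
    exact e1.mul (hK1 ρ hρ)
  · intro ρ hρ
    obtain ⟨h3, h4⟩ := xr_mem_Ico hX ht hρ
    have hk := K1_pos' hX ht hρ
    have hA := (hadd ρ hρ).2
    have e1 : NN w t (xr X t ρ) * K1 g X t ρ / K1 g X t ρ = NN w t (xr X t ρ) := by
      field_simp
    have e2 : (NN w t (xr X t ρ) * K1 g X t ρ + ρ * (NN1 w t (xr X t ρ) *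
        (K1 g X t ρ + ρ * K2 w g X t ρ) * K1 g X t ρ + NN w t (xr X t ρ) * K2 w g X t ρ)) /
        (K1 g X t ρ + ρ * K2 w g X t ρ) =
        NN w t (xr X t ρ) + xr X t ρ * NN1 w t (xr X t ρ) := by
      rw [div_eq_iff hA.ne', ← rho_K1 hX ht hρ]
      have := rho_K1 hX ht hρ
      rw [this]
      generalize xr X t ρ = x at *
      rw [← this]
      ring
    simp only
    rw [e1, e2, ← RR_ode hP ht _ h3]
    unfold NN NN1
    ring

end

end Crest.Agent.R213.F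
end
end

-- ▼ part R213/F/ScalMain
section

/-!
# Row 213, part F, F4c: `exists_L`   (helper465, helper926)
-/

set_option autoImplicit false

open Set MeasureTheory Filter Topology

noncomputable section

namespace Crest.Agent.R213.F

theorem exists_L {T ε : ℝ} {w S f g X : ℝ → ℝ → ℝ} (hP : Pot T ε w S f g)
    (hX : Inv T ε w S g X) {t : ℝ} (ht : t ∈ Ioo (-ε) T) :
    ∃ L1 L2 : ℝ → ℝ,
      (∀ ρ, 0 ≤ ρ → HasDerivWithinAt (L0 w g X t) (L1 ρ) (Ici 0) ρ) ∧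
      (∀ ρ, 0 ≤ ρ → HasDerivWithinAt L1 (L2 ρ) (Ici 0) ρ) ∧
      ∀ ρ, 0 ≤ ρ → -(9 * (L1 ρ / K1 g X t ρ) +
        (L1 ρ + ρ * L2 ρ) / (K1 g X t ρ + ρ * K2 w g X t ρ)) = S t (xr X t ρ) :=
  exists_L_of hP hX ht (fun _ hρ => hasDeriv_K1 hP hX ht hρ) (fun _ hρ => K1_add hP hX ht hρ)
    (fun _ hρ => hasDeriv_xr hP hX ht hρ)

end Crest.Agent.R213.F
end
end

-- ▼ part R213/F/Radial
section

/-!
# Row 213, part F, file F3: radial potentials in `ℂⁿ`
-/

set_option autoImplicit false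

open Set MeasureTheory Filter Topology
open Crest.GeometryTopology.ProjKahler
open scoped ComplexOrder

noncomputable section

namespace Crest.Agent.R213.F

namespace Rad

/-- coordinate as a real-linear map -/
def cd {n : ℕ} (i : Fin n) : V n →L[ℝ] ℂ :=
  (EuclideanSpace.proj i : EuclideanSpace ℂ (Fin n) →L[ℂ] ℂ).restrictScalars ℝ

@[simp] theorem cd_apply {n : ℕ} (i : Fin n) (z : V n) : cd i z = z i := rfl

/-- the derivative of `‖u‖²` -/
def dN {n : ℕ} (z : V n) : V n →L[ℝ] ℝ :=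
  ∑ i, ((2 * (z i).re) • (Complex.reCLM.comp (cd i)) + (2 * (z i).im) • (Complex.imCLM.comp (cd i)))

theorem dN_apply {n : ℕ} (z v : V n) :
    dN z v = ∑ i, (2 * (z i).re * (v i).re + 2 * (z i).im * (v i).im) := by
  simp [dN]

theorem normSq_eq {n : ℕ} (z : V n) : ‖z‖ ^ 2 = ∑ i, ((z i).re ^ 2 + (z i).im ^ 2) := by
  rw [EuclideanSpace.norm_sq_eq]
  refine Finset.sum_congr rfl fun i _ => ?_
  rw [← Complex.normSq_eq_norm_sq, Complex.normSq_apply]
  ring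

theorem hasFDerivAt_normSq {n : ℕ} (z : V n) :
    HasFDerivAt (fun u : V n => ‖u‖ ^ 2) (dN z) z := by
  have h : (fun u : V n => ‖u‖ ^ 2) = fun u : V n => ∑ i, ((u i).re ^ 2 + (u i).im ^ 2) := by
    funext u; exact normSq_eq u
  rw [h]
  unfold dN
  refine HasFDerivAt.fun_sum fun i _ => ?_
  have hr : HasFDerivAt (fun u : V n => (u i).re) (Complex.reCLM.comp (cd i)) z :=
    (Complex.reCLM.comp (cd i)).hasFDerivAt
  have hi : HasFDerivAt (fun u : V n => (u i).im) (Complex.imCLM.comp (cd i)) z :=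
    (Complex.imCLM.comp (cd i)).hasFDerivAt
  have h1 := (hr.pow 2).add (hi.pow 2)
  refine h1.congr_fderiv ?_
  ext v
  simp
  

theorem dN_bv {n : ℕ} (z : V n) (a : Fin n) : dN z (bv a) = 2 * (z a).re := by
  rw [dN_apply]
  rw [Finset.sum_eq_single a]
  · simp [bv]
  · intro b _ hb
    simp [bv, hb]
  · simp

theorem dN_Ibv {n : ℕ} (z : V n) (a : Fin n) : dN z (Complex.I • bv a) = 2 * (z a).im := by
  rw [dN_apply]
  rw [Finset.sum_eq_single a]
  · simp [bv]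
  · intro b _ hb
    simp [bv, hb]
  · simp

theorem hasFDerivAt_comp {n : ℕ} {K K' : ℝ → ℝ}
    (h1 : ∀ ρ, 0 ≤ ρ → HasDerivWithinAt K (K' ρ) (Ici 0) ρ) (z : V n) :
    HasFDerivAt (fun u : V n => K (‖u‖ ^ 2)) (K' (‖z‖ ^ 2) • dN z) z := by
  have h := (h1 (‖z‖ ^ 2) (by positivity)).comp_hasFDerivAt (f := fun u : V n => ‖u‖ ^ 2) z
    (hasFDerivAt_normSq z) (Filter.Eventually.of_forall fun u => by
      show (0:ℝ) ≤ ‖u‖ ^ 2
      positivity)
  exact h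

theorem hasFDerivAt_ofReal {n : ℕ} {f : V n → ℝ} {f' : V n →L[ℝ] ℝ} {z : V n}
    (h : HasFDerivAt f f' z) :
    HasFDerivAt (fun u => (f u : ℂ)) (Complex.ofRealCLM.comp f') z :=
  Complex.ofRealCLM.hasFDerivAt.comp z h

theorem dzbar_radial {n : ℕ} {K K' : ℝ → ℝ}
    (h1 : ∀ ρ, 0 ≤ ρ → HasDerivWithinAt K (K' ρ) (Ici 0) ρ) (z : V n) (b : Fin n) :
    dzbar (fun u : V n => ((K (‖u‖ ^ 2) : ℝ) : ℂ)) z b = (K' (‖z‖ ^ 2) : ℂ) * z b := by
  have h := (hasFDerivAt_ofReal (hasFDerivAt_comp h1 z)).fderiv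
  unfold dzbar
  rw [h]
  simp only [ContinuousLinearMap.comp_apply, smul_apply, dN_bv, dN_Ibv,
    Complex.ofRealCLM_apply, smul_eq_mul]
  apply Complex.ext <;> simp <;> ring

theorem dz_eq {n : ℕ} {f : V n → ℂ} {f' : V n →L[ℝ] ℂ} {z : V n} (h : HasFDerivAt f f' z)
    (a : Fin n) : dz f z a = (f' (bv a) - Complex.I * f' (Complex.I • bv a)) / 2 := by
  unfold dz
  rw [h.fderiv]

end Rad

open Rad

theorem cHess_radial {n : ℕ} {K K' K'' : ℝ → ℝ}
    (h1 : ∀ ρ, 0 ≤ ρ → HasDerivWithinAt K (K' ρ) (Ici 0) ρ)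
    (h2 : ∀ ρ, 0 ≤ ρ → HasDerivWithinAt K' (K'' ρ) (Ici 0) ρ) (z : V n) (a b : Fin n) :
    cHess (fun u : V n => K (‖u‖ ^ 2)) z a b =
      (if a = b then (K' (‖z‖ ^ 2) : ℂ) else 0) +
        (K'' (‖z‖ ^ 2) : ℂ) * (starRingEnd ℂ (z a)) * z b := by
  unfold cHess
  rw [Matrix.of_apply]
  have hfun : (fun w : V n => dzbar (fun u : V n => ((K (‖u‖ ^ 2) : ℝ) : ℂ)) w b) =
      fun w : V n => ((K' (‖w‖ ^ 2) : ℝ) : ℂ) * w b := by
    funext w; exact dzbar_radial h1 w b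
  rw [hfun]
  have hK := hasFDerivAt_ofReal (hasFDerivAt_comp h2 z)
  have hc : HasFDerivAt (fun w : V n => w b) (cd b) z := (cd b).hasFDerivAt
  have h := hK.mul hc
  refine (dz_eq (f := fun w : V n => ((K' (‖w‖ ^ 2) : ℝ) : ℂ) * w b) h a).trans ?_
  simp only [add_apply, smul_apply,
    ContinuousLinearMap.comp_apply, Complex.ofRealCLM_apply, dN_bv, dN_Ibv, cd_apply, smul_eq_mul]
  by_cases hab : a = b
  · subst hab
    simp only [bv, if_true]
    apply Complex.ext <;> simp <;> ring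
  · have hba : b ≠ a := fun h => hab h.symm
    simp only [bv, if_neg hab]
    have e1 : (EuclideanSpace.single a (1:ℂ) : V n) b = 0 := by simp [hba]
    have e2 : (Complex.I • (EuclideanSpace.single a (1:ℂ)) : V n) b = 0 := by simp [hba]
    rw [e1, e2]
    apply Complex.ext <;> simp <;> ring

namespace Rad

open Matrix

/-- `α 1 + β z̄ ⊗ z` -/
def GG {n : ℕ} (z : V n) (α β : ℝ) : Matrix (Fin n) (Fin n) ℂ :=
  (α : ℂ) • (1 : Matrix (Fin n) (Fin n) ℂ) +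
    (β : ℂ) • Matrix.vecMulVec (star (fun i => z i)) (fun i => z i)

theorem cHess_eq_GG {n : ℕ} {K K' K'' : ℝ → ℝ}
    (h1 : ∀ ρ, 0 ≤ ρ → HasDerivWithinAt K (K' ρ) (Ici 0) ρ)
    (h2 : ∀ ρ, 0 ≤ ρ → HasDerivWithinAt K' (K'' ρ) (Ici 0) ρ) (z : V n) :
    cHess (fun u : V n => K (‖u‖ ^ 2)) z = GG z (K' (‖z‖ ^ 2)) (K'' (‖z‖ ^ 2)) := by
  ext a b
  rw [cHess_radial h1 h2]
  simp only [GG, Matrix.add_apply, Matrix.smul_apply, Matrix.one_apply, Matrix.vecMulVec_apply,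
    Pi.star_apply, smul_eq_mul, mul_ite, mul_one, mul_zero, RCLike.star_def]
  ring

theorem dot_self {n : ℕ} (z : V n) :
    (fun i => z i) ⬝ᵥ star (fun i => z i) = ((‖z‖ ^ 2 : ℝ) : ℂ) := by
  rw [EuclideanSpace.norm_sq_eq]
  simp only [dotProduct, Pi.star_apply, RCLike.star_def]
  rw [Complex.ofReal_sum]
  refine Finset.sum_congr rfl fun i _ => ?_
  rw [Complex.mul_conj, Complex.normSq_eq_norm_sq]

theorem GG_mul {n : ℕ} (z : V n) (α β γ δ : ℝ) :
    GG z α β * GG z γ δ = GG z (α * γ) (α * δ + β * γ + β * δ * ‖z‖ ^ 2) := by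
  have hd := dot_self z
  unfold GG
  simp only [Matrix.add_mul, Matrix.mul_add, Matrix.smul_mul, Matrix.mul_smul, Matrix.one_mul,
    Matrix.mul_one, Matrix.vecMulVec_mul_vecMulVec, hd]
  ext a b
  simp only [Matrix.add_apply, Matrix.smul_apply, Matrix.one_apply, Matrix.vecMulVec_apply,
    Pi.star_apply, smul_eq_mul, Pi.smul_apply]
  push_cast
  ring

theorem trace_GG {n : ℕ} (z : V n) (α β : ℝ) :
    (GG z α β).trace = ((n * α + β * ‖z‖ ^ 2 : ℝ) : ℂ) := by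
  unfold GG
  rw [Matrix.trace_add, Matrix.trace_smul, Matrix.trace_smul, Matrix.trace_one,
    Matrix.trace_vecMulVec, dotProduct_comm, dot_self]
  simp
  ring

theorem GG_one {n : ℕ} (z : V n) : GG z 1 0 = 1 := by
  simp [GG]

theorem det_GG {n : ℕ} (z : V (n + 1)) (α β : ℝ) (hα : α ≠ 0) :
    (GG z α β).det = ((α ^ n * (α + ‖z‖ ^ 2 * β) : ℝ) : ℂ) := by
  have hα' : (α : ℂ) ≠ 0 := by exact_mod_cast hα
  have h : GG z α β = (α : ℂ) • (1 + Matrix.replicateCol Unit (((β / α : ℝ) : ℂ) • star (fun i => z i)) *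
      Matrix.replicateRow Unit (fun i => z i)) := by
    unfold GG
    rw [← Matrix.vecMulVec_eq, Matrix.smul_vecMulVec, smul_add, smul_smul]
    congr 2
    push_cast
    field_simp
  rw [h, Matrix.det_smul, Matrix.det_one_add_replicateCol_mul_replicateRow, dotProduct_smul,
    dot_self]
  simp only [Fintype.card_fin, smul_eq_mul]
  push_cast
  field_simp
  ring

theorem GG_inv {n : ℕ} (z : V n) (α β : ℝ) (hα : α ≠ 0) (hβ : α + ‖z‖ ^ 2 * β ≠ 0) :
    (GG z α β)⁻¹ = GG z α⁻¹ (-(β / (α * (α + ‖z‖ ^ 2 * β)))) := by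
  apply Matrix.inv_eq_right_inv
  rw [GG_mul, ← GG_one z]
  congr 1
  · field_simp
  · generalize ‖z‖ ^ 2 = r at hβ ⊢
    obtain ⟨D, hD⟩ : ∃ D, D = α + r * β := ⟨_, rfl⟩
    rw [← hD] at hβ ⊢
    have hr : β * r = D - α := by rw [hD]; ring
    have e : α * -(β / (α * D)) + β * α⁻¹ + β * -(β / (α * D)) * r =
        α * -(β / (α * D)) + β * α⁻¹ + -(β / (α * D)) * (β * r) := by ring
    rw [e, hr]
    field_simp
    ring

theorem GG_hermitian {n : ℕ} (z : V n) (α β : ℝ) : (GG z α β).IsHermitian := by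
  ext a b
  simp only [GG, Matrix.conjTranspose_apply, Matrix.add_apply, Matrix.smul_apply,
    Matrix.one_apply, Matrix.vecMulVec_apply, Pi.star_apply, smul_eq_mul, star_add, star_mul',
    RCLike.star_def, Complex.conj_ofReal]
  by_cases hab : a = b
  · subst hab
    simp [mul_comm]
  · have hba : b ≠ a := fun h => hab h.symm
    simp [hab, hba, mul_comm]

theorem GG_posDef {n : ℕ} (z : V n) (α β : ℝ) (hα : 0 < α) (hβ : 0 < α + ‖z‖ ^ 2 * β) :
    (GG z α β).PosDef := by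
  refine Matrix.PosDef.of_dotProduct_mulVec_pos (GG_hermitian z α β) fun x hx => ?_
  have hform : star x ⬝ᵥ (GG z α β *ᵥ x) =
      ((α * ∑ i, ‖x i‖ ^ 2 + β * ‖∑ i, z i * x i‖ ^ 2 : ℝ) : ℂ) := by
    unfold GG
    rw [Matrix.add_mulVec, Matrix.smul_mulVec, Matrix.smul_mulVec, Matrix.one_mulVec,
      Matrix.vecMulVec_mulVec, dotProduct_add, dotProduct_smul, dotProduct_smul]
    have e1 : star x ⬝ᵥ x = ((∑ i, ‖x i‖ ^ 2 : ℝ) : ℂ) := by
      simp only [dotProduct, Pi.star_apply, RCLike.star_def]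
      rw [Complex.ofReal_sum]
      refine Finset.sum_congr rfl fun i _ => ?_
      rw [mul_comm, Complex.mul_conj, Complex.normSq_eq_norm_sq]
    have e2 : star x ⬝ᵥ (MulOpposite.op ((fun i => z i) ⬝ᵥ x) • star (fun i => z i)) =
        ((‖∑ i, z i * x i‖ ^ 2 : ℝ) : ℂ) := by
      rw [← Complex.normSq_eq_norm_sq, ← Complex.mul_conj]
      simp only [dotProduct, Pi.star_apply, Pi.smul_apply, RCLike.star_def, map_sum, map_mul,
        MulOpposite.smul_eq_mul_unop, MulOpposite.unop_op]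
      rw [Finset.mul_sum]
      refine Finset.sum_congr rfl fun i _ => ?_
      ring
    rw [e1, e2]
    push_cast
    simp only [smul_eq_mul]
  rw [hform]
  have hcs : ‖∑ i, z i * x i‖ ^ 2 ≤ ‖z‖ ^ 2 * ∑ i, ‖x i‖ ^ 2 := by
    rw [EuclideanSpace.norm_sq_eq]
    have h1 : ‖∑ i, z i * x i‖ ≤ ∑ i, ‖z i‖ * ‖x i‖ :=
      (norm_sum_le _ _).trans (le_of_eq (by simp))
    calc ‖∑ i, z i * x i‖ ^ 2 ≤ (∑ i, ‖z i‖ * ‖x i‖) ^ 2 :=
          pow_le_pow_left₀ (norm_nonneg _) h1 2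
      _ ≤ (∑ i, ‖z i‖ ^ 2) * ∑ i, ‖x i‖ ^ 2 := Finset.sum_mul_sq_le_sq_mul_sq _ _ _
  have hx0 : 0 < ∑ i, ‖x i‖ ^ 2 := by
    obtain ⟨i, hi⟩ : ∃ i, x i ≠ 0 := by
      by_contra hcon
      push Not at hcon
      exact hx (funext hcon)
    refine Finset.sum_pos' (fun j _ => by positivity) ⟨i, Finset.mem_univ _, by positivity⟩
  have hpos : 0 < α * ∑ i, ‖x i‖ ^ 2 + β * ‖∑ i, z i * x i‖ ^ 2 := by
    set A := ∑ i, ‖x i‖ ^ 2
    set B := ‖∑ i, z i * x i‖ ^ 2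
    have hB : 0 ≤ B := by positivity
    rcases le_total 0 β with hb | hb
    · have := mul_pos hα hx0
      have := mul_nonneg hb hB
      linarith
    · have h2 : β * (‖z‖ ^ 2 * A) ≤ β * B := mul_le_mul_of_nonpos_left hcs hb
      have h3 : 0 < (α + ‖z‖ ^ 2 * β) * A := mul_pos hβ hx0
      nlinarith
  exact_mod_cast hpos

end Rad

theorem posDef_radial {n : ℕ} {K K' K'' : ℝ → ℝ}
    (h1 : ∀ ρ, 0 ≤ ρ → HasDerivWithinAt K (K' ρ) (Ici 0) ρ)
    (h2 : ∀ ρ, 0 ≤ ρ → HasDerivWithinAt K' (K'' ρ) (Ici 0) ρ) (z : V n)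
    (hp1 : 0 < K' (‖z‖ ^ 2)) (hp2 : 0 < K' (‖z‖ ^ 2) + ‖z‖ ^ 2 * K'' (‖z‖ ^ 2)) :
    (cHess (fun u : V n => K (‖u‖ ^ 2)) z).PosDef := by
  rw [cHess_eq_GG h1 h2]
  exact GG_posDef z _ _ hp1 hp2

theorem scalarCurv_radial {K K' K'' L L' L'' : ℝ → ℝ}
    (h1 : ∀ ρ, 0 ≤ ρ → HasDerivWithinAt K (K' ρ) (Ici 0) ρ)
    (h2 : ∀ ρ, 0 ≤ ρ → HasDerivWithinAt K' (K'' ρ) (Ici 0) ρ)
    (hp1 : ∀ ρ, 0 ≤ ρ → 0 < K' ρ) (hp2 : ∀ ρ, 0 ≤ ρ → 0 < K' ρ + ρ * K'' ρ)
    (hL : ∀ ρ, 0 ≤ ρ → L ρ = Real.log (K' ρ ^ 9 * (K' ρ + ρ * K'' ρ)))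
    (h3 : ∀ ρ, 0 ≤ ρ → HasDerivWithinAt L (L' ρ) (Ici 0) ρ)
    (h4 : ∀ ρ, 0 ≤ ρ → HasDerivWithinAt L' (L'' ρ) (Ici 0) ρ) (z : V 10) :
    scalarCurv (fun u : V 10 => K (‖u‖ ^ 2)) z =
      -(9 * (L' (‖z‖ ^ 2) / K' (‖z‖ ^ 2)) +
        (L' (‖z‖ ^ 2) + ‖z‖ ^ 2 * L'' (‖z‖ ^ 2)) /
          (K' (‖z‖ ^ 2) + ‖z‖ ^ 2 * K'' (‖z‖ ^ 2))) := by
  have hlog : (fun w : V 10 => Real.log ((cHess (fun u : V 10 => K (‖u‖ ^ 2)) w).det.re)) =
      fun w : V 10 => L (‖w‖ ^ 2) := by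
    funext w
    have hw : (0:ℝ) ≤ ‖w‖ ^ 2 := by positivity
    rw [cHess_eq_GG h1 h2, det_GG w _ _ (hp1 _ hw).ne', hL _ hw, Complex.ofReal_re]
  have hz : (0:ℝ) ≤ ‖z‖ ^ 2 := by positivity
  unfold scalarCurv
  rw [hlog, cHess_eq_GG h1 h2, cHess_eq_GG h3 h4, GG_inv z _ _ (hp1 _ hz).ne' (hp2 _ hz).ne']
  have htr : (∑ a, ∑ b, GG z (K' (‖z‖ ^ 2))⁻¹ (-(K'' (‖z‖ ^ 2) / (K' (‖z‖ ^ 2) *
        (K' (‖z‖ ^ 2) + ‖z‖ ^ 2 * K'' (‖z‖ ^ 2))))) b a *
      GG z (L' (‖z‖ ^ 2)) (L'' (‖z‖ ^ 2)) a b) =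
      (GG z (K' (‖z‖ ^ 2))⁻¹ (-(K'' (‖z‖ ^ 2) / (K' (‖z‖ ^ 2) *
        (K' (‖z‖ ^ 2) + ‖z‖ ^ 2 * K'' (‖z‖ ^ 2))))) *
      GG z (L' (‖z‖ ^ 2)) (L'' (‖z‖ ^ 2))).trace := by
    rw [Matrix.trace, Finset.sum_comm]
    refine Finset.sum_congr rfl fun b _ => ?_
    rw [Matrix.diag_apply, Matrix.mul_apply]
  rw [htr, GG_mul, trace_GG, Complex.ofReal_re]
  have hA := (hp1 _ hz).ne'
  have hB := (hp2 _ hz).ne'
  generalize K' (‖z‖ ^ 2) = A at *
  generalize K'' (‖z‖ ^ 2) = B at *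
  generalize L' (‖z‖ ^ 2) = C at *
  generalize L'' (‖z‖ ^ 2) = D at *
  generalize ‖z‖ ^ 2 = r at *
  obtain ⟨E, hE⟩ : ∃ E, E = A + r * B := ⟨_, rfl⟩
  rw [← hE] at hB ⊢
  have hr : r * B = E - A := by rw [hE]; ring
  have e1 : (A⁻¹ * D + -(B / (A * E)) * C + -(B / (A * E)) * D * r) * r =
      A⁻¹ * D * r - (r * B) / (A * E) * C - (r * B) / (A * E) * D * r := by ring
  rw [e1, hr]
  field_simp
  push_cast
  ring

end Crest.Agent.R213.F
end
end

-- ▼ part R213/F/Wirt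
section

/-!
# Row 213, part F: Wirtinger calculus on `V n` (helper380)

`HasW f z α β`: `f : V n → ℂ` is real differentiable at `z` with `∂ₐ f = α a`, `∂̄ₐ f = β a`.
-/

set_option autoImplicit false

open Set Filter Topology
open Crest.GeometryTopology.ProjKahler

noncomputable section

namespace Crest.Agent.R213.F.W

variable {n : ℕ}

/-- real linear functional `v ↦ ∑ (α_a v_a + β_a conj v_a)` -/
def WL (α β : Fin n → ℂ) : V n →L[ℝ] ℂ :=
  ∑ a, (α a • ((EuclideanSpace.proj (𝕜 := ℂ) a : V n →L[ℂ] ℂ).restrictScalars ℝ) +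
    β a • ((Complex.conjCLE : ℂ →L[ℝ] ℂ).comp
      ((EuclideanSpace.proj (𝕜 := ℂ) a : V n →L[ℂ] ℂ).restrictScalars ℝ)))

theorem WL_apply (α β : Fin n → ℂ) (v : V n) :
    WL α β v = ∑ a, (α a * v a + β a * (starRingEnd ℂ) (v a)) := by
  simp [WL]

/-- Wirtinger differentiability -/
def HasW (f : V n → ℂ) (z : V n) (α β : Fin n → ℂ) : Prop := HasFDerivAt (𝕜 := ℝ) f (WL α β) z

theorem bv_apply (a b : Fin n) : (bv a : V n) b = if b = a then 1 else 0 := by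
  simp [bv]

theorem WL_bv (α β : Fin n → ℂ) (a : Fin n) : WL α β (bv a) = α a + β a := by
  rw [WL_apply]
  simp only [bv_apply]
  rw [Finset.sum_eq_single a]
  · simp
  · intro b _ hb
    simp [hb]
  · simp

theorem WL_I_bv (α β : Fin n → ℂ) (a : Fin n) :
    WL α β (Complex.I • bv a) = Complex.I * α a - Complex.I * β a := by
  rw [WL_apply]
  have : ∀ b, (Complex.I • (bv a : V n)) b = if b = a then Complex.I else 0 := by
    intro b
    simp [bv_apply]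
  simp only [this]
  rw [Finset.sum_eq_single a]
  · simp; ring
  · intro b _ hb
    simp [hb]
  · simp

theorem HasW.dz {f : V n → ℂ} {z : V n} {α β : Fin n → ℂ} (h : HasW f z α β) (a : Fin n) :
    dz f z a = α a := by
  unfold Crest.GeometryTopology.ProjKahler.dz
  rw [HasFDerivAt.fderiv h, WL_bv, WL_I_bv]
  linear_combination (-(1 / 2) * (α a - β a)) * Complex.I_sq

theorem HasW.dzbar {f : V n → ℂ} {z : V n} {α β : Fin n → ℂ} (h : HasW f z α β) (a : Fin n) :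
    dzbar f z a = β a := by
  unfold Crest.GeometryTopology.ProjKahler.dzbar
  rw [HasFDerivAt.fderiv h, WL_bv, WL_I_bv]
  linear_combination ((1 / 2) * (α a - β a)) * Complex.I_sq

theorem HasW.congr_coeff {f : V n → ℂ} {z : V n} {α β α' β' : Fin n → ℂ} (h : HasW f z α β)
    (ha : ∀ a, α' a = α a) (hb : ∀ a, β' a = β a) : HasW f z α' β' := by
  have e1 : α' = α := funext ha
  have e2 : β' = β := funext hb
  rw [e1, e2]; exact h

theorem HasW.congr_fun {f f' : V n → ℂ} {z : V n} {α β : Fin n → ℂ} (h : HasW f z α β)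
    (hf : ∀ u, f' u = f u) : HasW f' z α β := by
  have e1 : f' = f := funext hf
  rw [e1]; exact h

theorem hasW_const (c : ℂ) (z : V n) : HasW (fun _ => c) z 0 0 := by
  have h : WL (0 : Fin n → ℂ) 0 = 0 := by
    ext v; rw [WL_apply]; simp
  unfold HasW
  rw [h]
  exact hasFDerivAt_const c z

theorem hasW_coord (j : Fin n) (z : V n) :
    HasW (fun u => u j) z (fun a => if a = j then 1 else 0) 0 := by
  have h : WL (fun a => if a = j then (1 : ℂ) else 0) 0 =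
      ((EuclideanSpace.proj (𝕜 := ℂ) j : V n →L[ℂ] ℂ).restrictScalars ℝ) := by
    ext v; rw [WL_apply]; simp
  unfold HasW
  rw [h]
  exact ((EuclideanSpace.proj (𝕜 := ℂ) j : V n →L[ℂ] ℂ).restrictScalars ℝ).hasFDerivAt

theorem hasW_conj (j : Fin n) (z : V n) :
    HasW (fun u => (starRingEnd ℂ) (u j)) z 0 (fun a => if a = j then 1 else 0) := by
  have h : WL 0 (fun a => if a = j then (1 : ℂ) else 0) =
      (Complex.conjCLE : ℂ →L[ℝ] ℂ).comp
      ((EuclideanSpace.proj (𝕜 := ℂ) j : V n →L[ℂ] ℂ).restrictScalars ℝ) := by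
    ext v; rw [WL_apply]; simp
  unfold HasW
  rw [h]
  exact ((Complex.conjCLE : ℂ →L[ℝ] ℂ).comp
      ((EuclideanSpace.proj (𝕜 := ℂ) j : V n →L[ℂ] ℂ).restrictScalars ℝ)).hasFDerivAt

theorem HasW.add {f g : V n → ℂ} {z : V n} {α β α' β' : Fin n → ℂ} (hf : HasW f z α β)
    (hg : HasW g z α' β') : HasW (fun u => f u + g u) z (fun a => α a + α' a)
      (fun a => β a + β' a) := by
  have h : WL (fun a => α a + α' a) (fun a => β a + β' a) = WL α β + WL α' β' := by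
    ext v
    rw [add_apply, WL_apply, WL_apply, WL_apply, ← Finset.sum_add_distrib]
    exact Finset.sum_congr rfl fun a _ => by ring
  unfold HasW
  rw [h]
  exact HasFDerivAt.add hf hg

theorem HasW.sub {f g : V n → ℂ} {z : V n} {α β α' β' : Fin n → ℂ} (hf : HasW f z α β)
    (hg : HasW g z α' β') : HasW (fun u => f u - g u) z (fun a => α a - α' a)
      (fun a => β a - β' a) := by
  have h : WL (fun a => α a - α' a) (fun a => β a - β' a) = WL α β - WL α' β' := by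
    ext v
    rw [sub_apply, WL_apply, WL_apply, WL_apply, ← Finset.sum_sub_distrib]
    exact Finset.sum_congr rfl fun a _ => by ring
  unfold HasW
  rw [h]
  exact HasFDerivAt.sub hf hg

theorem HasW.mul {f g : V n → ℂ} {z : V n} {α β α' β' : Fin n → ℂ} (hf : HasW f z α β)
    (hg : HasW g z α' β') : HasW (fun u => f u * g u) z (fun a => f z * α' a + g z * α a)
      (fun a => f z * β' a + g z * β a) := by
  have h : WL (fun a => f z * α' a + g z * α a) (fun a => f z * β' a + g z * β a) =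
      f z • WL α' β' + g z • WL α β := by
    ext v
    rw [add_apply, smul_apply, smul_apply, WL_apply, WL_apply, WL_apply, smul_eq_mul, smul_eq_mul,
      Finset.mul_sum, Finset.mul_sum, ← Finset.sum_add_distrib]
    exact Finset.sum_congr rfl fun a _ => by ring
  unfold HasW
  rw [h]
  exact HasFDerivAt.mul hf hg

theorem HasW.sum {ι : Type*} {I : Finset ι} {f : ι → V n → ℂ} {z : V n} {α β : ι → Fin n → ℂ}
    (h : ∀ i ∈ I, HasW (f i) z (α i) (β i)) :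
    HasW (fun u => ∑ i ∈ I, f i u) z (fun a => ∑ i ∈ I, α i a) (fun a => ∑ i ∈ I, β i a) := by
  classical
  induction I using Finset.induction_on with
  | empty =>
    simp only [Finset.sum_empty]
    exact hasW_const 0 z
  | insert i I hi ih =>
    simp only [Finset.sum_insert hi]
    exact (h i (Finset.mem_insert_self i I)).add
      (ih fun j hj => h j (Finset.mem_insert_of_mem hj))

/-- composition of a real-valued function with a function of one variable (one-sided) -/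
theorem HasW.comp_within {f : V n → ℝ} {z : V n} {α β : Fin n → ℂ} {K : ℝ → ℝ} {K' : ℝ}
    {S : Set ℝ} (hf : HasW (fun u => (f u : ℂ)) z α β) (hK : HasDerivWithinAt K K' S (f z))
    (hS : ∀ u, f u ∈ S) :
    HasW (fun u => (K (f u) : ℂ)) z (fun a => K' * α a) (fun a => K' * β a) := by
  have hre : HasFDerivAt (𝕜 := ℝ) f (Complex.reCLM.comp (WL α β)) z := by
    have := (Complex.reCLM.hasFDerivAt (x := ((f z : ℝ) : ℂ))).comp z hf
    exact this
  have him : HasFDerivAt (𝕜 := ℝ) (fun _ : V n => (0 : ℝ)) (Complex.imCLM.comp (WL α β)) z := by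
    have := (Complex.imCLM.hasFDerivAt (x := ((f z : ℝ) : ℂ))).comp z hf
    exact this
  have hzero : Complex.imCLM.comp (WL α β) = 0 := him.unique (hasFDerivAt_const (0 : ℝ) z)
  have hreal : ∀ v, WL α β v = (((WL α β v).re : ℝ) : ℂ) := by
    intro v
    have : (WL α β v).im = 0 := by
      have := congrArg (fun T => T v) hzero
      simpa using this
    apply Complex.ext <;> simp [this]
  have hKf : HasFDerivAt (𝕜 := ℝ) (fun u => K (f u)) (K' • (Complex.reCLM.comp (WL α β))) z := by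
    have h1 : HasFDerivWithinAt K (ContinuousLinearMap.toSpanSingleton ℝ K') S (f z) :=
      hK.hasFDerivWithinAt
    have h2 := HasFDerivWithinAt.comp (f := f) (s := univ) z h1 hre.hasFDerivWithinAt
      (fun u _ => hS u)
    rw [hasFDerivWithinAt_univ] at h2
    have e : K' • (Complex.reCLM.comp (WL α β)) =
        (ContinuousLinearMap.toSpanSingleton ℝ K').comp (Complex.reCLM.comp (WL α β)) := by
      ext v
      simp [mul_comm]
    rw [e]
    exact h2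
  have h3 : HasFDerivAt (𝕜 := ℝ) (fun u => ((K (f u) : ℝ) : ℂ))
      (Complex.ofRealCLM.comp (K' • (Complex.reCLM.comp (WL α β)))) z :=
    (Complex.ofRealCLM.hasFDerivAt (x := K (f z))).comp z hKf
  have e : WL (fun a => (K' : ℂ) * α a) (fun a => (K' : ℂ) * β a) =
      Complex.ofRealCLM.comp (K' • (Complex.reCLM.comp (WL α β))) := by
    ext v
    have h4 : (Complex.ofRealCLM.comp (K' • (Complex.reCLM.comp (WL α β)))) v =
        (K' : ℂ) * (((WL α β v).re : ℝ) : ℂ) := by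
      simp
    rw [h4, ← hreal v, WL_apply, WL_apply, Finset.mul_sum]
    exact Finset.sum_congr rfl fun a _ => by ring
  unfold HasW
  rw [e]
  exact h3

theorem HasW.comp_real {f : V n → ℝ} {z : V n} {α β : Fin n → ℂ} {K : ℝ → ℝ} {K' : ℝ}
    (hf : HasW (fun u => (f u : ℂ)) z α β) (hK : HasDerivAt K K' (f z)) :
    HasW (fun u => (K (f u) : ℂ)) z (fun a => K' * α a) (fun a => K' * β a) :=
  hf.comp_within (S := univ) hK.hasDerivWithinAt fun _ => mem_univ _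

/-- `|u_j|²` -/
theorem hasW_sq (j : Fin n) (z : V n) :
    HasW (fun u => ((‖u j‖ ^ 2 : ℝ) : ℂ)) z (fun a => if a = j then (starRingEnd ℂ) (z j) else 0)
      (fun a => if a = j then z j else 0) := by
  have h := (hasW_coord j z).mul (hasW_conj j z)
  refine (h.congr_fun ?_).congr_coeff ?_ ?_
  · intro u
    rw [Complex.mul_conj']
    push_cast
    rfl
  · intro a
    by_cases ha : a = j <;> simp [ha]
  · intro a
    by_cases ha : a = j <;> simp [ha]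

theorem norm_sq_eq_sum (u : V n) : ‖u‖ ^ 2 = ∑ j, ‖u j‖ ^ 2 := EuclideanSpace.norm_sq_eq u

/-- `‖u‖²` -/
theorem hasW_normSq (z : V n) :
    HasW (fun u => ((‖u‖ ^ 2 : ℝ) : ℂ)) z (fun a => (starRingEnd ℂ) (z a)) (fun a => z a) := by
  have h := HasW.sum (I := Finset.univ) (f := fun (j : Fin n) (u : V n) => ((‖u j‖ ^ 2 : ℝ) : ℂ))
    (z := z) (fun j _ => hasW_sq j z)
  refine (h.congr_fun ?_).congr_coeff ?_ ?_
  · intro u
    rw [norm_sq_eq_sum]
    push_cast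
    rfl
  · intro a; simp
  · intro a; simp

end Crest.Agent.R213.F.W
end
end

-- ▼ part R213/F/ChartK
section

/-!
# Row 213, part F, F5b: positivity in the chart `U_k` (helper380)
-/

set_option autoImplicit false

open Set Filter Topology
open Crest.GeometryTopology.ProjKahler
open scoped ComplexOrder

noncomputable section

namespace Crest.Agent.R213.F

open W

namespace CK

variable {n : ℕ} (k : Fin n)

/-- `a = 1 + ‖u‖² - |u_k|²` -/
def ca (u : V n) : ℝ := 1 + ‖u‖ ^ 2 - ‖u k‖ ^ 2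

/-- `q = |u_k|²/a` -/
def cq (u : V n) : ℝ := ‖u k‖ ^ 2 / ca k u

/-- `∂̄ a` -/
def at' (z : V n) (c : Fin n) : ℂ := if c = k then 0 else z c

/-- `∂̄ |u_k|²` -/
def kt (z : V n) (c : Fin n) : ℂ := if c = k then z k else 0

theorem ca_eq (u : V n) : ca k u = 1 + ∑ j ∈ Finset.univ.erase k, ‖u j‖ ^ 2 := by
  unfold ca
  rw [norm_sq_eq_sum, ← Finset.add_sum_erase _ _ (Finset.mem_univ k)]
  ring

theorem ca_ge_one (u : V n) : 1 ≤ ca k u := by
  rw [ca_eq]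
  have : 0 ≤ ∑ j ∈ Finset.univ.erase k, ‖u j‖ ^ 2 := Finset.sum_nonneg fun j _ => by positivity
  linarith

theorem ca_pos (u : V n) : 0 < ca k u := lt_of_lt_of_le one_pos (ca_ge_one k u)

theorem cq_nonneg (u : V n) : 0 ≤ cq k u := div_nonneg (by positivity) (ca_pos k u).le

theorem cq_mul (u : V n) : ‖u k‖ ^ 2 = cq k u * ca k u := by
  unfold cq
  rw [div_mul_cancel₀ _ (ca_pos k u).ne']

theorem hasW_ca (z : V n) :
    HasW (fun u => ((ca k u : ℝ) : ℂ)) z (fun c => (starRingEnd ℂ) (at' k z c)) (at' k z) := by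
  have h := ((hasW_const 1 z).add (hasW_normSq z)).sub (hasW_sq k z)
  refine (h.congr_fun ?_).congr_coeff ?_ ?_
  · intro u
    unfold ca
    push_cast
    rfl
  · intro c
    unfold at'
    by_cases hc : c = k <;> simp [hc]
  · intro c
    unfold at'
    by_cases hc : c = k <;> simp [hc]

theorem hasW_inv_ca (z : V n) :
    HasW (fun u => (((ca k u)⁻¹ : ℝ) : ℂ)) z
      (fun c => ((-(ca k z ^ 2)⁻¹ : ℝ) : ℂ) * (starRingEnd ℂ) (at' k z c))
      (fun c => ((-(ca k z ^ 2)⁻¹ : ℝ) : ℂ) * at' k z c) := by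
  have h := (hasW_ca k z).comp_real (K := fun r => r⁻¹) (hasDerivAt_inv (ca_pos k z).ne')
  exact h

theorem hasW_cq (z : V n) :
    HasW (fun u => ((cq k u : ℝ) : ℂ)) z
      (fun c => ((ca k z)⁻¹ : ℂ) * ((starRingEnd ℂ) (kt k z c) -
        cq k z * (starRingEnd ℂ) (at' k z c)))
      (fun c => ((ca k z)⁻¹ : ℂ) * (kt k z c - cq k z * at' k z c)) := by
  have h := (hasW_sq k z).mul (hasW_inv_ca k z)
  have hne : ((ca k z : ℝ) : ℂ) ≠ 0 := by exact_mod_cast (ca_pos k z).ne'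
  refine (h.congr_fun ?_).congr_coeff ?_ ?_
  · intro u
    unfold cq
    push_cast
    rfl
  · intro c
    rw [cq_mul k z]
    unfold at' kt
    by_cases hc : c = k
    · simp [hc]
    · simp only [hc, if_false]
      push_cast
      field_simp
      simp
  · intro c
    rw [cq_mul k z]
    unfold at' kt
    by_cases hc : c = k
    · simp [hc]
    · simp only [hc, if_false]
      push_cast
      field_simp
      simp

theorem hasW_at (z : V n) (b : Fin n) :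
    HasW (fun u => at' k u b) z (fun c => if c = b ∧ b ≠ k then 1 else 0) 0 := by
  by_cases hb : b = k
  · have : (fun u : V n => at' k u b) = fun _ => 0 := by
      funext u; simp [at', hb]
    rw [this]
    refine (hasW_const 0 z).congr_coeff ?_ ?_
    · intro c; simp [hb]
    · intro c; rfl
  · have : (fun u : V n => at' k u b) = fun u => u b := by
      funext u; simp [at', hb]
    rw [this]
    refine (hasW_coord b z).congr_coeff ?_ ?_
    · intro c; simp [hb]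
    · intro c; rfl

theorem hasW_kt (z : V n) (b : Fin n) :
    HasW (fun u => kt k u b) z (fun c => if c = k ∧ b = k then 1 else 0) 0 := by
  by_cases hb : b = k
  · have : (fun u : V n => kt k u b) = fun u => u k := by
      funext u; simp [kt, hb]
    rw [this]
    refine (hasW_coord k z).congr_coeff ?_ ?_
    · intro c; simp [hb]
    · intro c; rfl
  · have : (fun u : V n => kt k u b) = fun _ => 0 := by
      funext u; simp [kt, hb]
    rw [this]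
    refine (hasW_const 0 z).congr_coeff ?_ ?_
    · intro c; simp [hb]
    · intro c; rfl

variable {M M' M'' : ℝ → ℝ}

/-- the potential -/
def Psi (M : ℝ → ℝ) (u : V n) : ℝ := Real.log (ca k u) + M (cq k u)

theorem dzbar_Psi (h1 : ∀ q, 0 ≤ q → HasDerivWithinAt M (M' q) (Ici 0) q) (z : V n) (b : Fin n) :
    dzbar (fun u => ((Psi k M u : ℝ) : ℂ)) z b =
      ((ca k z)⁻¹ : ℝ) * ((1 - cq k z * M' (cq k z)) * at' k z b + M' (cq k z) * kt k z b) := by
  have hl := (hasW_ca k z).comp_real (K := Real.log) (Real.hasDerivAt_log (ca_pos k z).ne')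
  have hM := (hasW_cq k z).comp_within (K := M) (h1 _ (cq_nonneg k z)) (fun u => cq_nonneg k u)
  have h := hl.add hM
  have h' : HasW (fun u => ((Psi k M u : ℝ) : ℂ)) z _ _ := h.congr_fun (by
    intro u
    unfold Psi
    push_cast
    rfl)
  rw [h'.dzbar]
  push_cast
  ring

/-- explicit form of the complex Hessian -/
def Hm (M' M'' : ℝ → ℝ) (z : V n) (c b : Fin n) : ℂ :=
  ((ca k z)⁻¹ : ℝ) * (((1 - cq k z * M' (cq k z) : ℝ) : ℂ) * (if c = b ∧ b ≠ k then 1 else 0) +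
      (M' (cq k z) : ℂ) * (if c = k ∧ b = k then 1 else 0)) +
    (((ca k z)⁻¹ ^ 2 : ℝ) : ℂ) *
      ((((M' (cq k z) + cq k z * M'' (cq k z)) * cq k z - (1 - cq k z * M' (cq k z)) : ℝ) : ℂ) *
          ((starRingEnd ℂ) (at' k z c) * at' k z b) +
        (M'' (cq k z) : ℂ) * ((starRingEnd ℂ) (kt k z c) * kt k z b) -
        ((M' (cq k z) + cq k z * M'' (cq k z) : ℝ) : ℂ) *
          ((starRingEnd ℂ) (kt k z c) * at' k z b + (starRingEnd ℂ) (at' k z c) * kt k z b))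

theorem cHess_Psi (h1 : ∀ q, 0 ≤ q → HasDerivWithinAt M (M' q) (Ici 0) q)
    (h2 : ∀ q, 0 ≤ q → HasDerivWithinAt M' (M'' q) (Ici 0) q) (z : V n) (c b : Fin n) :
    cHess (Psi k M) z c b = Hm k M' M'' z c b := by
  have e : cHess (Psi k M) z c b =
      dz (fun w => dzbar (fun u => ((Psi k M u : ℝ) : ℂ)) w b) z c := rfl
  rw [e]
  have e2 : (fun w => dzbar (fun u => ((Psi k M u : ℝ) : ℂ)) w b) = fun w =>
      (((ca k w)⁻¹ : ℝ) : ℂ) * ((1 - (cq k w : ℂ) * (M' (cq k w) : ℂ)) * at' k w b +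
        (M' (cq k w) : ℂ) * kt k w b) := by
    funext w
    exact dzbar_Psi k h1 w b
  rw [e2]
  have hM := (hasW_cq k z).comp_within (K := M') (h2 _ (cq_nonneg k z)) (fun u => cq_nonneg k u)
  have hF := (hasW_inv_ca k z).mul ((((hasW_const 1 z).sub ((hasW_cq k z).mul hM)).mul
    (hasW_at k z b)).add (hM.mul (hasW_kt k z b)))
  rw [hF.dz]
  unfold Hm
  simp only [Pi.zero_apply]
  push_cast
  have hne : ((ca k z : ℝ) : ℂ) ≠ 0 := by exact_mod_cast (ca_pos k z).ne'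
  field_simp
  ring

/-- the quadratic form -/
theorem quad (M' M'' : ℝ → ℝ) (z : V n) (x : Fin n → ℂ) :
    star x ⬝ᵥ ((Matrix.of fun c b => Hm k M' M'' z c b).mulVec x) =
      (((ca k z)⁻¹ * ((1 - cq k z * M' (cq k z)) * (∑ j ∈ Finset.univ.erase k, ‖x j‖ ^ 2) +
        M' (cq k z) * ‖x k‖ ^ 2) +
      (ca k z)⁻¹ ^ 2 *
        (((M' (cq k z) + cq k z * M'' (cq k z)) * cq k z - (1 - cq k z * M' (cq k z))) *
            ‖∑ j, at' k z j * x j‖ ^ 2 +
          M'' (cq k z) * ‖z k * x k‖ ^ 2 -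
          (M' (cq k z) + cq k z * M'' (cq k z)) *
            (2 * ((starRingEnd ℂ) (z k * x k) * ∑ j, at' k z j * x j).re)) : ℝ) : ℂ) := by
  have hk : ∑ j, kt k z j * x j = z k * x k := by
    unfold kt
    simp
  have hd1 : ∀ c, ∑ b, (if c = b ∧ b ≠ k then (1 : ℂ) else 0) * x b =
      if c = k then 0 else x c := by
    intro c
    rw [Finset.sum_eq_single c]
    · by_cases hc : c = k <;> simp [hc]
    · intro b _ hb
      have : ¬ (c = b ∧ b ≠ k) := fun h => hb h.1.symm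
      simp [this]
    · simp
  have hd2 : ∀ c, ∑ b, (if c = k ∧ b = k then (1 : ℂ) else 0) * x b =
      if c = k then x k else 0 := by
    intro c
    rw [Finset.sum_eq_single k]
    · by_cases hc : c = k <;> simp [hc]
    · intro b _ hb
      simp [hb]
    · simp
  -- rows
  have hrow : ∀ c, ((Matrix.of fun c b => Hm k M' M'' z c b).mulVec x) c =
      ((ca k z)⁻¹ : ℝ) * (((1 - cq k z * M' (cq k z) : ℝ) : ℂ) * (if c = k then 0 else x c) +
        (M' (cq k z) : ℂ) * (if c = k then x k else 0)) +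
      (((ca k z)⁻¹ ^ 2 : ℝ) : ℂ) *
      ((((M' (cq k z) + cq k z * M'' (cq k z)) * cq k z - (1 - cq k z * M' (cq k z)) : ℝ) : ℂ) *
          ((starRingEnd ℂ) (at' k z c) * ∑ j, at' k z j * x j) +
        (M'' (cq k z) : ℂ) * ((starRingEnd ℂ) (kt k z c) * (z k * x k)) -
        ((M' (cq k z) + cq k z * M'' (cq k z) : ℝ) : ℂ) *
          ((starRingEnd ℂ) (kt k z c) * (∑ j, at' k z j * x j) +
            (starRingEnd ℂ) (at' k z c) * (z k * x k))) := by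
    intro c
    rw [← hd1 c, ← hd2 c, ← hk]
    simp only [Matrix.mulVec, dotProduct, Matrix.of_apply, Hm]
    simp only [Finset.mul_sum, ← Finset.sum_add_distrib, ← Finset.sum_sub_distrib]
    refine Finset.sum_congr rfl fun b _ => ?_
    ring
  have hs1 : ∑ c, (starRingEnd ℂ) (x c) * (if c = k then 0 else x c) =
      ((∑ j ∈ Finset.univ.erase k, ‖x j‖ ^ 2 : ℝ) : ℂ) := by
    rw [← Finset.add_sum_erase _ _ (Finset.mem_univ k)]
    rw [if_pos rfl, mul_zero, zero_add]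
    push_cast
    refine Finset.sum_congr rfl fun j hj => ?_
    rw [if_neg (Finset.ne_of_mem_erase hj), Complex.conj_mul']
  have hs2 : ∑ c, (starRingEnd ℂ) (x c) * (if c = k then x k else 0) = ((‖x k‖ ^ 2 : ℝ) : ℂ) := by
    rw [Finset.sum_eq_single k]
    · rw [if_pos rfl, Complex.conj_mul']
      push_cast
      rfl
    · intro b _ hb
      simp [hb]
    · simp
  have hs3 : ∑ c, (starRingEnd ℂ) (x c) * (starRingEnd ℂ) (at' k z c) =
      (starRingEnd ℂ) (∑ j, at' k z j * x j) := by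
    rw [map_sum]
    exact Finset.sum_congr rfl fun j _ => by rw [map_mul, mul_comm]
  have hs4 : ∑ c, (starRingEnd ℂ) (x c) * (starRingEnd ℂ) (kt k z c) =
      (starRingEnd ℂ) (z k * x k) := by
    rw [← hk, map_sum]
    exact Finset.sum_congr rfl fun j _ => by rw [map_mul, mul_comm]
  set p := ∑ j, at' k z j * x j with hp
  set r := z k * x k with hr
  have hsum : star x ⬝ᵥ ((Matrix.of fun c b => Hm k M' M'' z c b).mulVec x) =
      ((ca k z)⁻¹ : ℝ) * (((1 - cq k z * M' (cq k z) : ℝ) : ℂ) *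
          (∑ c, (starRingEnd ℂ) (x c) * (if c = k then 0 else x c)) +
        (M' (cq k z) : ℂ) * (∑ c, (starRingEnd ℂ) (x c) * (if c = k then x k else 0))) +
      (((ca k z)⁻¹ ^ 2 : ℝ) : ℂ) *
      ((((M' (cq k z) + cq k z * M'' (cq k z)) * cq k z - (1 - cq k z * M' (cq k z)) : ℝ) : ℂ) *
          ((∑ c, (starRingEnd ℂ) (x c) * (starRingEnd ℂ) (at' k z c)) * p) +
        (M'' (cq k z) : ℂ) * ((∑ c, (starRingEnd ℂ) (x c) * (starRingEnd ℂ) (kt k z c)) * r) -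
        ((M' (cq k z) + cq k z * M'' (cq k z) : ℝ) : ℂ) *
          ((∑ c, (starRingEnd ℂ) (x c) * (starRingEnd ℂ) (kt k z c)) * p +
            (∑ c, (starRingEnd ℂ) (x c) * (starRingEnd ℂ) (at' k z c)) * r)) := by
    simp only [dotProduct, hrow, Pi.star_apply]
    simp only [Finset.mul_sum, Finset.sum_mul, ← Finset.sum_add_distrib, ← Finset.sum_sub_distrib]
    refine Finset.sum_congr rfl fun b _ => ?_
    simp only [RCLike.star_def]
    ring
  rw [hsum, hs1, hs2, hs3, hs4]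
  have hpp : (starRingEnd ℂ) p * p = ((‖p‖ ^ 2 : ℝ) : ℂ) := by
    rw [Complex.conj_mul']; push_cast; rfl
  have hrr : (starRingEnd ℂ) r * r = ((‖r‖ ^ 2 : ℝ) : ℂ) := by
    rw [Complex.conj_mul']; push_cast; rfl
  have hpr : (starRingEnd ℂ) r * p + (starRingEnd ℂ) p * r =
      ((2 * ((starRingEnd ℂ) r * p).re : ℝ) : ℂ) := by
    have e : (starRingEnd ℂ) ((starRingEnd ℂ) r * p) = (starRingEnd ℂ) p * r :=
      (map_mul (starRingEnd ℂ) ((starRingEnd ℂ) r) p).trans (by rw [Complex.conj_conj, mul_comm])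
    rw [← e]
    exact Complex.add_conj _
  rw [hpp, hrr, hpr]
  push_cast
  ring

theorem herm (M' M'' : ℝ → ℝ) (z : V n) :
    (Matrix.of fun c b => Hm k M' M'' z c b).IsHermitian := by
  apply Matrix.IsHermitian.ext
  intro i j
  simp only [Matrix.of_apply, Hm, RCLike.star_def, map_add, map_mul, map_sub, Complex.conj_ofReal,
    Complex.conj_conj]
  have e1 : (starRingEnd ℂ) (if j = i ∧ i ≠ k then 1 else 0) = if i = j ∧ j ≠ k then 1 else 0 := by
    by_cases h : i = j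
    · subst h; by_cases h' : i = k <;> simp [h']
    · have h' : ¬ j = i := fun e => h e.symm
      simp [h, h']
  have e2 : (starRingEnd ℂ) (if j = k ∧ i = k then 1 else 0) = if i = k ∧ j = k then 1 else 0 := by
    by_cases h : i = k <;> by_cases h' : j = k <;> simp [h, h']
  rw [e1, e2]
  ring

theorem posDef_Hm (M' M'' : ℝ → ℝ) (z : V n) (hA : 0 < 1 - cq k z * M' (cq k z))
    (hB : 0 < M' (cq k z) + cq k z * M'' (cq k z)) :
    (Matrix.of fun c b => Hm k M' M'' z c b).PosDef := by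
  refine Matrix.PosDef.of_dotProduct_mulVec_pos (herm k M' M'' z) fun x hx => ?_
  rw [quad]
  have ha := ca_pos k z
  have ha1 := ca_ge_one k z
  have hq := cq_nonneg k z
  set A := 1 - cq k z * M' (cq k z) with hAdef
  set N := M' (cq k z) + cq k z * M'' (cq k z) with hNdef
  set p := ∑ j, at' k z j * x j with hp
  set ξ := ∑ j ∈ Finset.univ.erase k, ‖x j‖ ^ 2 with hξ
  have hξ0 : 0 ≤ ξ := Finset.sum_nonneg fun j _ => by positivity
  -- Cauchy-Schwarz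
  have hp' : p = ∑ j ∈ Finset.univ.erase k, z j * x j := by
    rw [hp, ← Finset.add_sum_erase _ _ (Finset.mem_univ k)]
    have : at' k z k = 0 := by simp [at']
    rw [this, zero_mul, zero_add]
    refine Finset.sum_congr rfl fun j hj => ?_
    simp [at', Finset.ne_of_mem_erase hj]
  have hCS : ‖p‖ ^ 2 ≤ (ca k z - 1) * ξ := by
    have h1 : ‖p‖ ≤ ∑ j ∈ Finset.univ.erase k, ‖z j‖ * ‖x j‖ := by
      rw [hp']
      refine (norm_sum_le _ _).trans (le_of_eq ?_)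
      exact Finset.sum_congr rfl fun j _ => norm_mul _ _
    have h2 := Finset.sum_mul_sq_le_sq_mul_sq (Finset.univ.erase k) (fun j => ‖z j‖)
      (fun j => ‖x j‖)
    have h3 : ca k z - 1 = ∑ j ∈ Finset.univ.erase k, ‖z j‖ ^ 2 := by
      rw [ca_eq]; ring
    rw [h3]
    refine le_trans ?_ h2
    have h0 : 0 ≤ ‖p‖ := norm_nonneg _
    gcongr
  have hzk : ‖z k * x k‖ ^ 2 = cq k z * ca k z * ‖x k‖ ^ 2 := by
    rw [norm_mul, mul_pow, cq_mul k z]
  -- the second square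
  have hsq : ‖(ca k z : ℂ) * x k - (starRingEnd ℂ) (z k) * p‖ ^ 2 =
      ca k z ^ 2 * ‖x k‖ ^ 2 - ca k z * (2 * ((starRingEnd ℂ) (z k * x k) * p).re) +
        cq k z * ca k z * ‖p‖ ^ 2 := by
    rw [← Complex.normSq_eq_norm_sq, Complex.normSq_sub, Complex.normSq_mul, Complex.normSq_mul,
      Complex.normSq_ofReal, Complex.normSq_conj, Complex.normSq_eq_norm_sq,
      Complex.normSq_eq_norm_sq, Complex.normSq_eq_norm_sq, cq_mul k z]
    have : (((ca k z : ℝ) : ℂ) * x k * (starRingEnd ℂ) ((starRingEnd ℂ) (z k) * p)).re =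
        ca k z * ((starRingEnd ℂ) (z k * x k) * p).re := by
      rw [map_mul, Complex.conj_conj, mul_assoc, Complex.re_ofReal_mul]
      congr 1
      have : (starRingEnd ℂ) (x k * (z k * (starRingEnd ℂ) p)) =
          (starRingEnd ℂ) (z k * x k) * p := by
        simp only [map_mul, Complex.conj_conj]
        ring
      rw [← this, Complex.conj_re]
    rw [this]
    ring
  have key : (ca k z)⁻¹ * (A * ξ + M' (cq k z) * ‖x k‖ ^ 2) +
      (ca k z)⁻¹ ^ 2 * ((N * cq k z - A) * ‖p‖ ^ 2 + M'' (cq k z) * ‖z k * x k‖ ^ 2 -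
        N * (2 * ((starRingEnd ℂ) (z k * x k) * p).re)) =
      (ca k z)⁻¹ ^ 2 * (A * (ca k z * ξ - ‖p‖ ^ 2)) +
      (ca k z)⁻¹ ^ 3 * (N * ‖(ca k z : ℂ) * x k - (starRingEnd ℂ) (z k) * p‖ ^ 2) := by
    rw [hsq, hzk]
    field_simp
    rw [hNdef]
    ring
  have hpos : 0 < (ca k z)⁻¹ ^ 2 * (A * (ca k z * ξ - ‖p‖ ^ 2)) +
      (ca k z)⁻¹ ^ 3 * (N * ‖(ca k z : ℂ) * x k - (starRingEnd ℂ) (z k) * p‖ ^ 2) := by
    have hge : ξ ≤ ca k z * ξ - ‖p‖ ^ 2 := by linarith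
    have hi : 0 < (ca k z)⁻¹ := inv_pos.2 ha
    by_cases hξz : ξ = 0
    · -- then `x j = 0` for `j ≠ k`, `p = 0`
      have hp0 : p = 0 := by
        have : ‖p‖ ^ 2 ≤ 0 := by rw [hξz, mul_zero] at hCS; exact hCS
        have h3 : ‖p‖ = 0 := by
          have := le_antisymm this (by positivity)
          exact pow_eq_zero_iff (two_ne_zero) |>.1 this
        exact norm_eq_zero.1 h3
      have hxj : ∀ j, j ≠ k → x j = 0 := by
        intro j hj
        have h4 := (Finset.sum_eq_zero_iff_of_nonneg (fun j _ => by positivity)).1 hξz j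
          (Finset.mem_erase.2 ⟨hj, Finset.mem_univ j⟩)
        have h5 : ‖x j‖ = 0 := pow_eq_zero_iff (two_ne_zero) |>.1 h4
        exact norm_eq_zero.1 h5
      have hxk : x k ≠ 0 := by
        intro h
        apply hx
        funext j
        by_cases hj : j = k
        · rw [hj, h]; rfl
        · rw [hxj j hj]; rfl
      rw [hξz, hp0]
      simp only [mul_zero, norm_zero, sub_zero]
      have h6 : 0 < ‖(ca k z : ℂ) * x k‖ ^ 2 := by
        have : (ca k z : ℂ) ≠ 0 := by exact_mod_cast ha.ne'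
        have : 0 < ‖(ca k z : ℂ) * x k‖ := norm_pos_iff.2 (mul_ne_zero this hxk)
        positivity
      have h7 : (0 : ℝ) ^ 2 = 0 := by norm_num
      rw [h7]
      have : 0 < (ca k z)⁻¹ ^ 3 * (N * ‖(ca k z : ℂ) * x k‖ ^ 2) := by positivity
      linarith
    · have hξp : 0 < ξ := lt_of_le_of_ne hξ0 (Ne.symm hξz)
      have h8 : 0 < ca k z * ξ - ‖p‖ ^ 2 := lt_of_lt_of_le hξp hge
      have h9 : 0 < (ca k z)⁻¹ ^ 2 * (A * (ca k z * ξ - ‖p‖ ^ 2)) := by positivity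
      have h10 : 0 ≤ (ca k z)⁻¹ ^ 3 *
          (N * ‖(ca k z : ℂ) * x k - (starRingEnd ℂ) (z k) * p‖ ^ 2) := by positivity
      linarith
  rw [key]
  exact_mod_cast hpos

end CK

theorem posDef_chartK {n : ℕ} (k : Fin n) {M M' M'' : ℝ → ℝ}
    (h1 : ∀ q, 0 ≤ q → HasDerivWithinAt M (M' q) (Ici 0) q)
    (h2 : ∀ q, 0 ≤ q → HasDerivWithinAt M' (M'' q) (Ici 0) q)
    (hA : ∀ q, 0 ≤ q → 0 < 1 - q * M' q) (hB : ∀ q, 0 ≤ q → 0 < M' q + q * M'' q) (w : V n) :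
    (cHess (fun u : V n => Real.log (1 + ‖u‖ ^ 2 - ‖u k‖ ^ 2) +
      M (‖u k‖ ^ 2 / (1 + ‖u‖ ^ 2 - ‖u k‖ ^ 2))) w).PosDef := by
  have e : (cHess (fun u : V n => Real.log (1 + ‖u‖ ^ 2 - ‖u k‖ ^ 2) +
      M (‖u k‖ ^ 2 / (1 + ‖u‖ ^ 2 - ‖u k‖ ^ 2))) w) =
      Matrix.of fun c b => CK.Hm k M' M'' w c b := by
    ext c b
    exact CK.cHess_Psi k h1 h2 w c b
  rw [e]
  exact CK.posDef_Hm k M' M'' w (hA _ (CK.cq_nonneg k w)) (hB _ (CK.cq_nonneg k w))

end Crest.Agent.R213.F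
end
end

-- ▼ part R213/F/Geo
section

/-!
# Row 213, F6: assembly of part F: from the reduced flow to the Calabi flow on `ℂP¹⁰`   (helper926)
-/

set_option autoImplicit false

open Set MeasureTheory Filter Topology
open Crest.GeometryTopology.ProjKahler
open scoped ComplexOrder

noncomputable section

namespace Crest.Agent.R213.F

/-! ### the two coordinates `y` -/

/-- `y` in the affine chart -/
def y0 {n : ℕ} (z : V n) : ℝ := ‖z‖ ^ 2 / (1 + ‖z‖ ^ 2)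

/-- `y` in the chart `U_k` -/
def yk {n : ℕ} (k : Fin n) (w : V n) : ℝ := (1 + ‖w‖ ^ 2 - ‖w k‖ ^ 2) / (1 + ‖w‖ ^ 2)

theorem y0_mem {n : ℕ} (z : V n) : y0 z ∈ Icc (0 : ℝ) 1 := by
  unfold y0
  have h : 0 ≤ ‖z‖ ^ 2 := by positivity
  constructor
  · positivity
  · rw [div_le_one (by positivity)]
    linarith

theorem norm_apply_sq_le {n : ℕ} (k : Fin n) (w : V n) : ‖w k‖ ^ 2 ≤ ‖w‖ ^ 2 := by
  rw [EuclideanSpace.norm_sq_eq]
  exact Finset.single_le_sum (f := fun i => ‖w i‖ ^ 2) (fun i _ => by positivity)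
    (Finset.mem_univ k)

theorem yk_mem {n : ℕ} (k : Fin n) (w : V n) : yk k w ∈ Icc (0 : ℝ) 1 := by
  unfold yk
  have h := norm_apply_sq_le k w
  have h1 : 0 ≤ ‖w k‖ ^ 2 := by positivity
  constructor
  · apply div_nonneg <;> linarith [sq_nonneg ‖w‖]
  · rw [div_le_one (by positivity)]
    linarith

theorem norm_transition {n : ℕ} (k : Fin n) (w : V n) (hw : w k ≠ 0) :
    ‖transition k w‖ ^ 2 = (1 + ‖w‖ ^ 2 - ‖w k‖ ^ 2) / ‖w k‖ ^ 2 := by
  have hk : ‖w k‖ ^ 2 ≠ 0 := by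
    have := norm_ne_zero_iff.2 hw
    positivity
  rw [EuclideanSpace.norm_sq_eq, EuclideanSpace.norm_sq_eq,
    ← Finset.add_sum_erase _ _ (Finset.mem_univ k),
    ← Finset.add_sum_erase (a := k) Finset.univ (fun i => ‖w i‖ ^ 2) (Finset.mem_univ k)]
  have h1 : ‖(transition k w) k‖ ^ 2 = 1 / ‖w k‖ ^ 2 := by
    simp [transition]
  have h2 : ∑ i ∈ Finset.univ.erase k, ‖(transition k w) i‖ ^ 2 =
      (∑ i ∈ Finset.univ.erase k, ‖w i‖ ^ 2) / ‖w k‖ ^ 2 := by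
    rw [Finset.sum_div]
    apply Finset.sum_congr rfl
    intro i hi
    have hne : i ≠ k := Finset.ne_of_mem_erase hi
    simp [transition, hne, div_pow]
  rw [h1, h2]
  field_simp
  ring

theorem yk_eq {n : ℕ} (k : Fin n) (w : V n) (hw : w k ≠ 0) : yk k w = y0 (transition k w) := by
  have hk : 0 < ‖w k‖ ^ 2 := by
    have := norm_pos_iff.2 hw
    positivity
  unfold yk y0
  rw [norm_transition k w hw]
  have h1 : 0 < 1 + ‖w‖ ^ 2 := by positivity
  have h2 : 1 + (1 + ‖w‖ ^ 2 - ‖w k‖ ^ 2) / ‖w k‖ ^ 2 = (1 + ‖w‖ ^ 2) / ‖w k‖ ^ 2 := by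
    field_simp
    ring
  rw [h2, div_div_div_cancel_right₀ hk.ne']

theorem contDiff_y0 {n : ℕ} : ContDiff ℝ (⊤ : ℕ∞) (y0 : V n → ℝ) := by
  unfold y0
  have h : ContDiff ℝ (⊤ : ℕ∞) (fun z : V n => ‖z‖ ^ 2) := contDiff_norm_sq ℂ
  exact h.div (contDiff_const.add h) (fun z => by positivity)

theorem contDiff_yk {n : ℕ} (k : Fin n) : ContDiff ℝ (⊤ : ℕ∞) (yk k : V n → ℝ) := by
  unfold yk
  have h : ContDiff ℝ (⊤ : ℕ∞) (fun z : V n => ‖z‖ ^ 2) := contDiff_norm_sq ℂ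
  have h1 : ContDiff ℝ (⊤ : ℕ∞) (fun z : V n => z k) :=
    ((EuclideanSpace.proj k : V n →L[ℂ] ℂ).restrictScalars ℝ).contDiff
  have h2 : ContDiff ℝ (⊤ : ℕ∞) (fun z : ℂ => ‖z‖ ^ 2) := contDiff_norm_sq ℂ
  exact ((contDiff_const.add h).sub (h2.comp h1)).div (contDiff_const.add h)
    (fun z => by positivity)

/-- the relative potentials -/
def PE (f g X : ℝ → ℝ → ℝ) (t : ℝ) : ProjExtension 10 where
  h z := HH f g X t (y0 z)
  ext k w := HH f g X t (yk k w)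
  agree k w hw := by rw [yk_eq k w hw]

theorem PE_pot0 (f g X : ℝ → ℝ → ℝ) (t : ℝ) :
    (fun u : V 10 => fsPot u + (PE f g X t).h u) = fun u : V 10 => K0 f g X t (‖u‖ ^ 2) := rfl

theorem PE_potk (f g X : ℝ → ℝ → ℝ) (t : ℝ) (k : Fin 10) :
    (fun u : V 10 => fsPot u + (PE f g X t).ext k u) =
      fun u : V 10 => Real.log (1 + ‖u‖ ^ 2 - ‖u k‖ ^ 2) +
        M0 f g X t (‖u k‖ ^ 2 / (1 + ‖u‖ ^ 2 - ‖u k‖ ^ 2)) := by
  funext u
  have h := norm_apply_sq_le k u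
  set a := 1 + ‖u‖ ^ 2 - ‖u k‖ ^ 2 with ha
  have ha0 : 0 < a := by rw [ha]; linarith
  have h1 : 0 < 1 + ‖u‖ ^ 2 := by positivity
  have h2 : 1 + ‖u k‖ ^ 2 / a = (1 + ‖u‖ ^ 2) / a := by
    rw [eq_div_iff ha0.ne', add_mul, div_mul_cancel₀ _ ha0.ne', ha]
    ring
  unfold M0
  rw [h2, one_div_div, Real.log_div h1.ne' ha0.ne']
  show Real.log (1 + ‖u‖ ^ 2) + HH f g X t (yk k u) = _
  unfold yk
  rw [← ha]
  ring

section

variable {T ε : ℝ} {w S f g X : ℝ → ℝ → ℝ}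

theorem scal_PE (hP : Pot T ε w S f g) (hX : Inv T ε w S g X) {t : ℝ} (ht : t ∈ Ioo (-ε) T)
    (z : V 10) :
    scalarCurv (fun u => fsPot u + (PE f g X t).h u) z = S t (X t (y0 z)) := by
  obtain ⟨L1, L2, h1, h2, h3⟩ := exists_L hP hX ht
  rw [PE_pot0, scalarCurv_radial (K := K0 f g X t) (K' := K1 g X t) (K'' := K2 w g X t)
    (L := L0 w g X t) (L' := L1) (L'' := L2)
    (fun ρ hρ => hasDeriv_K0 hP hX ht hρ) (fun ρ hρ => hasDeriv_K1 hP hX ht hρ)
    (fun ρ hρ => K1_pos hP hX ht hρ) (fun ρ hρ => (K1_add hP hX ht hρ).2)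
    (fun ρ _ => rfl) h1 h2 z, h3 _ (by positivity)]
  rfl

theorem kahler_PE (hP : Pot T ε w S f g) (hX : Inv T ε w S g X) {t : ℝ} (ht : t ∈ Ioo (-ε) T) :
    IsKahlerWith fsPot (PE f g X t) := by
  have hsm := HH_sm hP hX
  refine ⟨?_, ?_, ?_, ?_⟩
  · rw [← contDiffOn_univ]
    have h1 : ContDiffOn ℝ (⊤ : ℕ∞) (fun z : V 10 => ((t, y0 z) : ℝ × ℝ)) univ :=
      (contDiff_const.prodMk contDiff_y0).contDiffOn
    exact ContDiffOn.comp (g := fun p : ℝ × ℝ => HH f g X p.1 p.2) hsm h1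
      (fun z _ => ⟨ht, y0_mem z⟩)
  · intro k
    rw [← contDiffOn_univ]
    have h1 : ContDiffOn ℝ (⊤ : ℕ∞) (fun z : V 10 => ((t, yk k z) : ℝ × ℝ)) univ :=
      (contDiff_const.prodMk (contDiff_yk k)).contDiffOn
    exact ContDiffOn.comp (g := fun p : ℝ × ℝ => HH f g X p.1 p.2) hsm h1
      (fun z _ => ⟨ht, yk_mem k z⟩)
  · intro z
    rw [PE_pot0]
    exact posDef_radial (K := K0 f g X t) (K' := K1 g X t) (K'' := K2 w g X t)
      (fun ρ hρ => hasDeriv_K0 hP hX ht hρ) (fun ρ hρ => hasDeriv_K1 hP hX ht hρ) z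
      (K1_pos hP hX ht (by positivity)) (K1_add hP hX ht (by positivity)).2
  · intro k z
    rw [PE_potk]
    exact posDef_chartK k (M := M0 f g X t) (M' := M1 g X t) (M'' := M2 w g X t)
      (fun q hq => hasDeriv_M0 hP hX ht hq) (fun q hq => hasDeriv_M1 hP hX ht hq)
      (fun q hq => (M_pos hP hX ht hq).1) (fun q hq => (M_pos hP hX ht hq).2) z

theorem flow_PE (hP : Pot T ε w S f g) (hX : Inv T ε w S g X) :
    IsCalabiFlowFS (PE f g X) T := by
  have hε := hP.flow.eps_pos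
  have hsm := HH_sm hP hX
  have hI : ∀ t ∈ Ico (0 : ℝ) T, t ∈ Ioo (-ε) T := fun t ht => ⟨by linarith [ht.1], ht.2⟩
  refine ⟨fun t ht => kahler_PE hP hX (hI t ht), ?_, ?_, ?_⟩
  · have h1 : ContDiffOn ℝ (⊤ : ℕ∞) (fun p : ℝ × V 10 => ((p.1, y0 p.2) : ℝ × ℝ))
        (Ico 0 T ×ˢ univ) :=
      (contDiff_fst.prodMk (contDiff_y0.comp contDiff_snd)).contDiffOn
    exact ContDiffOn.comp (g := fun p : ℝ × ℝ => HH f g X p.1 p.2) hsm h1
      (fun p hp => ⟨hI _ hp.1, y0_mem p.2⟩)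
  · intro k
    have h1 : ContDiffOn ℝ (⊤ : ℕ∞) (fun p : ℝ × V 10 => ((p.1, yk k p.2) : ℝ × ℝ))
        (Ico 0 T ×ˢ univ) :=
      (contDiff_fst.prodMk ((contDiff_yk k).comp contDiff_snd)).contDiffOn
    exact ContDiffOn.comp (g := fun p : ℝ × ℝ => HH f g X p.1 p.2) hsm h1
      (fun p hp => ⟨hI _ hp.1, yk_mem k p.2⟩)
  · intro t ht z
    have ht' : t ∈ Ioo (-ε) T := hI t ⟨ht.1.le, ht.2⟩
    rw [scal_PE hP hX ht' z]
    have h1 := (HH_dt hP hX ht' (y0_mem z)).deriv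
    have h2 : (((10 : ℕ) : ℝ) * (((10 : ℕ) : ℝ) + 1)) = 110 := by norm_num
    rw [h2]
    exact h1

theorem inv_PE (t : ℝ) : IsUnitarilyInvariant (PE f g X t).h := by
  intro U z
  show HH f g X t (y0 (U z)) = HH f g X t (y0 z)
  unfold y0
  rw [U.norm_map]

end

end Crest.Agent.R213.F

namespace Crest.Agent.R213

open F

/-- **Part F** -/
theorem geo {T ε a : ℝ} {w S : ℝ → ℝ → ℝ} (hF : Flow T ε w S) (ha : 0 < a)
    (hlim : Tendsto (fun t => S t 0 * √(T - t)) (𝓝[<] T) (𝓝 a)) :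
    ∃ T : ℝ, 0 < T ∧ ∃ h : ℝ → ProjExtension 10, IsCalabiFlowFS h T ∧
      IsUnitarilyInvariant (h 0).h ∧
      ∃ (p : V 10) (a : ℝ), 0 < a ∧
        Filter.Tendsto (fun t => scalarCurv (fun u => fsPot u + (h t).h u) p * Real.sqrt (T - t))
          (nhdsWithin T (Set.Iio T)) (nhds a) := by
  obtain ⟨f, g, hP⟩ := exists_pot hF
  obtain ⟨X, hX⟩ := exists_inv hP
  refine ⟨T, hF.T_pos, PE f g X, flow_PE hP hX, inv_PE 0, 0, a, ha, ?_⟩
  refine hlim.congr' ?_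
  have h1 : Ioo (-ε) T ∈ 𝓝[<] T :=
    Ioo_mem_nhdsLT (by linarith [hF.T_pos, hF.eps_pos])
  filter_upwards [h1] with t ht
  rw [scal_PE hP hX ht 0]
  have h2 : y0 (0 : V 10) = 0 := by simp [y0]
  rw [h2, hX.zero t ht]

end Crest.Agent.R213
end
end

-- ▼ part R213/Fin331
section

/-! Row 213: final assembly, from the cell facts of the certificate. -/

set_option autoImplicit false
open Crest.GeometryTopology.ProjKahler
open Crest Crest.GeometryTopology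

namespace Crest.Agent.R213

theorem result_of_soliton (hsol : ∃ (c A : ℝ) (g gh : ℝ → ℝ), Soliton c A g gh) :
    ∃ T : ℝ, 0 < T ∧ ∃ h : ℝ → ProjExtension 10, IsCalabiFlowFS h T ∧
      IsUnitarilyInvariant (h 0).h ∧
      ∃ (p : V 10) (a : ℝ), 0 < a ∧
        Filter.Tendsto (fun t => scalarCurv (fun u => fsPot u + (h t).h u) p * Real.sqrt (T - t))
          (nhdsWithin T (Set.Iio T)) (nhds a) := by
  have hlin : LinStmt := lin_of (fun hg => weak_exists hg)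
    (fun hc0 hB _ _ _ _ _ hE hh hbm hdm hb hd h1 h2 => reg hc0 hB hE hh hbm hdm hb hd h1 h2)
  obtain ⟨T, ε, a, w, S, hF, ha, hlim⟩ := P.flow_exists_of hsol (fun hg => bg_exists hg)
    (fun hg => C.pde_main_of_lin hg (hlin hg))
  exact geo hF ha hlim

end Crest.Agent.R213
end

-- ▼ part R213/E/CSound
section

/-!
# Row 213, part E: soundness of the cell checks (helper223)
-/

set_option autoImplicit false

open Set

namespace Crest.Agent.R213.E.C.Kr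

/-! ### real inequalities -/

/-- the residual of `g + e k` from the three polynomial bounds. -/
theorem real_bound {c0 e δ g k Pg Pk y b gl kb r f x : ℝ} (hc0 : 0 < c0) (hδ : 0 ≤ δ)
    (hcδ : 0 < c0 - δ) (he : |e| ≤ δ) (hgl : 0 < gl) (hg : gl ≤ g) (hk : |k| ≤ kb)
    (hglk : 0 < gl - δ * kb) (hy : 0 ≤ y) (hyb : y ≤ b)
    (h1 : |c0 * g * (Pg + 90) + y ^ 2 / 2 * (g - c0)| ≤ r)
    (h2 : |c0 ^ 2 * g ^ 2 * Pk + y ^ 2 / 2 * (c0 ^ 2 * k - g ^ 2)| ≤ f)
    (h3 : |y ^ 2 * (g ^ 3 - c0 ^ 3 * k ^ 2)| ≤ x) :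
    |Pg + e * Pk + 90 + y ^ 2 / 2 * (1 / (c0 + e) - 1 / (g + e * k))| ≤
      r / (c0 * gl) + δ * (f / (c0 ^ 2 * gl ^ 2)) + δ ^ 2 * (x / (2 * c0 ^ 3 * gl ^ 3))
        + δ ^ 3 * (b ^ 2 / 2) * (1 / ((c0 - δ) * c0 ^ 3) + kb ^ 3 / ((gl - δ * kb) * gl ^ 3)) := by
  have hg0 : 0 < g := hgl.trans_le hg
  have hkb : 0 ≤ kb := (abs_nonneg k).trans hk
  have hr : 0 ≤ r := (abs_nonneg _).trans h1
  have hf : 0 ≤ f := (abs_nonneg _).trans h2
  have hx : 0 ≤ x := (abs_nonneg _).trans h3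
  obtain ⟨e1, e2⟩ := abs_le.1 he
  have hc : 0 < c0 + e := by linarith
  have hek : |e * k| ≤ δ * kb := by rw [abs_mul]; gcongr
  have hG : gl - δ * kb ≤ g + e * k := by
    have := (abs_le.1 hek).1; linarith
  have hG0 : 0 < g + e * k := hglk.trans_le hG
  -- decomposition
  have key : Pg + e * Pk + 90 + y ^ 2 / 2 * (1 / (c0 + e) - 1 / (g + e * k)) =
      (c0 * g * (Pg + 90) + y ^ 2 / 2 * (g - c0)) / (c0 * g)
      + e * ((c0 ^ 2 * g ^ 2 * Pk + y ^ 2 / 2 * (c0 ^ 2 * k - g ^ 2)) / (c0 ^ 2 * g ^ 2))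
      + e ^ 2 * (y ^ 2 * (g ^ 3 - c0 ^ 3 * k ^ 2) / (2 * c0 ^ 3 * g ^ 3))
      + e ^ 3 * (y ^ 2 / 2) * (-(1 / ((c0 + e) * c0 ^ 3)) + k ^ 3 / ((g + e * k) * g ^ 3)) := by
    have a1 := hc0.ne'
    have a2 := hg0.ne'
    have a3 := hc.ne'
    have a4 := hG0.ne'
    field_simp
    ring
  rw [key]
  have t1 : |(c0 * g * (Pg + 90) + y ^ 2 / 2 * (g - c0)) / (c0 * g)| ≤ r / (c0 * gl) := by
    rw [abs_div, abs_of_pos (by positivity : 0 < c0 * g)]
    gcongr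
  have t2 : |e * ((c0 ^ 2 * g ^ 2 * Pk + y ^ 2 / 2 * (c0 ^ 2 * k - g ^ 2)) / (c0 ^ 2 * g ^ 2))|
      ≤ δ * (f / (c0 ^ 2 * gl ^ 2)) := by
    rw [abs_mul, abs_div, abs_of_pos (by positivity : 0 < c0 ^ 2 * g ^ 2)]
    gcongr
  have t3 : |e ^ 2 * (y ^ 2 * (g ^ 3 - c0 ^ 3 * k ^ 2) / (2 * c0 ^ 3 * g ^ 3))|
      ≤ δ ^ 2 * (x / (2 * c0 ^ 3 * gl ^ 3)) := by
    rw [abs_mul, abs_div, abs_of_pos (by positivity : 0 < 2 * c0 ^ 3 * g ^ 3), abs_pow]
    gcongr
  have t4 : |e ^ 3 * (y ^ 2 / 2) * (-(1 / ((c0 + e) * c0 ^ 3)) + k ^ 3 / ((g + e * k) * g ^ 3))|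
      ≤ δ ^ 3 * (b ^ 2 / 2) * (1 / ((c0 - δ) * c0 ^ 3) + kb ^ 3 / ((gl - δ * kb) * gl ^ 3)) := by
    rw [abs_mul, abs_mul, abs_pow, abs_of_nonneg (by positivity : 0 ≤ y ^ 2 / 2)]
    have u1 : |-(1 / ((c0 + e) * c0 ^ 3)) + k ^ 3 / ((g + e * k) * g ^ 3)| ≤
        1 / ((c0 - δ) * c0 ^ 3) + kb ^ 3 / ((gl - δ * kb) * gl ^ 3) := by
      refine (abs_add_le _ _).trans ?_
      rw [abs_neg, abs_of_pos (by positivity : 0 < 1 / ((c0 + e) * c0 ^ 3)), abs_div, abs_pow,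
        abs_of_pos (by positivity : 0 < (g + e * k) * g ^ 3)]
      have u2 : 1 / ((c0 + e) * c0 ^ 3) ≤ 1 / ((c0 - δ) * c0 ^ 3) := by
        apply one_div_le_one_div_of_le (by positivity)
        gcongr
        linarith
      have u3 : |k| ^ 3 / ((g + e * k) * g ^ 3) ≤ kb ^ 3 / ((gl - δ * kb) * gl ^ 3) := by
        gcongr
      linarith
    gcongr
  refine (abs_add_le _ _).trans (add_le_add ((abs_add_le _ _).trans (add_le_add
    ((abs_add_le _ _).trans (add_le_add t1 t2)) t3)) t4)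

/-- the residual in the first cell (`k = 0`), divided by `y²`. -/
theorem real_bound0 {c0 e δ g Pg y gl q : ℝ} (hc0 : 0 < c0) (hδ : 0 ≤ δ)
    (hcδ : 0 < c0 - δ) (he : |e| ≤ δ) (hgl : 0 < gl) (hg : gl ≤ g)
    (h1 : |c0 * g * (Pg + 90) + y ^ 2 / 2 * (g - c0)| ≤ y ^ 2 * q) :
    |Pg + e * 0 + 90 + y ^ 2 / 2 * (1 / (c0 + e) - 1 / (g + e * 0))| ≤
      (q / (c0 * gl) + δ / (2 * (c0 - δ) * c0)) * y ^ 2 := by
  have hg0 : 0 < g := hgl.trans_le hg
  obtain ⟨e1, e2⟩ := abs_le.1 he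
  have hc : 0 < c0 + e := by linarith
  have key : Pg + e * 0 + 90 + y ^ 2 / 2 * (1 / (c0 + e) - 1 / (g + e * 0)) =
      (c0 * g * (Pg + 90) + y ^ 2 / 2 * (g - c0)) / (c0 * g)
      + y ^ 2 * (-e / (2 * (c0 + e) * c0)) := by
    have a1 := hc0.ne'
    have a2 := hg0.ne'
    have a3 := hc.ne'
    simp only [mul_zero, add_zero]
    field_simp
    ring
  rw [key]
  have hyq : 0 ≤ y ^ 2 * q := (abs_nonneg _).trans h1
  have t1 : |(c0 * g * (Pg + 90) + y ^ 2 / 2 * (g - c0)) / (c0 * g)| ≤ y ^ 2 * q / (c0 * gl) := by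
    rw [abs_div, abs_of_pos (by positivity : 0 < c0 * g)]
    gcongr
  have t2 : |y ^ 2 * (-e / (2 * (c0 + e) * c0))| ≤ y ^ 2 * (δ / (2 * (c0 - δ) * c0)) := by
    rw [abs_mul, abs_of_nonneg (sq_nonneg y), abs_div, abs_neg,
      abs_of_pos (by positivity : 0 < 2 * (c0 + e) * c0)]
    gcongr
    linarith
  calc _ ≤ _ := abs_add_le _ _
    _ ≤ y ^ 2 * q / (c0 * gl) + y ^ 2 * (δ / (2 * (c0 - δ) * c0)) := add_le_add t1 t2
    _ = _ := by ring

/-- coercivity from the polynomial inequality. -/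
theorem real_B {g y B w : ℝ} (hg : 0 < g) (hy : 0 < y) (hw : w = 1 + y ^ 2 / 16)
    (h : 0 < 2 * g ^ 2 * (-(525 / 8) * w ^ 3 + 387 / 4 * w ^ 2 + 45 / 2 * w - 51) + w ^ 3 * y ^ 2
      - 2 * B * g ^ 2 * w ^ 3 * y ^ 2) :
    B ≤ bet0 4 y / y ^ 2 + 1 / (2 * g ^ 2) := by
  have hw0 : 0 < w := by rw [hw]; positivity
  have hu : uu 4 y = 1 / w := by
    unfold uu; rw [hw]; norm_num
  have key : bet0 4 y / y ^ 2 + 1 / (2 * g ^ 2) - B =
      (2 * g ^ 2 * (-(525 / 8) * w ^ 3 + 387 / 4 * w ^ 2 + 45 / 2 * w - 51) + w ^ 3 * y ^ 2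
      - 2 * B * g ^ 2 * w ^ 3 * y ^ 2) / (2 * g ^ 2 * w ^ 3 * y ^ 2) := by
    unfold bet0; rw [hu]
    field_simp
  have : 0 < bet0 4 y / y ^ 2 + 1 / (2 * g ^ 2) - B := by rw [key]; positivity
  linarith

/-! ### values and norms of the formal polynomials -/

theorem evI_single (a x : Int) : evI [a] x = a := by simp [evI]
theorem l1_single (a : Int) : l1 [a] = a.natAbs := by simp [l1]

theorem evI_resI (c : Cell) (x : Int) :
    evI (resI c) x = vres (evI c.G x) (evI (Pth c.M c.G) x) (evI (yy c) x) := by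
  simp only [resI, vres, evI_add, evI_smul, evI_mul, evI_sub, evI_single]

theorem l1_resI (c : Cell) :
    l1 (resI c) ≤ nres (l1 c.G) (l1 (Pth c.M c.G)) (l1 (yy c)) := by
  unfold resI nres
  refine (l1_add _ _).trans (add_le_add ?_ ?_)
  · rw [l1_smul]
    refine Nat.mul_le_mul (by simp [Int.natAbs_mul, Int.natAbs_pow]) ?_
    refine (l1_mul _ _).trans (Nat.mul_le_mul le_rfl ((l1_add _ _).trans ?_))
    rw [l1_single]
    simp [Int.natAbs_mul, Int.natAbs_pow]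
  · rw [l1_smul]
    refine Nat.mul_le_mul (by simp [Int.natAbs_pow]) ?_
    refine (l1_mul _ _).trans (Nat.mul_le_mul le_rfl ((l1_sub _ _).trans ?_))
    rw [l1_single, l1_smul]
    simp [Int.natAbs_mul, Int.natAbs_pow]

theorem evI_FkI (c : Cell) (x : Int) :
    evI (FkI c) x = vF (evI c.G x) (evI c.Kd x) (evI (Pth c.M c.Kd) x) (evI (yy c) x) := by
  simp only [FkI, vF, evI_add, evI_smul, evI_mul, evI_sub]

theorem l1_FkI (c : Cell) :
    l1 (FkI c) ≤ nF (l1 c.G) (l1 c.Kd) (l1 (Pth c.M c.Kd)) (l1 (yy c)) := by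
  unfold FkI nF
  refine (l1_add _ _).trans (add_le_add ?_ ?_)
  · rw [l1_smul]
    refine Nat.mul_le_mul (by simp [Int.natAbs_mul, Int.natAbs_pow]) ?_
    exact (l1_mul _ _).trans (Nat.mul_le_mul (l1_mul _ _) le_rfl)
  · refine (l1_mul _ _).trans (Nat.mul_le_mul le_rfl ((l1_sub _ _).trans ?_))
    rw [l1_smul, l1_smul]
    refine add_le_add (Nat.mul_le_mul (by simp [Int.natAbs_mul, Int.natAbs_pow]) le_rfl) ?_
    exact Nat.mul_le_mul (by simp [Int.natAbs_pow]) (l1_mul _ _)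

theorem evI_XI (c : Cell) (x : Int) :
    evI (XI c) x = vX (evI c.G x) (evI c.Kd x) (evI (yy c) x) := by
  simp only [XI, vX, evI_smul, evI_mul, evI_sub]

theorem l1_XI (c : Cell) : l1 (XI c) ≤ nX (l1 c.G) (l1 c.Kd) (l1 (yy c)) := by
  unfold XI nX
  refine (l1_mul _ _).trans (Nat.mul_le_mul le_rfl ((l1_sub _ _).trans ?_))
  rw [l1_smul, l1_smul]
  refine add_le_add (Nat.mul_le_mul (by simp [Int.natAbs_pow]) ?_)
    (Nat.mul_le_mul (by simp [Int.natAbs_mul, Int.natAbs_pow]) (l1_mul _ _))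
  exact (l1_mul _ _).trans (Nat.mul_le_mul le_rfl (l1_mul _ _))

theorem evI_Wd (c : Cell) (d : ℕ) (σ x : Int) :
    evI (Wd c d σ) x = 2 ^ (10 + 2 * d) + evI (yd c d σ) x := by
  simp only [Wd, evI_add, evI_single]

theorem l1_Wd (c : Cell) (d : ℕ) (σ : Int) :
    l1 (Wd c d σ) ≤ 2 ^ (10 + 2 * d) + l1 (yd c d σ) := by
  refine (l1_add _ _).trans ?_
  rw [l1_single]
  simp [Int.natAbs_pow]

theorem evI_BI (c : Cell) (d : ℕ) (σ x : Int) :
    evI (BI c d σ) x = vB d (evR d (x + σ) c.G) (evI (yd c d σ) x)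
      (2 ^ (10 + 2 * d) + evI (yd c d σ) x) c.G.length c.B3 := by
  simp only [BI, vB, evI_add, evI_smul, evI_mul, evI_restr, evI_Wd, evI_single]

theorem l1_BI (c : Cell) (d : ℕ) (σ : Int) (hσ : σ.natAbs + 1 ≤ 2 ^ d) :
    l1 (BI c d σ) ≤ nB d (2 ^ (d * c.G.length) * l1 c.G) (l1 (yd c d σ))
      (2 ^ (10 + 2 * d) + l1 (yd c d σ)) c.G.length c.B3 := by
  have hG := l1_restr d σ hσ c.G
  have hW := l1_Wd c d σ
  have hG2 := (l1_mul (restr d σ c.G) (restr d σ c.G)).trans (Nat.mul_le_mul hG hG)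
  have hW2 := (l1_mul (Wd c d σ) (Wd c d σ)).trans (Nat.mul_le_mul hW hW)
  have hW3 := (l1_mul (Wd c d σ) (mul (Wd c d σ) (Wd c d σ))).trans (Nat.mul_le_mul hW hW2)
  unfold BI nB
  refine (l1_add _ _).trans (add_le_add ?_ ?_)
  · rw [l1_smul]
    refine Nat.mul_le_mul (by simp) ((l1_mul _ _).trans (Nat.mul_le_mul hG2 ?_))
    refine (l1_add _ _).trans (add_le_add ?_ ((l1_add _ _).trans (add_le_add ?_
      ((l1_add _ _).trans (add_le_add ?_ ?_)))))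
    · rw [l1_smul]; exact Nat.mul_le_mul (by simp [Int.natAbs_mul, Int.natAbs_pow]) hW3
    · rw [l1_smul]; exact Nat.mul_le_mul (by simp [Int.natAbs_mul, Int.natAbs_pow]) hW2
    · rw [l1_smul]; exact Nat.mul_le_mul (by simp [Int.natAbs_mul, Int.natAbs_pow]) hW
    · rw [l1_single]; simp [Int.natAbs_mul, Int.natAbs_pow]
  · refine (l1_mul _ _).trans (Nat.mul_le_mul ((l1_mul _ _).trans (Nat.mul_le_mul hW3 le_rfl)) ?_)
    refine (l1_add _ _).trans (add_le_add ?_ ?_)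
    · rw [l1_single]; simp [Int.natAbs_mul, Int.natAbs_pow]
    · rw [l1_smul]; exact Nat.mul_le_mul (by simp [Int.natAbs_mul]) hG2

end Crest.Agent.R213.E.C.Kr
end

-- ▼ part R213/E/CCheck
section

/-!
# Row 213, part E: the cell facts of the certificate (helper223)
-/

set_option autoImplicit false

open Set

namespace Crest.Agent.R213.E.C.Kr

/-! ### the checks for every cell -/

theorem cells_split {c : Cell} (hc : c ∈ cells) :
    c ∈ (cells.drop 0).take 14 ∨ c ∈ (cells.drop 14).take 14 ∨ c ∈ cells.drop 28 := by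
  have h1 : cells = cells.take 14 ++ cells.drop 14 := (List.take_append_drop 14 cells).symm
  have h2 : cells.drop 14 = (cells.drop 14).take 14 ++ (cells.drop 14).drop 14 :=
    (List.take_append_drop 14 _).symm
  rw [List.drop_drop] at h2
  rw [h1, h2] at hc
  rcases List.mem_append.1 hc with h | h
  · left; simpa using h
  · rcases List.mem_append.1 h with h | h
    · exact Or.inr (Or.inl h)
    · exact Or.inr (Or.inr h)

theorem okG_of {c : Cell} (hc : c ∈ cells) : okG c = true := List.all_eq_true.1 allG c hc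
theorem okR_of {c : Cell} (hc : c ∈ cells) : okR c = true := by
  rcases cells_split hc with h | h | h
  · exact List.all_eq_true.1 allR1 c h
  · exact List.all_eq_true.1 allR2 c h
  · exact List.all_eq_true.1 allR3 c h
theorem okB_of {c : Cell} (hc : c ∈ cells) : okB c = true := by
  rcases cells_split hc with h | h | h
  · exact List.all_eq_true.1 allB1 c h
  · exact List.all_eq_true.1 allB2 c h
  · exact List.all_eq_true.1 allB3 c h

/-! ### coordinates -/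

/-- local coordinate of `y` in the cell. -/
noncomputable def tt (c : Cell) (y : ℝ) : ℝ := y / c.gP.h KE - c.M

theorem h_eq (c : Cell) : c.gP.h KE = (c.H : ℝ) / 8 := by
  simp [Pc.h, Cell.gP, KE]; norm_num

theorem H_pos {c : Cell} (hc : c ∈ cells) : 0 < c.H ∧ 0 < c.M := by
  have := okG_of hc
  simp only [okG, Bool.and_eq_true, decide_eq_true_eq] at this
  exact ⟨this.1.2, this.2⟩

theorem y_eq {c : Cell} (hH : 0 < c.H) (y : ℝ) : y = (c.H : ℝ) / 8 * (c.M + tt c y) := by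
  have : (0 : ℝ) < c.H := by exact_mod_cast hH
  unfold tt; rw [h_eq]
  field_simp
  ring

theorem tt_abs {c : Cell} (hH : 0 < c.H) {y : ℝ} (h1 : c.gP.a KE < y) (h2 : y ≤ c.gP.b KE) :
    |tt c y| ≤ 1 := by
  have hh : 0 < c.gP.h KE := Pc.h_pos hH
  have e : c.gP.M = c.M := rfl
  rw [Pc.a, e] at h1
  rw [Pc.b, e] at h2
  have h3 : (c.M : ℝ) - 1 < y / c.gP.h KE := by rw [lt_div_iff₀ hh]; linarith
  have h4 : y / c.gP.h KE ≤ c.M + 1 := by rw [div_le_iff₀ hh]; linarith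
  unfold tt
  rw [abs_le]; constructor <;> linarith

theorem ev_yy {c : Cell} (hH : 0 < c.H) (y : ℝ) : ev (yy c) (tt c y) = 2 ^ 6 * y ^ 2 := by
  have h := y_eq hH y
  have : (2 : ℝ) ^ 6 * y ^ 2 = ((c.H : ℝ) * (c.M + tt c y)) ^ 2 := by
    conv_lhs => rw [h]
    ring
  rw [this]
  simp only [yy, ev_cons, ev_nil]
  push_cast
  ring

/-! ### values of the pieces -/

theorem gf0 (c : Cell) (y : ℝ) : c.gP.f KE SE 0 y = ev c.G (tt c y) / 2 ^ SE := by
  simp [Pc.f, dern, tt, Cell.gP]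

theorem kf0 (c : Cell) (y : ℝ) : c.kP.f KE SE 0 y = ev c.Kd (tt c y) / 2 ^ SE := by
  simp [Pc.f, dern, tt, Cell.gP, Cell.kP, Pc.h]

theorem fP (S : ℕ) (p : Pc) (hH : 0 < p.H) (y : ℝ) :
    y ^ 3 * p.f KE S 3 y + 21 * y ^ 2 * p.f KE S 2 y + 90 * y * p.f KE S 1 y - 90 * p.f KE S 0 y
      = ev (Pth p.M p.P) (y / p.h KE - p.M) / 2 ^ S := by
  have hh : 0 < p.h KE := Pc.h_pos hH
  have h2 : (2 : ℝ) ^ S ≠ 0 := by positivity
  set t := y / p.h KE - p.M with ht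
  have hy : y = p.h KE * (p.M + t) := by rw [ht]; field_simp; ring
  rw [ev_Pth]
  simp only [Pc.f, dern, ← ht]
  push_cast
  have hne := hh.ne'
  rw [eq_div_iff h2]
  conv_lhs => rw [hy]
  field_simp

theorem gPth {c : Cell} (hH : 0 < c.H) (y : ℝ) :
    ev (Pth c.M c.G) (tt c y) = 2 ^ SE * (y ^ 3 * c.gP.f KE SE 3 y + 21 * y ^ 2 * c.gP.f KE SE 2 y
      + 90 * y * c.gP.f KE SE 1 y - 90 * c.gP.f KE SE 0 y) := by
  rw [fP SE c.gP hH y]
  have : (2 : ℝ) ^ SE ≠ 0 := by positivity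
  field_simp
  rfl

theorem kPth {c : Cell} (hH : 0 < c.H) (y : ℝ) :
    ev (Pth c.M c.Kd) (tt c y) = 2 ^ SE * (y ^ 3 * c.kP.f KE SE 3 y + 21 * y ^ 2 * c.kP.f KE SE 2 y
      + 90 * y * c.kP.f KE SE 1 y - 90 * c.kP.f KE SE 0 y) := by
  rw [fP SE c.kP hH y]
  have : (2 : ℝ) ^ SE ≠ 0 := by positivity
  field_simp
  rfl

/-- bounds of `g0`, `k` on the cell. -/
theorem gk_bds {c : Cell} (hc : c ∈ cells) {y : ℝ} (h1 : c.gP.a KE < y) (h2 : y ≤ c.gP.b KE) :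
    (c.gl4 : ℝ) / 10 ^ 4 ≤ c.gP.f KE SE 0 y ∧ c.gP.f KE SE 0 y ≤ (c.gh4 : ℝ) / 10 ^ 4 ∧
      |c.kP.f KE SE 0 y| ≤ (c.kb3 : ℝ) / 10 ^ 3 ∧ (0 : ℝ) < (c.gl4 : ℝ) / 10 ^ 4 := by
  have hH := (H_pos hc).1
  have ht := tt_abs hH h1 h2
  have := okG_of hc
  simp only [okG, Bool.and_eq_true, decide_eq_true_eq] at this
  obtain ⟨⟨⟨⟨⟨g1, g2⟩, g3⟩, g4⟩, -⟩, -⟩ := this
  have h2S : (0 : ℝ) < 2 ^ SE := by positivity
  have l := lo_le c.G ht
  have u := le_hi c.G ht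
  have k := abs_ev_le c.Kd ht
  have g1' : (c.gl4 : ℝ) * 2 ^ SE ≤ 10 ^ 4 * (lo c.G : ℝ) := by exact_mod_cast g1
  have g2' : (10 : ℝ) ^ 4 * (hi c.G : ℝ) ≤ (c.gh4 : ℝ) * 2 ^ SE := by exact_mod_cast g2
  have g3' : (10 : ℝ) ^ 3 * (l1 c.Kd : ℝ) ≤ (c.kb3 : ℝ) * 2 ^ SE := by exact_mod_cast g3
  have g4' : (0 : ℝ) < c.gl4 := by exact_mod_cast g4
  rw [gf0, kf0, abs_div, abs_of_pos h2S]
  refine ⟨?_, ?_, ?_, by positivity⟩
  · rw [div_le_div_iff₀ (by positivity) h2S]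
    nlinarith
  · rw [div_le_div_iff₀ h2S (by positivity)]
    nlinarith
  · rw [div_le_div_iff₀ h2S (by positivity)]
    nlinarith

/-! ### the three polynomials as functions of `y` -/

noncomputable def cc0 : ℝ := (C0 : ℝ) / 2 ^ 60

theorem ev_resI {c : Cell} (hH : 0 < c.H) (y : ℝ) {g Pg : ℝ} (hg : ev c.G (tt c y) = 2 ^ SE * g)
    (hP : ev (Pth c.M c.G) (tt c y) = 2 ^ SE * Pg) :
    ev (resI c) (tt c y) = 2 ^ (67 + 2 * SE) * (cc0 * g * (Pg + 90) + y ^ 2 / 2 * (g - cc0)) := by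
  simp only [resI, ev_add, ev_smul, ev_mul, ev_sub, ev_cons, ev_nil, ev_yy hH, hg, hP]
  have e1 : (2 : ℝ) ^ (67 + 2 * SE) = 2 ^ 67 * (2 ^ SE) ^ 2 := by rw [pow_add, pow_mul']
  have e2 : (C0 : ℝ) = 2 ^ 60 * cc0 := by unfold cc0; ring
  push_cast
  rw [e1, e2]
  generalize (2 : ℝ) ^ SE = s
  ring

theorem ev_FkI {c : Cell} (hH : 0 < c.H) (y : ℝ) {g k Pk : ℝ} (hg : ev c.G (tt c y) = 2 ^ SE * g)
    (hk : ev c.Kd (tt c y) = 2 ^ SE * k) (hP : ev (Pth c.M c.Kd) (tt c y) = 2 ^ SE * Pk) :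
    ev (FkI c) (tt c y) = 2 ^ (127 + 3 * SE) *
      (cc0 ^ 2 * g ^ 2 * Pk + y ^ 2 / 2 * (cc0 ^ 2 * k - g ^ 2)) := by
  simp only [FkI, ev_add, ev_smul, ev_mul, ev_sub, ev_yy hH, hg, hP, hk]
  have e1 : (2 : ℝ) ^ (127 + 3 * SE) = 2 ^ 127 * (2 ^ SE) ^ 3 := by rw [pow_add, pow_mul']
  have e2 : (C0 : ℝ) = 2 ^ 60 * cc0 := by unfold cc0; ring
  have e3 : (2 : ℝ) ^ (2 * SE) = (2 ^ SE) ^ 2 := by rw [pow_mul']
  have e4 : (2 : ℝ) ^ (120 + SE) = 2 ^ 120 * 2 ^ SE := by rw [pow_add]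
  push_cast
  rw [e1, e2, e3, e4]
  generalize (2 : ℝ) ^ SE = s
  ring

theorem ev_XI {c : Cell} (hH : 0 < c.H) (y : ℝ) {g k : ℝ} (hg : ev c.G (tt c y) = 2 ^ SE * g)
    (hk : ev c.Kd (tt c y) = 2 ^ SE * k) :
    ev (XI c) (tt c y) = 2 ^ (186 + 3 * SE) * (y ^ 2 * (g ^ 3 - cc0 ^ 3 * k ^ 2)) := by
  simp only [XI, ev_smul, ev_mul, ev_sub, ev_yy hH, hg, hk]
  have e1 : (2 : ℝ) ^ (186 + 3 * SE) = 2 ^ 186 * (2 ^ SE) ^ 3 := by rw [pow_add, pow_mul']
  have e2 : (C0 : ℝ) = 2 ^ 60 * cc0 := by unfold cc0; ring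
  push_cast
  rw [e1, e2]
  generalize (2 : ℝ) ^ SE = s
  ring

theorem cc0_bd : 7 / 10 < cc0 ∧ cc0 < 3 / 4 := by
  unfold cc0 C0; constructor <;> norm_num

theorem cc0_sub : 0 < cc0 - 1 / 2 ^ 26 := by
  have h26 : (1 : ℝ) / 2 ^ 26 < 1 / 10 := by norm_num
  have := cc0_bd.1
  linarith

/-- RESIDUAL on a cell. -/
theorem cell_resid {c : Cell} (hc : c ∈ cells) {y : ℝ} (h1 : c.gP.a KE < y) (h2 : y ≤ c.gP.b KE)
    {e : ℝ} (he : |e| ≤ 1 / 2 ^ 26) :
    |resid (cc0 + e) y (c.gP.f KE SE 0 y + e * c.kP.f KE SE 0 y)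
      (c.gP.f KE SE 1 y + e * c.kP.f KE SE 1 y) (c.gP.f KE SE 2 y + e * c.kP.f KE SE 2 y)
      (c.gP.f KE SE 3 y + e * c.kP.f KE SE 3 y)| ≤ (c.R20 : ℝ) / 10 ^ 20 := by
  obtain ⟨hH, hM⟩ := H_pos hc
  have ht := tt_abs hH h1 h2
  obtain ⟨g1, -, k1, gl0⟩ := gk_bds hc h1 h2
  have h2S : (0 : ℝ) < 2 ^ SE := by positivity
  have hy0 : 0 ≤ y := by
    have hM' : (1 : ℝ) ≤ c.M := by exact_mod_cast hM
    have hh : 0 < c.gP.h KE := Pc.h_pos hH
    have : 0 ≤ c.gP.a KE := by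
      unfold Pc.a
      exact mul_nonneg hh.le (by show (0:ℝ) ≤ (c.M : ℝ) - 1; linarith)
    linarith
  have hR := okR_of hc
  simp only [okR, forceI_eq, force_eq] at hR
  obtain ⟨r, hR, hr⟩ := kb_sound (p := resI c) (by rw [evI_resI]; rfl) (l1_resI c) hR
  obtain ⟨f, hR, hf⟩ := kb_sound (p := FkI c) (by rw [evI_FkI]; rfl) (l1_FkI c) hR
  obtain ⟨x, hR, hx⟩ := kb_sound (p := XI c) (by rw [evI_XI]; rfl) (l1_XI c) hR
  simp only [Bool.and_eq_true, decide_eq_true_eq] at hR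
  obtain ⟨hR, hpos⟩ := hR
  have hr := hr _ ht
  have hf := hf _ ht
  have hx := hx _ ht
  have eg : ev c.G (tt c y) = 2 ^ SE * c.gP.f KE SE 0 y := by rw [gf0]; field_simp
  have ek : ev c.Kd (tt c y) = 2 ^ SE * c.kP.f KE SE 0 y := by rw [kf0]; field_simp
  rw [ev_resI hH y eg (gPth hH y), abs_mul, abs_of_pos (by positivity), mul_comm,
    ← le_div_iff₀ (by positivity)] at hr
  rw [ev_FkI hH y eg ek (kPth hH y), abs_mul, abs_of_pos (by positivity), mul_comm,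
    ← le_div_iff₀ (by positivity)] at hf
  rw [ev_XI hH y eg ek, abs_mul, abs_of_pos (by positivity), mul_comm,
    ← le_div_iff₀ (by positivity)] at hx
  have hposR : (0 : ℝ) < (c.gl4 : ℝ) / 10 ^ 4 - 1 / 2 ^ 26 * ((c.kb3 : ℝ) / 10 ^ 3) := by
    have := (Rat.cast_lt (K := ℝ)).2 hpos
    push_cast at this; exact this
  have hRR : ((Rsum c r f x : ℚ) : ℝ) ≤ (c.R20 : ℝ) / 10 ^ 20 := by
    have := (Rat.cast_le (K := ℝ)).2 hR
    push_cast at this; exact this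
  obtain ⟨c01, c02⟩ := cc0_bd
  have hyb : y ≤ ((c.H : ℝ) * (c.M + 1)) / 2 ^ KE := by
    refine h2.trans_eq ?_
    unfold Pc.b Pc.h
    show (c.H : ℝ) / 2 ^ KE * ((c.M : ℝ) + 1) = _
    ring
  have main := real_bound (c0 := cc0) (e := e) (δ := 1 / 2 ^ 26) (b := ((c.H : ℝ) * (c.M + 1)) / 2 ^ KE)
    (by linarith) (by positivity) cc0_sub he gl0 g1 k1 hposR hy0 hyb hr hf hx
  have e0 : resid (cc0 + e) y (c.gP.f KE SE 0 y + e * c.kP.f KE SE 0 y)
      (c.gP.f KE SE 1 y + e * c.kP.f KE SE 1 y) (c.gP.f KE SE 2 y + e * c.kP.f KE SE 2 y)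
      (c.gP.f KE SE 3 y + e * c.kP.f KE SE 3 y) =
      (y ^ 3 * c.gP.f KE SE 3 y + 21 * y ^ 2 * c.gP.f KE SE 2 y
        + 90 * y * c.gP.f KE SE 1 y - 90 * c.gP.f KE SE 0 y) +
      e * (y ^ 3 * c.kP.f KE SE 3 y + 21 * y ^ 2 * c.kP.f KE SE 2 y
        + 90 * y * c.kP.f KE SE 1 y - 90 * c.kP.f KE SE 0 y) + 90 + y ^ 2 / 2 *
      (1 / (cc0 + e) - 1 / (c.gP.f KE SE 0 y + e * c.kP.f KE SE 0 y)) := by
    unfold resid; ring
  rw [e0]
  refine main.trans (le_trans (le_of_eq ?_) hRR)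
  unfold Rsum cc0
  push_cast
  ring

/-! ### the first cell -/

theorem first_ok {c : Cell} (hc : c ∈ cells.take 1) : okZ c = true :=
  List.all_eq_true.1 allZ c hc

theorem kf_zero {c : Cell} (hKi : c.Ki = []) (y : ℝ) (r : ℕ) : c.kP.f KE SE r y = 0 := by
  have hd : ∀ r, dern r ([] : List Int) = [] := by
    intro r; induction r with
    | zero => rfl
    | succ r ih => simpa [dern, der] using ih
  have : c.kP.P = [] := by simp [Cell.kP, Cell.Kd, hKi, smul]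
  simp [Pc.f, this, hd]

theorem cell_first {c : Cell} (hc1 : c ∈ cells.take 1) {y : ℝ} (h1 : c.gP.a KE < y)
    (h2 : y ≤ c.gP.b KE) {e : ℝ} (he : |e| ≤ 1 / 2 ^ 26) :
    |resid (cc0 + e) y (c.gP.f KE SE 0 y + e * c.kP.f KE SE 0 y)
      (c.gP.f KE SE 1 y + e * c.kP.f KE SE 1 y) (c.gP.f KE SE 2 y + e * c.kP.f KE SE 2 y)
      (c.gP.f KE SE 3 y + e * c.kP.f KE SE 3 y)| ≤ 2 / 10 ^ 8 * y ^ 2 := by
  have hc : c ∈ cells := List.mem_of_mem_take hc1
  obtain ⟨hH, hM⟩ := H_pos hc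
  have ht := tt_abs hH h1 h2
  obtain ⟨g1, -, -, gl0⟩ := gk_bds hc h1 h2
  have hZ := first_ok hc1
  simp only [okZ, forceI_eq, Bool.and_eq_true, decide_eq_true_eq] at hZ
  obtain ⟨⟨⟨hH8, hM1⟩, hKi⟩, hV, hZ⟩ := hZ
  generalize hVQ : vres (evI c.G XE) (evI (Pth c.M c.G) XE) (evI (yy c) XE) / (1 + XE) ^ 2 = VQ
    at hV hZ
  generalize hZZ : VQ + (offs WE nE : ℕ) = Z at hZ
  cases Z with
  | negSucc m => simp at hZ
  | ofNat N =>
    simp only [Bool.and_eq_true, decide_eq_true_eq, force_eq] at hZ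
    obtain ⟨hN, hq1, hq2⟩ := hZ
    set q := digs WE N 0 nE with hq
    have eq1 : evI q ((2 ^ WE : ℕ) : Int) = VQ := by
      rw [hq, evI_digs]
      simp only [Nat.mul_zero, pow_zero, Nat.div_one]
      rw [Nat.mod_eq_of_lt hN]
      have : ((N : ℕ) : Int) = VQ + (offs WE nE : ℕ) := by rw [hZZ]; rfl
      rw [this]; ring
    have eqd : ∀ t : ℝ, ev (resI c) t = ev (mul [1, 2, 1] q) t := by
      intro t
      refine ev_eq_of_evI (X := 2 ^ WE) (by positivity) _ _ ?_ ?_ t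
      · have h3 := l1_mul [1, 2, 1] q
        have h4 : l1 ([1, 2, 1] : List Int) = 4 := by decide
        rw [h4, l1_digs] at h3
        have h5 := l1_resI c
        omega
      · rw [evI_resI, evI_mul, eq1]
        have h6 : evI [1, 2, 1] ((2 ^ WE : ℕ) : Int) = (1 + XE) ^ 2 := by
          simp only [evI, XE]; ring
        rw [h6, mul_comm]
        exact hV.symm
    have hyt : y = 1 + tt c y := by
      have := y_eq hH y
      rw [hH8, hM1] at this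
      rw [this]
      have h7 : tt c ((8 : ℕ) / 8 * ((1 : ℕ) + tt c y)) = tt c y := by
        rw [← this]
      rw [h7]; norm_num
    have hb : |ev (resI c) (tt c y)| ≤ y ^ 2 * (l1digs WE N 0 nE : ℝ) := by
      rw [eqd, ev_mul, abs_mul]
      have h8 : ev [1, 2, 1] (tt c y) = y ^ 2 := by
        simp only [ev_cons, ev_nil]
        have : y ^ 2 = (1 + tt c y) ^ 2 := by rw [← hyt]
        rw [this]; push_cast; ring
      rw [h8, abs_of_nonneg (sq_nonneg y), ← l1_digs]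
      exact mul_le_mul_of_nonneg_left (abs_ev_le _ ht) (sq_nonneg y)
    have eg : ev c.G (tt c y) = 2 ^ SE * c.gP.f KE SE 0 y := by
      have : (2 : ℝ) ^ SE ≠ 0 := by positivity
      rw [gf0]; field_simp
    rw [ev_resI hH y eg (gPth hH y), abs_mul, abs_of_pos (by positivity), mul_comm,
      ← le_div_iff₀ (by positivity)] at hb
    have hk : ∀ r, c.kP.f KE SE r y = 0 := kf_zero hKi y
    obtain ⟨c01, c02⟩ := cc0_bd
    have main := real_bound0 (c0 := cc0) (e := e) (δ := 1 / 2 ^ 26)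
      (q := (l1digs WE N 0 nE : ℝ) / 2 ^ (67 + 2 * SE)) (by linarith) (by positivity)
      cc0_sub he gl0 g1 (hb.trans_eq (by ring))
    have hq2' : ((l1digs WE N 0 nE : ℕ) : ℝ) / 2 ^ (67 + 2 * SE) / (((C0 : ℝ) / 2 ^ 60)
        * ((c.gl4 : ℝ) / 10 ^ 4)) + 1 / 2 ^ 26 / (2 * ((C0 : ℝ) / 2 ^ 60 - 1 / 2 ^ 26)
          * ((C0 : ℝ) / 2 ^ 60)) ≤ 2 / 10 ^ 8 := by
      have := (Rat.cast_le (K := ℝ)).2 hq2
      push_cast at this; exact this
    have e0 : resid (cc0 + e) y (c.gP.f KE SE 0 y + e * c.kP.f KE SE 0 y)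
        (c.gP.f KE SE 1 y + e * c.kP.f KE SE 1 y) (c.gP.f KE SE 2 y + e * c.kP.f KE SE 2 y)
        (c.gP.f KE SE 3 y + e * c.kP.f KE SE 3 y) =
        (y ^ 3 * c.gP.f KE SE 3 y + 21 * y ^ 2 * c.gP.f KE SE 2 y
          + 90 * y * c.gP.f KE SE 1 y - 90 * c.gP.f KE SE 0 y) + e * 0 + 90 + y ^ 2 / 2 *
        (1 / (cc0 + e) - 1 / (c.gP.f KE SE 0 y + e * 0)) := by
      unfold resid; rw [hk 0, hk 1, hk 2, hk 3]; ring
    rw [e0]
    refine main.trans ?_
    exact mul_le_mul_of_nonneg_right hq2' (sq_nonneg y)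

/-! ### coercivity -/

theorem sig_cover {d : ℕ} (hd : d ≤ 2) {t : ℝ} (ht : |t| ≤ 1) :
    ∃ σ ∈ sig d, |2 ^ d * t - (σ : ℝ)| ≤ 1 := by
  obtain ⟨h1, h2⟩ := abs_le.1 ht
  interval_cases d
  · exact ⟨0, by simp [sig], by simpa using ht⟩
  · rcases le_total 0 t with h | h
    · exact ⟨1, by simp [sig], by rw [abs_le]; push_cast; constructor <;> linarith⟩
    · exact ⟨-1, by simp [sig], by rw [abs_le]; push_cast; constructor <;> linarith⟩
  · rcases le_total 0 t with h | h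
    · rcases le_total (1 / 2) t with h' | h'
      · exact ⟨3, by simp [sig], by rw [abs_le]; push_cast; constructor <;> linarith⟩
      · exact ⟨1, by simp [sig], by rw [abs_le]; push_cast; constructor <;> linarith⟩
    · rcases le_total (-1 / 2) t with h' | h'
      · exact ⟨-1, by simp [sig], by rw [abs_le]; push_cast; constructor <;> linarith⟩
      · exact ⟨-3, by simp [sig], by rw [abs_le]; push_cast; constructor <;> linarith⟩

theorem cell_B {c : Cell} (hc : c ∈ cells) {y : ℝ} (h1 : c.gP.a KE < y) (h2 : y ≤ c.gP.b KE) :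
    (c.B3 : ℝ) / 10 ^ 3 ≤ bet0 4 y / y ^ 2 + 1 / (2 * c.gP.f KE SE 0 y ^ 2) := by
  obtain ⟨hH, hM⟩ := H_pos hc
  have ht := tt_abs hH h1 h2
  obtain ⟨g1, -, -, gl0⟩ := gk_bds hc h1 h2
  have hg0 : 0 < c.gP.f KE SE 0 y := gl0.trans_le g1
  have h2S : (0 : ℝ) < 2 ^ SE := by positivity
  have hy0 : 0 < y := by
    have hM' : (1 : ℝ) ≤ c.M := by exact_mod_cast hM
    have hh : 0 < c.gP.h KE := Pc.h_pos hH
    have : 0 ≤ c.gP.a KE := by
      unfold Pc.a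
      exact mul_nonneg hh.le (by show (0:ℝ) ≤ (c.M : ℝ) - 1; linarith)
    linarith
  have hd : ∃ d ≤ 2, (sig d).all (okB1 c d) = true := by
    have := okB_of hc
    simp only [okB, Bool.or_eq_true] at this
    rcases this with (h | h) | h
    · exact ⟨0, by norm_num, h⟩
    · exact ⟨1, by norm_num, h⟩
    · exact ⟨2, by norm_num, h⟩
  obtain ⟨d, hd, hall⟩ := hd
  obtain ⟨σ, hσ, hτ⟩ := sig_cover hd ht
  have hk := List.all_eq_true.1 hall σ hσ
  simp only [okB1, forceI_eq, force_eq, Bool.and_eq_true, decide_eq_true_eq] at hk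
  obtain ⟨hσ1, hk⟩ := hk
  have hpos := kpos_sound (p := BI c d σ) (by rw [evI_BI]; rfl) (l1_BI c d σ hσ1) hk _ hτ
  set τ := 2 ^ d * tt c y - (σ : ℝ) with hτd
  have eG : ev (restr d σ c.G) τ = 2 ^ (d * c.G.length) * (2 ^ SE * c.gP.f KE SE 0 y) := by
    rw [ev_restr]
    have : (τ + σ) / 2 ^ d = tt c y := by rw [hτd]; field_simp; ring
    rw [this, gf0]; field_simp
  have eY : ev (yd c d σ) τ = 2 ^ (6 + 2 * d) * y ^ 2 := by
    have h := y_eq hH y
    have h3 : (2 : ℝ) ^ (6 + 2 * d) * y ^ 2 = ((c.H : ℝ) * (2 ^ d * c.M + σ + τ)) ^ 2 := by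
      have : (2 : ℝ) ^ d * c.M + σ + τ = 2 ^ d * (c.M + tt c y) := by rw [hτd]; ring
      rw [this]
      have h4 : (2 : ℝ) ^ (6 + 2 * d) = 64 * (2 ^ d) ^ 2 := by rw [pow_add, pow_mul']; norm_num
      rw [h4]
      conv_lhs => rw [h]
      ring
    rw [h3]
    simp only [yd, ev_cons, ev_nil]
    push_cast
    ring
  have eW : ev (Wd c d σ) τ = 2 ^ (10 + 2 * d) * (1 + y ^ 2 / 16) := by
    simp only [Wd, ev_add, ev_cons, ev_nil, eY]
    have h5 : (2 : ℝ) ^ (10 + 2 * d) = 16 * 2 ^ (6 + 2 * d) := by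
      rw [show 10 + 2 * d = 4 + (6 + 2 * d) by ring, pow_add]; norm_num
    push_cast
    rw [h5]; ring
  apply real_B hg0 hy0 rfl
  simp only [BI, ev_add, ev_smul, ev_mul, ev_cons, ev_nil, eG, eY, eW] at hpos
  set w := 1 + y ^ 2 / 16 with hw
  set g := c.gP.f KE SE 0 y with hgd
  set D : ℝ := 2 ^ d with hD
  have hDpos : 0 < D := by rw [hD]; positivity
  set Lg : ℝ := 2 ^ (d * c.G.length) with hLg
  have hLpos : 0 < Lg := by rw [hLg]; positivity
  have p1 : (2 : ℝ) ^ (10 + 2 * d) = 1024 * D ^ 2 := by rw [hD, pow_add, pow_mul']; norm_num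
  have p2 : (2 : ℝ) ^ (6 + 2 * d) = 64 * D ^ 2 := by rw [hD, pow_add, pow_mul']; norm_num
  have p3 : (2 : ℝ) ^ (4 + 2 * d) = 16 * D ^ 2 := by rw [hD, pow_add, pow_mul']; norm_num
  have p4 : (2 : ℝ) ^ (15 + 4 * d) = 2 ^ 15 * D ^ 4 := by rw [hD, pow_add, pow_mul']
  have p5 : (2 : ℝ) ^ (26 + 6 * d) = 2 ^ 26 * D ^ 6 := by rw [hD, pow_add, pow_mul']
  have p6 : (2 : ℝ) ^ (37 + 8 * d) = 2 ^ 37 * D ^ 8 := by rw [hD, pow_add, pow_mul']
  have p7 : (2 : ℝ) ^ (2 * (SE + d * c.G.length)) = (2 ^ SE * Lg) ^ 2 := by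
    rw [hLg, ← pow_add, pow_mul']
  push_cast at hpos
  rw [p1, p2, p3, p4, p5, p6, p7] at hpos
  generalize hs : (2 : ℝ) ^ SE = s at hpos h2S
  have hfac : 0 < 1000 * 2 ^ 36 * D ^ 8 * (s * Lg) ^ 2 := by positivity
  refine (mul_pos_iff_of_pos_left hfac).1 (lt_of_lt_of_eq hpos ?_)
  ring

end Crest.Agent.R213.E.C.Kr
end

-- ▼ part R213/E/CellFactsOK

/-!
# Row 213, part E: `CellFacts` (helper223)
-/

set_option autoImplicit false

open Set

namespace Crest.Agent.R213.E.C.Kr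

/-- every point lies in a piece. -/
theorem exists_pc {K : ℕ} : ∀ (l : List Pc) (p : Pc), chain (p :: l) = true → ∀ y : ℝ, p.a K < y →
    (∀ q, (p :: l).getLast? = some q → y ≤ q.b K) → ∃ q ∈ p :: l, q.a K < y ∧ y ≤ q.b K := by
  intro l
  induction l with
  | nil => intro p _ y h1 h2; exact ⟨p, by simp, h1, h2 p rfl⟩
  | cons r l ih =>
    intro p hc y h1 h2
    rcases le_or_gt y (p.b K) with h | h
    · exact ⟨p, by simp, h1, h⟩
    · have hc' := hc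
      simp only [chain, Bool.and_eq_true, decide_eq_true_eq] at hc
      have hj := hc.1.2
      rw [joint_ends hj] at h
      obtain ⟨q, hq, h3, h4⟩ := ih r (chain_tail hc') y h (fun q hq => h2 q (by simpa using hq))
      exact ⟨q, List.mem_cons_of_mem _ hq, h3, h4⟩


theorem exists_cell {y : ℝ} (h0 : 0 < y) (h1 : y ≤ 128) :
    ∃ c ∈ cells, c.gP.a KE < y ∧ y ≤ c.gP.b KE := by
  have hc := chain_g
  have hl := last_g
  rw [cells_eq, List.map_cons] at hc hl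
  have ha : cell1.gP.a KE = 0 := by
    unfold Pc.a
    have : cell1.gP.M = 1 := cell1_M
    rw [this]; simp
  obtain ⟨q, hq, h2, h3⟩ := exists_pc _ _ hc y (by rw [ha]; exact h0)
    (fun q hq => by rw [(hl q hq).2]; exact h1)
  rw [← List.map_cons, ← cells_eq] at hq
  obtain ⟨c, hc, rfl⟩ := List.mem_map.1 hq
  exact ⟨c, hc, h2, h3⟩

theorem gg_eq {c : Cell} (hc : c ∈ cells) {y : ℝ} (h1 : c.gP.a KE < y) (h2 : y ≤ c.gP.b KE) (r : ℕ) :
    gg r y = c.gP.f KE SE r y :=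
  pw_eq_f _ chain_g _ (List.mem_map_of_mem hc) y h1 h2 r

theorem kk_eq {c : Cell} (hc : c ∈ cells) {y : ℝ} (h1 : c.gP.a KE < y) (h2 : y ≤ c.gP.b KE) (r : ℕ) :
    kk r y = c.kP.f KE SE r y :=
  pw_eq_f _ chain_k _ (List.mem_map_of_mem hc) y h1 h2 r

end Crest.Agent.R213.E.C.Kr

namespace Crest.Agent.R213.E

open C C.Kr

theorem cellFacts : CellFacts where
  cell := by
    intro y h0 h1
    obtain ⟨c, hc, ha, hb⟩ := C.Kr.exists_cell h0 h1
    obtain ⟨g1, g2, k1, -⟩ := gk_bds hc ha hb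
    refine ⟨c, hc, ⟨ha, hb, ?_, ?_, ?_⟩, ?_⟩
    · rw [gg_eq hc ha hb]; exact g1
    · rw [gg_eq hc ha hb]; exact g2
    · rw [kk_eq hc ha hb]; exact k1
    · rw [gg_eq hc ha hb]; exact cell_B hc ha hb
  res := by
    intro c hcI y h0 h1
    obtain ⟨q, hq, ha, hb⟩ := C.Kr.exists_cell h0 h1
    have he := c_abs hcI
    have hcc : c = cc0 + (c - cst.c0) := by
      rw [cst_c0]; unfold cc0; ring
    rw [gg_eq hq ha hb, gg_eq hq ha hb, gg_eq hq ha hb, gg_eq hq ha hb, kk_eq hq ha hb,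
      kk_eq hq ha hb, kk_eq hq ha hb, kk_eq hq ha hb]
    have hq' := hq
    rw [cells_eq] at hq'
    rcases List.mem_cons.1 hq' with h | h
    · have hq1 : q ∈ cells.take 1 := by rw [cells_eq, h]; simp
      have := cell_first hq1 ha hb he
      rw [← hcc] at this
      have hy2 : y ≤ 2 := by
        refine hb.trans_eq ?_
        rw [gP_b, h, cell1_H, cell1_M]; norm_num
      rw [St.sd_R_zero hy2]
      exact this
    · have := cell_resid hq ha hb he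
      rw [← hcc] at this
      rw [St.sd_R_cell h (by rw [St.aQ_cast]; exact ha) (by rw [St.b_cast]; exact hb), St.R_cast]
      exact this

end Crest.Agent.R213.E
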