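import Crest.Agent.R213.E.NLDefs

-- ▼ part R213/E/LinTest
section

/-!
# Row 213, part E: test pairs `(D,z)` with `y D''' - 9 D'' = z` and the energy inequality
-/

set_option autoImplicit false

open Set MeasureTheory Filter Topology

noncomputable section

namespace Crest.Agent.R213.E

/-- derivative of a tail integral -/
theorem hasDerivAt_tail {f : ℝ → ℝ} (hf : Continuous f) (hi : Integrable f) (y : ℝ) :
    HasDerivAt (fun x => ∫ t in Ioi x, f t) (-f y) y := by
  have h1 : ∀ x, ∫ t in Ioi x, f t = (∫ t in Ioi (0:ℝ), f t) - ∫ t in (0:ℝ)..x, f t := by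
    intro x
    have := intervalIntegral.integral_Ioi_sub_Ioi' (μ := volume) (f := f) (a := 0) (b := x)
      hi.integrableOn hi.integrableOn
    linarith
  have h3 : (fun x => ∫ t in Ioi x, f t) = fun x => (∫ t in Ioi (0:ℝ), f t) - ∫ t in (0:ℝ)..x, f t :=
    funext h1
  rw [h3]
  have := (intervalIntegral.integral_hasDerivAt_right (hf.intervalIntegrable 0 y)
    hf.aestronglyMeasurable.stronglyMeasurableAtFilter hf.continuousAt).const_sub
      (∫ t in Ioi (0:ℝ), f t)
  exact this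

/-- admissible test functions -/
structure Adm (z : ℝ → ℝ) : Prop where
  cont : Continuous z
  supp : HasCompactSupport z
  pos : tsupport z ⊆ Ioi 0
  mom : ∫ t in Ioi (0:ℝ), t * z t = 0

namespace Adm

variable {z : ℝ → ℝ}

theorem bounds (hz : Adm z) : ∃ r R : ℝ, 0 < r ∧ r < R ∧ ∀ t, t ∉ Icc r R → z t = 0 := by
  rcases (tsupport z).eq_empty_or_nonempty with h | h
  · refine ⟨1, 2, one_pos, one_lt_two, fun t _ => ?_⟩
    exact image_eq_zero_of_notMem_tsupport (by rw [h]; simp)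
  · have hK : IsCompact (tsupport z) := hz.supp
    obtain ⟨a, ha, hamin⟩ := hK.exists_isLeast h
    obtain ⟨b, hb, hbmax⟩ := hK.exists_isGreatest h
    have ha0 : 0 < a := hz.pos ha
    refine ⟨a, b + 1, ha0, ?_, fun t ht => image_eq_zero_of_notMem_tsupport fun h' => ht ?_⟩
    · have := hamin hb; linarith
    · exact ⟨hamin h', by have := hbmax h'; linarith⟩

theorem add {w : ℝ → ℝ} (hz : Adm z) (hw : Adm w) : Adm (fun t => z t + w t) where
  cont := hz.cont.add hw.cont
  supp := hz.supp.add hw.supp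
  pos := (tsupport_add z w).trans (union_subset hz.pos hw.pos)
  mom := by
    have h1 : Integrable (fun t => t * z t) := (continuous_id.mul hz.cont).integrable_of_hasCompactSupport
      hz.supp.mul_left
    have h2 : Integrable (fun t => t * w t) := (continuous_id.mul hw.cont).integrable_of_hasCompactSupport
      hw.supp.mul_left
    simp only [mul_add]
    rw [integral_add h1.integrableOn h2.integrableOn, hz.mom, hw.mom, add_zero]

theorem smul (hz : Adm z) (c : ℝ) : Adm (fun t => c * z t) where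
  cont := continuous_const.mul hz.cont
  supp := hz.supp.mul_left
  pos := by
    refine (closure_mono ?_).trans hz.pos
    intro t ht
    simp only [Function.mem_support] at ht ⊢
    exact right_ne_zero_of_mul ht
  mom := by
    have : ∀ t : ℝ, t * (c * z t) = c * (t * z t) := fun t => by ring
    simp only [this]
    rw [integral_const_mul, hz.mom, mul_zero]

/-- `t^{-10} z` -/
def zm (z : ℝ → ℝ) (t : ℝ) : ℝ := (t ^ 10)⁻¹ * z t

theorem zm_cont (hz : Adm z) : Continuous (zm z) := by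
  obtain ⟨r, R, hr, hrR, h0⟩ := hz.bounds
  rw [continuous_iff_continuousAt]
  intro t
  rcases eq_or_ne t 0 with rfl | ht
  · have : zm z =ᶠ[𝓝 0] fun _ => 0 := by
      filter_upwards [Iio_mem_nhds hr] with s hs
      simp only [zm]
      rw [h0 s (fun h => absurd h.1 (not_le.2 hs)), mul_zero]
    exact (continuousAt_const).congr this.symm
  · exact ((continuousAt_id.pow 10).inv₀ (pow_ne_zero 10 ht)).mul hz.cont.continuousAt

theorem zm_supp (hz : Adm z) : HasCompactSupport (zm z) := hz.supp.mul_left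

theorem zm_int (hz : Adm z) : Integrable (zm z) := hz.zm_cont.integrable_of_hasCompactSupport hz.zm_supp

theorem z_int (hz : Adm z) : Integrable z := hz.cont.integrable_of_hasCompactSupport hz.supp

theorem tz_cont (hz : Adm z) : Continuous (fun t => t * z t) := continuous_id.mul hz.cont

theorem tz_int (hz : Adm z) : Integrable (fun t => t * z t) :=
  hz.tz_cont.integrable_of_hasCompactSupport hz.supp.mul_left

end Adm

open Adm

theorem abs_sub' (a b : ℝ) : |a - b| ≤ |a| + |b| := by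
  have := norm_sub_le a b
  simpa [Real.norm_eq_abs] using this

/-- `D` for a test function `z`. -/
def DD (z : ℝ → ℝ) (y : ℝ) : ℝ :=
  -((1 / 11) * ∫ t in Ioi y, t * z t) + (y / 10) * (∫ t in Ioi y, z t)
    - (y ^ 11 / 110) * ∫ t in Ioi y, zm z t

def DD1 (z : ℝ → ℝ) (y : ℝ) : ℝ :=
  (1 / 10) * (∫ t in Ioi y, z t) - (y ^ 10 / 10) * ∫ t in Ioi y, zm z t

def DD2 (z : ℝ → ℝ) (y : ℝ) : ℝ := -(y ^ 9 * ∫ t in Ioi y, zm z t)

def DD3 (z : ℝ → ℝ) (y : ℝ) : ℝ := -(9 * y ^ 8 * ∫ t in Ioi y, zm z t) + z y / y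

variable {z : ℝ → ℝ}

theorem DD_hasDeriv (hz : Adm z) {y : ℝ} (hy : 0 < y) : HasDerivAt (DD z) (DD1 z y) y := by
  have h1 := hasDerivAt_tail hz.tz_cont hz.tz_int y
  have h0 := hasDerivAt_tail hz.cont hz.z_int y
  have hm := hasDerivAt_tail hz.zm_cont hz.zm_int y
  have hy' : y ≠ 0 := hy.ne'
  have := ((h1.const_mul (1/11)).neg.add (((hasDerivAt_id y).div_const 10).mul h0)).sub
    (((hasDerivAt_pow 11 y).div_const 110).mul hm)
  refine (this.congr_deriv ?_)
  simp only [DD1, id]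
  generalize (∫ t in Ioi y, z t) = A
  generalize (∫ t in Ioi y, zm z t) = B
  simp only [zm]
  field_simp
  norm_num
  ring

theorem DD1_hasDeriv (hz : Adm z) {y : ℝ} (hy : 0 < y) : HasDerivAt (DD1 z) (DD2 z y) y := by
  have h0 := hasDerivAt_tail hz.cont hz.z_int y
  have hm := hasDerivAt_tail hz.zm_cont hz.zm_int y
  have hy' : y ≠ 0 := hy.ne'
  have := (h0.const_mul (1/10)).sub (((hasDerivAt_pow 10 y).div_const 10).mul hm)
  refine (this.congr_deriv ?_)
  simp only [DD2]
  generalize (∫ t in Ioi y, zm z t) = B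
  simp only [zm]
  field_simp
  norm_num
  ring

theorem DD2_hasDeriv (hz : Adm z) {y : ℝ} (hy : 0 < y) : HasDerivAt (DD2 z) (DD3 z y) y := by
  have hm := hasDerivAt_tail hz.zm_cont hz.zm_int y
  have hy' : y ≠ 0 := hy.ne'
  have := ((hasDerivAt_pow 9 y).mul hm).neg
  refine (this.congr_deriv ?_)
  simp only [DD3]
  generalize (∫ t in Ioi y, zm z t) = B
  simp only [zm]
  field_simp
  norm_num
  ring

theorem DD_eq {y : ℝ} (hy : 0 < y) : y * DD3 z y - 9 * DD2 z y = z y := by
  simp only [DD3, DD2]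
  field_simp
  ring

theorem DD_cont (hz : Adm z) : Continuous (DD z) := by
  have c1 : Continuous (fun y => ∫ t in Ioi y, t * z t) :=
    continuous_iff_continuousAt.2 fun y => (hasDerivAt_tail hz.tz_cont hz.tz_int y).continuousAt
  have c2 : Continuous (fun y => ∫ t in Ioi y, z t) :=
    continuous_iff_continuousAt.2 fun y => (hasDerivAt_tail hz.cont hz.z_int y).continuousAt
  have c3 : Continuous (fun y => ∫ t in Ioi y, zm z t) :=
    continuous_iff_continuousAt.2 fun y => (hasDerivAt_tail hz.zm_cont hz.zm_int y).continuousAt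
  unfold DD
  fun_prop

theorem DD1_cont (hz : Adm z) : Continuous (DD1 z) := by
  have c2 : Continuous (fun y => ∫ t in Ioi y, z t) :=
    continuous_iff_continuousAt.2 fun y => (hasDerivAt_tail hz.cont hz.z_int y).continuousAt
  have c3 : Continuous (fun y => ∫ t in Ioi y, zm z t) :=
    continuous_iff_continuousAt.2 fun y => (hasDerivAt_tail hz.zm_cont hz.zm_int y).continuousAt
  unfold DD1
  fun_prop

theorem DD2_cont (hz : Adm z) : Continuous (DD2 z) := by
  have c3 : Continuous (fun y => ∫ t in Ioi y, zm z t) :=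
    continuous_iff_continuousAt.2 fun y => (hasDerivAt_tail hz.zm_cont hz.zm_int y).continuousAt
  unfold DD2
  fun_prop

theorem tail_zero {f : ℝ → ℝ} {R y : ℝ} (h : ∀ t, R < t → f t = 0) (hy : R ≤ y) :
    ∫ t in Ioi y, f t = 0 := by
  rw [setIntegral_congr_fun measurableSet_Ioi (g := fun _ => (0:ℝ)) (fun t ht => h t (lt_of_le_of_lt hy ht))]
  simp

theorem DD_zero_right (hz : Adm z) : ∃ R : ℝ, 0 < R ∧ ∀ y, R ≤ y → DD z y = 0 ∧ DD1 z y = 0 ∧
    DD2 z y = 0 ∧ z y = 0 := by
  obtain ⟨r, R, hr, hrR, h0⟩ := hz.bounds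
  have hR : ∀ t, R < t → z t = 0 := fun t ht => h0 t (fun h => absurd h.2 (not_le.2 ht))
  refine ⟨R + 1, by linarith, fun y hy => ?_⟩
  have e1 : ∫ t in Ioi y, t * z t = 0 := tail_zero (fun t ht => by simp [hR t ht]) (by linarith : R ≤ y)
  have e2 : ∫ t in Ioi y, z t = 0 := tail_zero (fun t ht => by simp [hR t ht]) (by linarith : R ≤ y)
  have e3 : ∫ t in Ioi y, zm z t = 0 :=
    tail_zero (fun t ht => by simp [zm, hR t ht]) (by linarith : R ≤ y)
  refine ⟨by simp [DD, e1, e2, e3], by simp [DD1, e2, e3], by simp [DD2, e3], hR y (by linarith)⟩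

theorem tail_const {f : ℝ → ℝ} (hf : Integrable f) {r y : ℝ} (h : ∀ t, t < r → f t = 0) (hy : 0 ≤ y)
    (hyr : y ≤ r) : ∫ t in Ioi y, f t = ∫ t in Ioi (0:ℝ), f t := by
  have := intervalIntegral.integral_Ioi_sub_Ioi' (μ := volume) (f := f) (a := 0) (b := y)
    hf.integrableOn hf.integrableOn
  have h2 : ∫ t in (0:ℝ)..y, f t = 0 := by
    rw [intervalIntegral.integral_of_le hy, integral_Ioc_eq_integral_Ioo,
      setIntegral_congr_fun measurableSet_Ioo (g := fun _ => (0:ℝ))
        (fun t ht => h t (lt_of_lt_of_le ht.2 hyr))]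
    simp
  linarith

/-- near zero: `|D| ≤ C y`, `|D'| ≤ C`, `|D''| ≤ C`. -/
theorem DD_near_zero (hz : Adm z) : ∃ C r : ℝ, 0 ≤ C ∧ 0 < r ∧ r ≤ 1 ∧ ∀ y, 0 ≤ y → y ≤ r →
    |DD z y| ≤ C * y ∧ |DD1 z y| ≤ C ∧ |DD2 z y| ≤ C ∧
    DD1 z y = (1/10) * (∫ t in Ioi (0:ℝ), z t) - (y ^ 10 / 10) * ∫ t in Ioi (0:ℝ), zm z t := by
  obtain ⟨r, R, hr, hrR, h0⟩ := hz.bounds
  have hR : ∀ t, t < r → z t = 0 := fun t ht => h0 t (fun h => absurd h.1 (not_le.2 ht))
  set A := ∫ t in Ioi (0:ℝ), z t with hA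
  set B := ∫ t in Ioi (0:ℝ), zm z t with hB
  refine ⟨|A| + |B|, min r 1, by positivity, lt_min hr one_pos, min_le_right _ _, fun y hy hyr => ?_⟩
  have hy1 : y ≤ 1 := hyr.trans (min_le_right _ _)
  have hyr' : y ≤ r := hyr.trans (min_le_left _ _)
  have e1 : ∫ t in Ioi y, t * z t = 0 := by
    rw [tail_const hz.tz_int (fun t ht => by simp [hR t ht]) hy hyr', hz.mom]
  have e2 : ∫ t in Ioi y, z t = A := tail_const hz.z_int hR hy hyr'
  have e3 : ∫ t in Ioi y, zm z t = B := tail_const hz.zm_int (fun t ht => by simp [zm, hR t ht]) hy hyr'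
  have p9 : y ^ 9 ≤ 1 := pow_le_one₀ hy hy1
  have p10 : y ^ 10 ≤ 1 := pow_le_one₀ hy hy1
  have p9' : 0 ≤ y ^ 9 := by positivity
  have p10' : 0 ≤ y ^ 10 := by positivity
  refine ⟨?_, ?_, ?_, ?_⟩
  · have : DD z y = y * (A / 10 - y ^ 10 / 110 * B) := by
      simp only [DD, e1, e2, e3]; ring
    rw [this, abs_mul, abs_of_nonneg hy, mul_comm]
    refine mul_le_mul_of_nonneg_right ?_ hy
    calc |A / 10 - y ^ 10 / 110 * B| ≤ |A / 10| + |y ^ 10 / 110 * B| := abs_sub' _ _
      _ = |A| / 10 + y ^ 10 / 110 * |B| := by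
          rw [abs_div, abs_mul, abs_of_nonneg (by positivity : 0 ≤ y ^ 10 / 110)]
          norm_num
      _ ≤ |A| + |B| := by
          have := abs_nonneg A
          have := abs_nonneg B
          nlinarith
  · simp only [DD1, e2, e3]
    calc |1 / 10 * A - y ^ 10 / 10 * B| ≤ |1 / 10 * A| + |y ^ 10 / 10 * B| := abs_sub' _ _
      _ = |A| / 10 + y ^ 10 / 10 * |B| := by
          rw [abs_mul, abs_mul, abs_of_nonneg (by positivity : 0 ≤ y ^ 10 / 10)]
          norm_num; ring
      _ ≤ |A| + |B| := by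
          have := abs_nonneg A
          have := abs_nonneg B
          nlinarith
  · simp only [DD2, e3]
    rw [abs_neg, abs_mul, abs_of_nonneg p9']
    have := abs_nonneg A
    have := abs_nonneg B
    nlinarith
  · simp only [DD1, e2, e3]

end Crest.Agent.R213.E
end
end

-- ▼ part R213/E/LinEnergy
section

/-!
# Row 213, part E: energy inequality for test pairs
-/

set_option autoImplicit false

open Set MeasureTheory Filter Topology

noncomputable section

namespace Crest.Agent.R213.E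

theorem uu_pos (b y : ℝ) : 0 < uu b y := by unfold uu; positivity

theorem uu_le_one (b y : ℝ) : uu b y ≤ 1 := by
  unfold uu
  exact inv_le_one_of_one_le₀ (by have : 0 ≤ y ^ 2 / b ^ 2 := by positivity
                                  linarith)

theorem uu_hasDeriv {b : ℝ} (hb : 0 < b) {y : ℝ} (hy : 0 < y) :
    HasDerivAt (uu b) (-(2 / y) * (uu b y * (1 - uu b y))) y := by
  have h1 : HasDerivAt (fun y : ℝ => 1 + y ^ 2 / b ^ 2) (2 * y / b ^ 2) y := by
    have := ((hasDerivAt_pow 2 y).div_const (b ^ 2)).const_add 1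
    simpa using this
  have hne : 1 + y ^ 2 / b ^ 2 ≠ 0 := by positivity
  have h2 := h1.inv hne
  refine h2.congr_deriv ?_
  simp only [uu]
  have hb' : b ≠ 0 := hb.ne'
  have hy' : y ≠ 0 := hy.ne'
  have hbb : b ^ 2 + y ^ 2 ≠ 0 := by positivity
  field_simp
  ring

theorem uu_cont {b : ℝ} : Continuous (uu b) := by
  unfold uu
  refine Continuous.inv₀ (by fun_prop) (fun y => ?_)
  positivity

/-- boundary term of the energy identity -/
def Bf (b : ℝ) (D D1 D2 : ℝ → ℝ) (y : ℝ) : ℝ :=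
  uu b y ^ 3 * y * (D y * D2 y) - 1 / 2 * (uu b y ^ 3 * y) * (D1 y) ^ 2
    - (4 * uu b y ^ 3 + 6 * uu b y ^ 4) * (D y * D1 y)
    + (-(27/4) * uu b y ^ 3 + 15 * uu b y ^ 4 - 3 * uu b y ^ 5) / y * (D y) ^ 2

theorem Bf_hasDeriv {b : ℝ} (hb : 0 < b) {D D1 D2 D3 : ℝ → ℝ} {y : ℝ} (hy : 0 < y)
    (h0 : HasDerivAt D (D1 y) y) (h1 : HasDerivAt D1 (D2 y) y) (h2 : HasDerivAt D2 (D3 y) y) :
    HasDerivAt (Bf b D D1 D2)
      (chi b y * (D y * (y * D3 y - 9 * D2 y)) - (3/2 * uu b y ^ 3 + 9 * uu b y ^ 4) *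
        (D1 y - (7/2 - 3 * uu b y) / y * D y) ^ 2 - chi b y * (bet0 b y / y ^ 2) * (D y) ^ 2) y := by
  have hu := uu_hasDeriv hb hy
  have hy' : y ≠ 0 := hy.ne'
  have e1 := (((hu.pow 3).mul (hasDerivAt_id y)).mul (h0.mul h2))
  have e2 := ((((hu.pow 3).mul (hasDerivAt_id y)).const_mul (1/2)).mul (h1.pow 2))
  have e3 := ((((hu.pow 3).const_mul 4).add ((hu.pow 4).const_mul 6)).mul (h0.mul h1))
  have e4 := ((((((hu.pow 3).const_mul (-(27/4))).add ((hu.pow 4).const_mul 15)).sub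
    ((hu.pow 5).const_mul 3)).div (hasDerivAt_id y) hy').mul (h0.pow 2))
  have e5 := ((e1.sub e2).sub e3).add e4
  refine (e5.congr_of_eventuallyEq (Eventually.of_forall fun x => ?_)).congr_deriv ?_
  · simp only [Bf, Pi.mul_apply, Pi.add_apply, Pi.sub_apply, Pi.pow_apply, Pi.div_apply, id]
  · simp only [chi, bet0, Pi.mul_apply, Pi.add_apply, Pi.sub_apply, Pi.pow_apply, Pi.div_apply, id]
    generalize uu b y = u
    field_simp
    norm_num
    ring


theorem chi_pos (b y : ℝ) : 0 < chi b y := by unfold chi; have := uu_pos b y; positivity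

theorem chi_le_one (b y : ℝ) : chi b y ≤ 1 := by
  unfold chi; exact pow_le_one₀ (uu_pos b y).le (uu_le_one b y)

theorem chi_cont {b : ℝ} : Continuous (chi b) := uu_cont.pow 3

theorem bet0_cont {b : ℝ} : Continuous (bet0 b) := by
  have := uu_cont (b := b)
  unfold bet0
  fun_prop

theorem abs_bet0_le (b y : ℝ) : |bet0 b y| ≤ 240 := by
  have h0 := (uu_pos b y).le
  have h1 := uu_le_one b y
  unfold bet0
  have h2 : uu b y ^ 2 ≤ 1 := pow_le_one₀ h0 h1
  have h3 : uu b y ^ 3 ≤ 1 := pow_le_one₀ h0 h1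
  have h2' : 0 ≤ uu b y ^ 2 := by positivity
  have h3' : 0 ≤ uu b y ^ 3 := by positivity
  rw [abs_le]
  constructor <;> linarith

variable {z : ℝ → ℝ}

/-- `|D| ≤ K y` globally on `y ≥ 0`, and `D = 0` for large `y`. -/
theorem DD_lin_bound (hz : Adm z) : ∃ K : ℝ, 0 ≤ K ∧ ∀ y, 0 ≤ y → |DD z y| ≤ K * y := by
  obtain ⟨C, r, hC, hr, hr1, h⟩ := DD_near_zero hz
  obtain ⟨R, hR, hR0⟩ := DD_zero_right hz
  obtain ⟨M, hM⟩ := (isCompact_Icc (a := (0:ℝ)) (b := R)).exists_bound_of_continuousOn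
    (DD_cont hz).continuousOn
  have hM0 : 0 ≤ M := (norm_nonneg _).trans (hM 0 ⟨le_rfl, hR.le⟩)
  refine ⟨C + M / r, by positivity, fun y hy => ?_⟩
  rcases le_total y r with h1 | h1
  · refine (h y hy h1).1.trans ?_
    have : 0 ≤ M / r * y := by positivity
    linarith
  · rcases le_total y R with h2 | h2
    · have h3 := hM y ⟨hy, h2⟩
      rw [Real.norm_eq_abs] at h3
      refine h3.trans ?_
      have : M ≤ M / r * y := by
        rw [div_mul_eq_mul_div, le_div_iff₀ hr]
        exact mul_le_mul_of_nonneg_left h1 hM0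
      have : 0 ≤ C * y := by positivity
      linarith
    · rw [(hR0 y h2).1, abs_zero]
      positivity

theorem z_bound (hz : Adm z) : ∃ Z : ℝ, 0 ≤ Z ∧ ∀ y, |z y| ≤ Z := by
  obtain ⟨Z, hZ⟩ := hz.cont.bounded_above_of_compact_support hz.supp
  exact ⟨Z, (norm_nonneg _).trans (hZ 0), fun y => by simpa using hZ y⟩

theorem f1_bound {b : ℝ} (hz : Adm z) : ∃ K : ℝ, 0 ≤ K ∧ ∀ y, 0 < y →
    |chi b y * (bet0 b y / y ^ 2) * (DD z y) ^ 2| ≤ K := by
  obtain ⟨K, hK, h⟩ := DD_lin_bound hz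
  refine ⟨240 * K ^ 2, by positivity, fun y hy => ?_⟩
  have h1 := h y hy.le
  have h2 : (DD z y) ^ 2 ≤ (K * y) ^ 2 := by
    rw [← sq_abs]; exact pow_le_pow_left₀ (abs_nonneg _) h1 2
  have h3 : |chi b y * (bet0 b y / y ^ 2) * (DD z y) ^ 2| =
      chi b y * (|bet0 b y| / y ^ 2) * (DD z y) ^ 2 := by
    rw [abs_mul, abs_mul, abs_div, abs_of_pos (chi_pos b y), abs_of_nonneg (sq_nonneg (DD z y)),
      abs_of_pos (by positivity : 0 < y ^ 2)]
  rw [h3]
  calc chi b y * (|bet0 b y| / y ^ 2) * (DD z y) ^ 2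
      ≤ 1 * (240 / y ^ 2) * (K * y) ^ 2 := by
        have hc0 := (chi_pos b y).le
        have hc1 := chi_le_one b y
        have hb0 := abs_bet0_le b y
        gcongr
    _ = 240 * K ^ 2 := by field_simp

theorem f1_int {b : ℝ} (hz : Adm z) :
    IntegrableOn (fun y => chi b y * (bet0 b y / y ^ 2) * (DD z y) ^ 2) (Ioi 0) := by
  obtain ⟨R, hR, hR0⟩ := DD_zero_right hz
  obtain ⟨K, hK, h⟩ := f1_bound (b := b) hz
  have hmeas : Measurable (fun y => chi b y * (bet0 b y / y ^ 2) * (DD z y) ^ 2) := by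
    have h1 := (chi_cont (b := b)).measurable
    have h2 := (bet0_cont (b := b)).measurable
    have h3 := (DD_cont hz).measurable
    fun_prop
  have h1 : IntegrableOn (fun y => chi b y * (bet0 b y / y ^ 2) * (DD z y) ^ 2) (Ioc 0 R) := by
    refine Measure.integrableOn_of_bounded (M := K) (by simp) hmeas.aestronglyMeasurable ?_
    refine (ae_restrict_iff' measurableSet_Ioc).2 (Eventually.of_forall fun y hy => ?_)
    rw [Real.norm_eq_abs]
    exact h y hy.1
  have h2 : IntegrableOn (fun y => chi b y * (bet0 b y / y ^ 2) * (DD z y) ^ 2) (Ioi R) := by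
    refine (integrableOn_zero).congr_fun (fun y hy => ?_) measurableSet_Ioi
    rw [(hR0 y (le_of_lt hy)).1]; simp
  have := h1.union h2
  rwa [Ioc_union_Ioi_eq_Ioi hR.le] at this

theorem f2_int {b : ℝ} (hz : Adm z) : IntegrableOn (fun y => chi b y * (DD z y * z y)) (Ioi 0) := by
  refine Integrable.integrableOn ?_
  refine (chi_cont.mul ((DD_cont hz).mul hz.cont)).integrable_of_hasCompactSupport ?_
  exact (hz.supp.mul_left).mul_left

theorem energy {b : ℝ} (hb : 0 < b) (hz : Adm z) :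
    ∫ y in Ioi (0:ℝ), chi b y * (bet0 b y / y ^ 2) * (DD z y) ^ 2 ≤
      ∫ y in Ioi (0:ℝ), chi b y * (DD z y * z y) := by
  obtain ⟨C, r, hC, hr, hr1, h⟩ := DD_near_zero hz
  obtain ⟨R, hR, hR0⟩ := DD_zero_right hz
  obtain ⟨K, hK, hf1⟩ := f1_bound (b := b) hz
  obtain ⟨Z, hZ, hz1⟩ := z_bound hz
  set f1 : ℝ → ℝ := fun y => chi b y * (bet0 b y / y ^ 2) * (DD z y) ^ 2 with hf1d
  set f2 : ℝ → ℝ := fun y => chi b y * (DD z y * z y) with hf2d
  have i1 : IntegrableOn f1 (Ioi 0) := f1_int hz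
  have i2 : IntegrableOn f2 (Ioi 0) := f2_int hz
  -- main estimate
  have key : ∀ δ, 0 < δ → δ ≤ r → δ < R →
      ∫ y in Ioi δ, f1 y ≤ (∫ y in Ioi δ, f2 y) + 120 * C ^ 2 * δ := by
    intro δ hδ hδr hδR
    set g : ℝ → ℝ := fun y => (3/2 * uu b y ^ 3 + 9 * uu b y ^ 4) *
        (DD1 z y - (7/2 - 3 * uu b y) / y * DD z y) ^ 2 with hg
    have hcont : ContinuousOn (fun y => f2 y - g y - f1 y) (Icc δ R) := by
      have hu := (uu_cont (b := b)).continuousOn (s := Icc δ R)
      have hc := (chi_cont (b := b)).continuousOn (s := Icc δ R)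
      have hb' := (bet0_cont (b := b)).continuousOn (s := Icc δ R)
      have hD := (DD_cont hz).continuousOn (s := Icc δ R)
      have hD1 := (DD1_cont hz).continuousOn (s := Icc δ R)
      have hz' := hz.cont.continuousOn (s := Icc δ R)
      have hne : ∀ y ∈ Icc δ R, y ≠ 0 := fun y hy => (lt_of_lt_of_le hδ hy.1).ne'
      have hid : ContinuousOn (fun y : ℝ => y) (Icc δ R) := continuousOn_id
      refine ContinuousOn.sub (ContinuousOn.sub (hc.mul (hD.mul hz')) ?_) ?_
      · exact (((hu.pow 3).const_mul _ |>.add ((hu.pow 4).const_mul _))).mul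
          ((hD1.sub (((continuousOn_const.sub (hu.const_mul _)).div hid hne).mul hD)).pow 2)
      · exact (hc.mul (hb'.div (hid.pow 2) (fun y hy => pow_ne_zero 2 (hne y hy)))).mul (hD.pow 2)
    have hder : ∀ y ∈ uIcc δ R, HasDerivAt (Bf b (DD z) (DD1 z) (DD2 z)) (f2 y - g y - f1 y) y := by
      intro y hy
      rw [uIcc_of_le hδR.le] at hy
      have hy0 : 0 < y := lt_of_lt_of_le hδ hy.1
      have := Bf_hasDeriv hb hy0 (DD_hasDeriv hz hy0) (DD1_hasDeriv hz hy0) (DD2_hasDeriv hz hy0)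
      rw [DD_eq hy0] at this
      exact this
    have hint : IntervalIntegrable (fun y => f2 y - g y - f1 y) volume δ R :=
      (hcont.mono (by rw [uIcc_of_le hδR.le])).intervalIntegrable
    have hFTC := intervalIntegral.integral_eq_sub_of_hasDerivAt hder hint
    have hBR : Bf b (DD z) (DD1 z) (DD2 z) R = 0 := by
      obtain ⟨a1, a2, a3, _⟩ := hR0 R le_rfl
      simp [Bf, a1, a2]
    rw [hBR, zero_sub] at hFTC
    have hgnn : ∀ y, 0 ≤ g y := by
      intro y
      have := (uu_pos b y).le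
      simp only [hg]; positivity
    have j1 : IntervalIntegrable f1 volume δ R := by
      rw [intervalIntegrable_iff_integrableOn_Ioc_of_le hδR.le]
      exact i1.mono_set (Ioc_subset_Ioi_self.trans (Ioi_subset_Ioi hδ.le))
    have j2 : IntervalIntegrable f2 volume δ R := by
      rw [intervalIntegrable_iff_integrableOn_Ioc_of_le hδR.le]
      exact i2.mono_set (Ioc_subset_Ioi_self.trans (Ioi_subset_Ioi hδ.le))
    have hle : ∫ y in δ..R, (f2 y - g y - f1 y) ≤ ∫ y in δ..R, (f2 y - f1 y) := by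
      refine intervalIntegral.integral_mono_on hδR.le hint ?_ (fun y _ => by
        have := hgnn y; linarith)
      exact j2.sub j1
    have hB : Bf b (DD z) (DD1 z) (DD2 z) δ ≤ 120 * C ^ 2 * δ := by
      obtain ⟨b0, b1, b2, _⟩ := h δ hδ.le hδr
      have hu0 := (uu_pos b δ).le
      have hu1 := uu_le_one b δ
      have hδ1 : δ ≤ 1 := hδr.trans hr1
      have hu3 : uu b δ ^ 3 ≤ 1 := pow_le_one₀ hu0 hu1
      have hu4 : uu b δ ^ 4 ≤ 1 := pow_le_one₀ hu0 hu1
      have hu5 : uu b δ ^ 5 ≤ 1 := pow_le_one₀ hu0 hu1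
      have hu3' : 0 ≤ uu b δ ^ 3 := by positivity
      have hu4' : 0 ≤ uu b δ ^ 4 := by positivity
      have hu5' : 0 ≤ uu b δ ^ 5 := by positivity
      have t1 : uu b δ ^ 3 * δ * (DD z δ * DD2 z δ) ≤ C ^ 2 * δ := by
        have : |uu b δ ^ 3 * δ * (DD z δ * DD2 z δ)| ≤ 1 * 1 * (C * δ * C) := by
          rw [abs_mul, abs_mul, abs_mul, abs_of_nonneg hu3', abs_of_nonneg hδ.le]
          gcongr
        have := (le_abs_self _).trans this
        nlinarith
      have t2 : 0 ≤ 1 / 2 * (uu b δ ^ 3 * δ) * (DD1 z δ) ^ 2 := by positivity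
      have t3 : -((4 * uu b δ ^ 3 + 6 * uu b δ ^ 4) * (DD z δ * DD1 z δ)) ≤ 10 * C ^ 2 * δ := by
        have h10 : |4 * uu b δ ^ 3 + 6 * uu b δ ^ 4| ≤ 10 := by
          rw [abs_of_nonneg (by positivity)]; linarith
        have : |-((4 * uu b δ ^ 3 + 6 * uu b δ ^ 4) * (DD z δ * DD1 z δ))| ≤ 10 * (C * δ * C) := by
          rw [abs_neg, abs_mul, abs_mul]
          gcongr
        have := (le_abs_self _).trans this
        nlinarith
      have t4 : (-(27/4) * uu b δ ^ 3 + 15 * uu b δ ^ 4 - 3 * uu b δ ^ 5) / δ * (DD z δ) ^ 2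
          ≤ 25 * C ^ 2 * δ := by
        have h25 : |-(27/4) * uu b δ ^ 3 + 15 * uu b δ ^ 4 - 3 * uu b δ ^ 5| ≤ 25 := by
          rw [abs_le]; constructor <;> linarith
        have hsq : (DD z δ) ^ 2 ≤ (C * δ) ^ 2 := by
          rw [← sq_abs]; exact pow_le_pow_left₀ (abs_nonneg _) b0 2
        have : |(-(27/4) * uu b δ ^ 3 + 15 * uu b δ ^ 4 - 3 * uu b δ ^ 5) / δ * (DD z δ) ^ 2| ≤
            25 / δ * (C * δ) ^ 2 := by
          rw [abs_mul, abs_div, abs_of_pos hδ, abs_of_nonneg (sq_nonneg (DD z δ))]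
          gcongr
        have h' : 25 / δ * (C * δ) ^ 2 = 25 * C ^ 2 * δ := by field_simp
        rw [h'] at this
        exact (le_abs_self _).trans this
      have hC2 : 0 ≤ C ^ 2 * δ := by positivity
      have : Bf b (DD z) (DD1 z) (DD2 z) δ = uu b δ ^ 3 * δ * (DD z δ * DD2 z δ)
          - 1 / 2 * (uu b δ ^ 3 * δ) * (DD1 z δ) ^ 2
          - (4 * uu b δ ^ 3 + 6 * uu b δ ^ 4) * (DD z δ * DD1 z δ)
          + (-(27/4) * uu b δ ^ 3 + 15 * uu b δ ^ 4 - 3 * uu b δ ^ 5) / δ * (DD z δ) ^ 2 := rfl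
      rw [this]
      linarith
    have etail : ∀ f : ℝ → ℝ, IntegrableOn f (Ioi 0) → (∀ y, R ≤ y → f y = 0) →
        ∫ y in Ioi δ, f y = ∫ y in δ..R, f y := by
      intro f hf hf0
      have := intervalIntegral.integral_Ioi_sub_Ioi (μ := volume) (f := f) (a := δ) (b := R)
        (hf.mono_set (Ioi_subset_Ioi hδ.le)) hδR.le
      rw [tail_zero (fun t ht => hf0 t (le_of_lt ht)) le_rfl, sub_zero] at this
      exact this
    have e1 : ∫ y in Ioi δ, f1 y = ∫ y in δ..R, f1 y :=
      etail f1 i1 (fun y hy => by simp [hf1d, (hR0 y hy).1])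
    have e2 : ∫ y in Ioi δ, f2 y = ∫ y in δ..R, f2 y :=
      etail f2 i2 (fun y hy => by simp [hf2d, (hR0 y hy).1])
    rw [intervalIntegral.integral_sub j2 j1] at hle
    rw [e1, e2]
    linarith
  -- conclude
  refine le_of_forall_pos_lt_add fun ε hε => ?_
  set KK := 120 * C ^ 2 + K + C * Z + 1 with hKK
  have hKKpos : 0 < KK := by positivity
  set δ := min (min r (R / 2)) (ε / (2 * KK)) with hδd
  have hδ : 0 < δ := by positivity
  have hδr : δ ≤ r := (min_le_left _ _).trans (min_le_left _ _)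
  have hδR : δ < R := by
    have : δ ≤ R / 2 := (min_le_left _ _).trans (min_le_right _ _)
    linarith
  have hδε : δ ≤ ε / (2 * KK) := min_le_right _ _
  have k := key δ hδ hδr hδR
  have s1 := intervalIntegral.integral_Ioi_sub_Ioi (μ := volume) (f := f1) (a := 0) (b := δ) i1 hδ.le
  have s2 := intervalIntegral.integral_Ioi_sub_Ioi (μ := volume) (f := f2) (a := 0) (b := δ) i2 hδ.le
  have n1 : ‖∫ y in (0:ℝ)..δ, f1 y‖ ≤ K * |δ - 0| := by
    refine intervalIntegral.norm_integral_le_of_norm_le_const fun y hy => ?_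
    rw [uIoc_of_le hδ.le] at hy
    exact hf1 y hy.1
  have n2 : ‖∫ y in (0:ℝ)..δ, f2 y‖ ≤ (C * Z) * |δ - 0| := by
    refine intervalIntegral.norm_integral_le_of_norm_le_const fun y hy => ?_
    rw [uIoc_of_le hδ.le] at hy
    have hy1 : y ≤ 1 := hy.2.trans (hδr.trans hr1)
    have b0 := (h y hy.1.le (hy.2.trans hδr)).1
    have b0' : |DD z y| ≤ C := b0.trans (by nlinarith)
    rw [Real.norm_eq_abs, abs_mul, abs_mul, abs_of_pos (chi_pos b y)]
    have hc := chi_le_one b y
    have hc0 := (chi_pos b y).le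
    calc chi b y * (|DD z y| * |z y|) ≤ 1 * (C * Z) := by
          have := hz1 y
          gcongr
      _ = C * Z := one_mul _
  rw [sub_zero, abs_of_pos hδ, Real.norm_eq_abs] at n1 n2
  have m1 := (abs_le.1 n1).2
  have m2 := (abs_le.1 n2).1
  have hfin : KK * δ ≤ ε / 2 := by
    calc KK * δ ≤ KK * (ε / (2 * KK)) := by gcongr
      _ = ε / 2 := by field_simp
  have : 120 * C ^ 2 * δ + K * δ + C * Z * δ ≤ KK * δ := by
    rw [hKK]; nlinarith
  linarith

end Crest.Agent.R213.E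
end
end

-- ▼ part R213/E/LinDense
section

/-!
# Row 213, part E: density (a positive Volterra kernel)
-/

set_option autoImplicit false

open Set MeasureTheory Filter Topology

noncomputable section

namespace Crest.Agent.R213.E

/-- kernel: `D z y = - ∫_{t>y} gk y t z t` -/
def gk (y t : ℝ) : ℝ := t / 11 - y / 10 + y ^ 11 / 110 * (t ^ 10)⁻¹

theorem gk_nonneg {y t : ℝ} (hy : 0 ≤ y) (ht : 0 < t) : 0 ≤ gk y t := by
  have h1 : 1 + (11:ℕ) * (y / t - 1) ≤ (1 + (y / t - 1)) ^ 11 :=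
    one_add_mul_le_pow (by have : 0 ≤ y / t := by positivity
                           linarith) 11
  have h2 : gk y t = t / 110 * ((1 + (y / t - 1)) ^ 11 - (1 + (11:ℕ) * (y / t - 1))) := by
    unfold gk
    have : t ≠ 0 := ht.ne'
    push_cast
    field_simp
    ring
  rw [h2]
  have : 0 ≤ (1 + (y / t - 1)) ^ 11 - (1 + (11:ℕ) * (y / t - 1)) := by linarith
  positivity

theorem gk_le {y t : ℝ} (hy : 0 ≤ y) (hyt : y ≤ t) (ht : 0 < t) : gk y t ≤ t / 11 := by
  unfold gk
  have h1 : y ^ 10 * (t ^ 10)⁻¹ ≤ 1 := by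
    rw [← div_eq_mul_inv, div_le_one (by positivity)]
    exact pow_le_pow_left₀ hy hyt 10
  have h2 : y ^ 11 / 110 * (t ^ 10)⁻¹ = y / 110 * (y ^ 10 * (t ^ 10)⁻¹) := by ring
  rw [h2]
  have : y / 110 * (y ^ 10 * (t ^ 10)⁻¹) ≤ y / 110 * 1 := by gcongr
  linarith

theorem gk_meas : Measurable (fun p : ℝ × ℝ => gk p.1 p.2) := by
  unfold gk
  fun_prop

variable {z : ℝ → ℝ}

theorem DD_eq_gk (hz : Adm z) (y : ℝ) : DD z y = - ∫ t in Ioi y, gk y t * z t := by
  have e : ∀ t, gk y t * z t = (1/11) * (t * z t) - (y / 10) * z t + (y ^ 11 / 110) * Adm.zm z t := by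
    intro t; simp only [gk, Adm.zm]; ring
  have i1 : IntegrableOn (fun t => (1/11) * (t * z t)) (Ioi y) := (hz.tz_int.const_mul _).integrableOn
  have i2 : IntegrableOn (fun t => (y / 10) * z t) (Ioi y) := (hz.z_int.const_mul _).integrableOn
  have i3 : IntegrableOn (fun t => (y ^ 11 / 110) * Adm.zm z t) (Ioi y) :=
    (hz.zm_int.const_mul _).integrableOn
  have i12 : IntegrableOn (fun t => (1/11) * (t * z t) - (y / 10) * z t) (Ioi y) := i1.sub i2
  simp only [e]
  rw [integral_add i12 i3, integral_sub i1 i2, integral_const_mul, integral_const_mul,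
    integral_const_mul]
  simp only [DD]
  ring

/-- Grönwall for an integral inequality. -/
theorem vol_gronwall {w : ℝ → ℝ} {C T : ℝ} (hw : Integrable w)
    (hw0 : ∀ y, 0 ≤ w y) (h : ∀ᵐ t, t ∈ Ioc 0 T → w t ≤ C * ∫ s in (0:ℝ)..t, w s) :
    ∀ᵐ t, t ∈ Ioc 0 T → w t = 0 := by
  rcases le_or_gt T 0 with hT | hT
  · exact Eventually.of_forall fun t ht => absurd (ht.1.trans_le ht.2) (not_lt.2 hT)
  set W : ℝ → ℝ := fun t => ∫ s in (0:ℝ)..t, w s with hW
  have hWc : Continuous W := intervalIntegral.continuous_primitive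
    (fun a b => hw.intervalIntegrable) 0
  set F : ℝ → ℝ := fun t => ∫ s in (0:ℝ)..t, W s with hF
  have hF' : ∀ t, HasDerivAt F (W t) t := fun t =>
    intervalIntegral.integral_hasDerivAt_right (hWc.intervalIntegrable _ _)
      hWc.aestronglyMeasurable.stronglyMeasurableAtFilter hWc.continuousAt
  have hW0 : ∀ t, 0 ≤ t → 0 ≤ W t := fun t ht =>
    intervalIntegral.integral_nonneg ht fun s _ => hw0 s
  have hF0 : ∀ t, 0 ≤ t → 0 ≤ F t := fun t ht =>
    intervalIntegral.integral_nonneg ht fun s hs => hW0 s hs.1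
  have hWF : ∀ t ∈ Icc 0 T, W t ≤ C * F t := by
    intro t ht
    simp only [hF]
    rw [← intervalIntegral.integral_const_mul]
    refine intervalIntegral.integral_mono_ae_restrict ht.1 hw.intervalIntegrable
      ((hWc.const_mul C).intervalIntegrable _ _) ?_
    refine (ae_restrict_iff' measurableSet_Icc).2 ?_
    have h0 : ∀ᵐ s : ℝ, s ≠ 0 := by
      have : ({0}ᶜ : Set ℝ) ∈ ae volume := by simp [mem_ae_iff]
      exact this
    filter_upwards [h, h0] with s hs hs0 hs'
    exact hs ⟨lt_of_le_of_ne hs'.1 (Ne.symm hs0), hs'.2.trans ht.2⟩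
  have hFz : ∀ t ∈ Icc 0 T, ‖F t‖ ≤ gronwallBound 0 C 0 (t - 0) := by
    refine norm_le_gronwallBound_of_norm_deriv_right_le (f' := W) ?_ ?_ ?_ ?_
    · exact fun t _ => (hF' t).continuousAt.continuousWithinAt
    · exact fun t _ => (hF' t).hasDerivWithinAt
    · simp [hF]
    · intro t ht
      rw [Real.norm_of_nonneg (hW0 t ht.1), Real.norm_of_nonneg (hF0 t ht.1), add_zero]
      exact hWF t ⟨ht.1, ht.2.le⟩
  filter_upwards [h] with t ht ht'
  have h1 := hFz t ⟨ht'.1.le, ht'.2⟩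
  rw [gronwallBound_ε0_δ0] at h1
  have h2 : F t = 0 := norm_le_zero_iff.1 h1
  have h3 := hWF t ⟨ht'.1.le, ht'.2⟩
  rw [h2, mul_zero] at h3
  have h4 : W t = 0 := le_antisymm h3 (hW0 t ht'.1.le)
  have h5 := ht ht'
  have h6 : C * ∫ s in (0:ℝ)..t, w s = 0 := by
    have : ∫ s in (0:ℝ)..t, w s = 0 := h4
    rw [this, mul_zero]
  rw [h6] at h5
  exact le_antisymm h5 (hw0 t)

/-- the Volterra operator -/
def VG (n U : ℝ → ℝ) (t : ℝ) : ℝ := ∫ y in Ioc 0 t, gk y t * (n y * U y)

theorem VG_int {n U : ℝ → ℝ} {n1 : ℝ} (hn : Measurable n) (hn0 : ∀ y, 0 < y → 0 ≤ n y)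
    (hn1 : ∀ y, 0 < y → n y ≤ n1) (hU : ∀ T, IntegrableOn U (Ioc 0 T)) {t : ℝ} (ht : 0 < t) :
    IntegrableOn (fun y => gk y t * (n y * U y)) (Ioc 0 t) := by
  have h1 : Integrable (fun y => (t / 11 * n1) * ‖U y‖) (volume.restrict (Ioc 0 t)) :=
    (hU t).norm.const_mul _
  refine h1.mono' ?_ ?_
  · refine AEStronglyMeasurable.mul ?_ (hn.aestronglyMeasurable.mul (hU t).aestronglyMeasurable)
    exact (gk_meas.comp (measurable_id.prodMk measurable_const)).aestronglyMeasurable
  · refine (ae_restrict_iff' measurableSet_Ioc).2 (Eventually.of_forall fun y hy => ?_)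
    rw [norm_mul, norm_mul, ← mul_assoc, Real.norm_of_nonneg (gk_nonneg hy.1.le ht),
      Real.norm_of_nonneg (hn0 y hy.1)]
    refine mul_le_mul_of_nonneg_right ?_ (norm_nonneg _)
    exact mul_le_mul (gk_le hy.1.le hy.2 ht) (hn1 y hy.1) (hn0 y hy.1) (by positivity)

theorem vol_nonneg {n U : ℝ → ℝ} {n1 : ℝ} (hn : Measurable n) (hn0 : ∀ y, 0 < y → 0 ≤ n y)
    (hn1 : ∀ y, 0 < y → n y ≤ n1) (hU : ∀ T, IntegrableOn U (Ioc 0 T))
    (h : ∀ᵐ t, 0 < t → VG n U t ≤ U t) : ∀ᵐ t, 0 < t → 0 ≤ U t := by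
  have hn1' : 0 ≤ n1 := (hn0 1 one_pos).trans (hn1 1 one_pos)
  suffices H : ∀ N : ℕ, ∀ᵐ t, t ∈ Ioc 0 (N : ℝ) → 0 ≤ U t by
    have := ae_all_iff.2 H
    filter_upwards [this] with t ht ht0
    obtain ⟨N, hN⟩ := exists_nat_ge t
    exact ht N ⟨ht0, hN⟩
  intro N
  set T : ℝ := (N : ℝ) with hTN
  set w : ℝ → ℝ := (Ioc 0 T).indicator (fun y => max (-U y) 0) with hw
  have hwint : Integrable w := by
    rw [hw, integrable_indicator_iff measurableSet_Ioc]
    exact ((hU T).neg).pos_part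
  have hw0 : ∀ y, 0 ≤ w y := fun y => indicator_nonneg (fun _ _ => le_max_right _ _) y
  have key := vol_gronwall (w := w) (C := T / 11 * n1) (T := T) hwint hw0 ?_
  · filter_upwards [key] with t ht ht'
    have := ht ht'
    rw [hw, indicator_of_mem ht'] at this
    have h2 := le_max_left (-U t) 0
    linarith
  · filter_upwards [h] with t ht ht'
    have ht0 := ht'.1
    have h1 := ht ht0
    rcases le_or_gt 0 (U t) with hU0 | hU0
    · have : w t = 0 := by
        rw [hw, indicator_of_mem ht', max_eq_right (by linarith)]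
      rw [this]
      have : 0 ≤ ∫ s in (0:ℝ)..t, w s := intervalIntegral.integral_nonneg ht0.le fun s _ => hw0 s
      positivity
    · have e1 : w t = -U t := by
        rw [hw, indicator_of_mem ht', max_eq_left (by linarith)]
      rw [e1]
      have e2 : -VG n U t ≤ T / 11 * n1 * ∫ s in (0:ℝ)..t, w s := by
        rw [intervalIntegral.integral_of_le ht0.le, VG, ← integral_neg, ← integral_const_mul]
        refine integral_mono_ae (VG_int hn hn0 hn1 hU ht0).neg (hwint.integrableOn.const_mul _) ?_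
        refine (ae_restrict_iff' measurableSet_Ioc).2 (Eventually.of_forall fun y hy => ?_)
        have hyT : y ∈ Ioc 0 T := ⟨hy.1, hy.2.trans ht'.2⟩
        show -(gk y t * (n y * U y)) ≤ T / 11 * n1 * w y
        rw [hw, indicator_of_mem hyT]
        have g0 := gk_nonneg hy.1.le ht0
        have g1 : gk y t ≤ T / 11 := (gk_le hy.1.le hy.2 ht0).trans (by have := ht'.2; linarith)
        have m0 : 0 ≤ max (-U y) 0 := le_max_right _ _
        have m1 : -U y ≤ max (-U y) 0 := le_max_left _ _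
        calc -(gk y t * (n y * U y)) = gk y t * n y * (-U y) := by ring
          _ ≤ gk y t * n y * max (-U y) 0 :=
              mul_le_mul_of_nonneg_left m1 (mul_nonneg g0 (hn0 y hy.1))
          _ ≤ T / 11 * n1 * max (-U y) 0 := by
              refine mul_le_mul_of_nonneg_right ?_ m0
              exact mul_le_mul g1 (hn1 y hy.1) (hn0 y hy.1) (by positivity)
      linarith


section fubini

variable {n U : ℝ → ℝ} {n1 : ℝ}

theorem VG_meas (hn : Measurable n) (hUm : Measurable U) : Measurable (VG n U) := by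
  have e : VG n U = fun t => ∫ y in Ioi (0:ℝ),
      {p : ℝ × ℝ | p.2 ≤ p.1}.indicator (fun p => gk p.2 p.1 * (n p.2 * U p.2)) (t, y) := by
    funext t
    have : (fun y => {p : ℝ × ℝ | p.2 ≤ p.1}.indicator (fun p => gk p.2 p.1 * (n p.2 * U p.2)) (t, y))
        = (Iic t).indicator (fun y => gk y t * (n y * U y)) := by
      funext y
      by_cases h : y ≤ t
      · rw [indicator_of_mem (show (t, y) ∈ {p : ℝ × ℝ | p.2 ≤ p.1} from h),
          indicator_of_mem (show y ∈ Iic t from h)]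
      · rw [indicator_of_notMem (show (t, y) ∉ {p : ℝ × ℝ | p.2 ≤ p.1} from h),
          indicator_of_notMem (show y ∉ Iic t from h)]
    rw [this, setIntegral_indicator measurableSet_Iic, VG, Ioi_inter_Iic]
  rw [e]
  refine StronglyMeasurable.measurable (StronglyMeasurable.integral_prod_right
    (f := fun t y => {p : ℝ × ℝ | p.2 ≤ p.1}.indicator (fun p => gk p.2 p.1 * (n p.2 * U p.2)) (t, y))
    (Measurable.stronglyMeasurable ?_))
  refine Measurable.indicator ?_ (measurableSet_le measurable_snd measurable_fst)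
  exact (gk_meas.comp measurable_swap).mul ((hn.comp measurable_snd).mul (hUm.comp measurable_snd))

theorem VG_bound (hn0 : ∀ y, 0 < y → 0 ≤ n y)
    (hn1 : ∀ y, 0 < y → n y ≤ n1) (hU : ∀ T, IntegrableOn U (Ioc 0 T)) {t T : ℝ} (ht : 0 < t)
    (htT : t ≤ T) : |VG n U t| ≤ T / 11 * n1 * ∫ y in Ioc 0 T, |U y| := by
  have hn1' : 0 ≤ n1 := (hn0 1 one_pos).trans (hn1 1 one_pos)
  have h1 : ‖VG n U t‖ ≤ ∫ y in Ioc 0 t, (T / 11 * n1) * |U y| := by
    refine norm_integral_le_of_norm_le ((hU t).norm.const_mul _) ?_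
    refine (ae_restrict_iff' measurableSet_Ioc).2 (Eventually.of_forall fun y hy => ?_)
    rw [norm_mul, norm_mul, ← mul_assoc, Real.norm_of_nonneg (gk_nonneg hy.1.le ht),
      Real.norm_of_nonneg (hn0 y hy.1), Real.norm_eq_abs]
    refine mul_le_mul_of_nonneg_right ?_ (abs_nonneg _)
    have g1 : gk y t ≤ T / 11 := (gk_le hy.1.le hy.2 ht).trans (by linarith)
    exact mul_le_mul g1 (hn1 y hy.1) (hn0 y hy.1) (by linarith [ht.trans_le htT])
  rw [Real.norm_eq_abs] at h1
  refine h1.trans ?_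
  rw [integral_const_mul]
  have hT : 0 < T := ht.trans_le htT
  refine mul_le_mul_of_nonneg_left ?_ (by positivity)
  exact setIntegral_mono_set (hU T).norm (Eventually.of_forall fun y => abs_nonneg _)
    (Ioc_subset_Ioc_right htT).eventuallyLE

theorem fub_int (hn : Measurable n) (hn0 : ∀ y, 0 < y → 0 ≤ n y)
    (hn1 : ∀ y, 0 < y → n y ≤ n1) (hUm : Measurable U) (hU : ∀ T, IntegrableOn U (Ioc 0 T))
    (hz : Adm z) : Integrable ({p : ℝ × ℝ | p.1 ≤ p.2}.indicator
      (fun p => gk p.1 p.2 * (n p.1 * U p.1) * z p.2))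
      ((volume.restrict (Ioi (0:ℝ))).prod (volume.restrict (Ioi (0:ℝ)))) := by
  have hn1' : 0 ≤ n1 := (hn0 1 one_pos).trans (hn1 1 one_pos)
  obtain ⟨r, R, hr, hrR, h0⟩ := hz.bounds
  have hR0 : 0 < R := hr.trans hrR
  set w : ℝ → ℝ := (Ioc 0 R).indicator U with hw
  have hwi : Integrable w (volume.restrict (Ioi (0:ℝ))) := by
    refine Integrable.restrict ?_
    rw [hw, integrable_indicator_iff measurableSet_Ioc]; exact hU R
  have hzi : Integrable z (volume.restrict (Ioi (0:ℝ))) := hz.z_int.restrict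
  have hdom : Integrable (fun p : ℝ × ℝ => (R / 11 * n1) * (‖w p.1‖ * ‖z p.2‖))
      ((volume.restrict (Ioi (0:ℝ))).prod (volume.restrict (Ioi (0:ℝ)))) :=
    (hwi.norm.mul_prod hzi.norm).const_mul _
  refine hdom.mono' ?_ ?_
  · refine (Measurable.indicator ?_ (measurableSet_le measurable_fst measurable_snd)).aestronglyMeasurable
    exact (gk_meas.mul ((hn.comp measurable_fst).mul (hUm.comp measurable_fst))).mul
      (hz.cont.measurable.comp measurable_snd)
  · rw [Measure.prod_restrict]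
    refine (ae_restrict_iff' (measurableSet_Ioi.prod measurableSet_Ioi)).2
      (Eventually.of_forall fun p hp => ?_)
    have hp1 : 0 < p.1 := hp.1
    have hp2 : 0 < p.2 := hp.2
    have hnn : 0 ≤ (R / 11 * n1) * (‖w p.1‖ * ‖z p.2‖) := by positivity
    by_cases hle : p.1 ≤ p.2
    · rw [indicator_of_mem (show p ∈ {p : ℝ × ℝ | p.1 ≤ p.2} from hle)]
      by_cases hzt : z p.2 = 0
      · have e0 : gk p.1 p.2 * (n p.1 * U p.1) * z p.2 = 0 := by rw [hzt, mul_zero]
        rw [e0, norm_zero]; exact hnn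
      · have hmem : p.2 ∈ Icc r R := by
          by_contra hc; exact hzt (h0 _ hc)
        have h1R : p.1 ∈ Ioc 0 R := ⟨hp1, hle.trans hmem.2⟩
        rw [hw, indicator_of_mem h1R, norm_mul, norm_mul, norm_mul,
          Real.norm_of_nonneg (gk_nonneg hp1.le hp2), Real.norm_of_nonneg (hn0 _ hp1)]
        have g1 : gk p.1 p.2 ≤ R / 11 := (gk_le hp1.le hle hp2).trans (by have := hmem.2; linarith)
        calc gk p.1 p.2 * (n p.1 * ‖U p.1‖) * ‖z p.2‖ = (gk p.1 p.2 * n p.1) * (‖U p.1‖ * ‖z p.2‖) := by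
              ring
          _ ≤ (R / 11 * n1) * (‖U p.1‖ * ‖z p.2‖) := by
              refine mul_le_mul_of_nonneg_right ?_ (by positivity)
              exact mul_le_mul g1 (hn1 _ hp1) (hn0 _ hp1) (by positivity)
    · rw [indicator_of_notMem (show p ∉ {p : ℝ × ℝ | p.1 ≤ p.2} from hle), norm_zero]
      exact hnn

theorem fub (hn : Measurable n) (hn0 : ∀ y, 0 < y → 0 ≤ n y)
    (hn1 : ∀ y, 0 < y → n y ≤ n1) (hUm : Measurable U) (hU : ∀ T, IntegrableOn U (Ioc 0 T))
    (hz : Adm z) : IntegrableOn (fun t => VG n U t * z t) (Ioi 0) ∧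
      IntegrableOn (fun y => U y * (n y * DD z y)) (Ioi 0) ∧
      ∫ y in Ioi (0:ℝ), U y * (n y * DD z y) = - ∫ t in Ioi (0:ℝ), VG n U t * z t := by
  have hF := fub_int hn hn0 hn1 hUm hU hz
  set F : ℝ × ℝ → ℝ := {p : ℝ × ℝ | p.1 ≤ p.2}.indicator
      (fun p => gk p.1 p.2 * (n p.1 * U p.1) * z p.2) with hFd
  have e1 : ∀ t, ∫ y in Ioi (0:ℝ), F (y, t) = VG n U t * z t := by
    intro t
    have : (fun y => F (y, t)) = (Iic t).indicator (fun y => gk y t * (n y * U y) * z t) := by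
      funext y
      by_cases h : y ≤ t
      · rw [hFd, indicator_of_mem (show (y, t) ∈ {p : ℝ × ℝ | p.1 ≤ p.2} from h),
          indicator_of_mem (show y ∈ Iic t from h)]
      · rw [hFd, indicator_of_notMem (show (y, t) ∉ {p : ℝ × ℝ | p.1 ≤ p.2} from h),
          indicator_of_notMem (show y ∉ Iic t from h)]
    rw [this, setIntegral_indicator measurableSet_Iic, Ioi_inter_Iic, integral_mul_const, VG]
  have e2 : ∀ y, 0 < y → ∫ t in Ioi (0:ℝ), F (y, t) = -(U y * (n y * DD z y)) := by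
    intro y hy
    have : (fun t => F (y, t)) = (Ici y).indicator (fun t => (n y * U y) * (gk y t * z t)) := by
      funext t
      by_cases h : y ≤ t
      · rw [hFd, indicator_of_mem (show (y, t) ∈ {p : ℝ × ℝ | p.1 ≤ p.2} from h),
          indicator_of_mem (show t ∈ Ici y from h)]
        ring
      · rw [hFd, indicator_of_notMem (show (y, t) ∉ {p : ℝ × ℝ | p.1 ≤ p.2} from h),
          indicator_of_notMem (show t ∉ Ici y from h)]
    rw [this, setIntegral_indicator measurableSet_Ici]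
    have hset : Ioi (0:ℝ) ∩ Ici y = Ici y := by
      ext t; simp only [mem_inter_iff, mem_Ioi, mem_Ici]
      exact ⟨fun h => h.2, fun h => ⟨hy.trans_le h, h⟩⟩
    rw [hset, integral_Ici_eq_integral_Ioi, integral_const_mul, DD_eq_gk hz]
    ring
  have hswap := integral_integral_swap (f := fun y t => F (y, t)) (μ := volume.restrict (Ioi (0:ℝ)))
    (ν := volume.restrict (Ioi (0:ℝ))) hF
  have hA : Integrable (fun t => ∫ y in Ioi (0:ℝ), F (y, t)) (volume.restrict (Ioi (0:ℝ))) :=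
    hF.integral_prod_right
  have hB : Integrable (fun y => ∫ t in Ioi (0:ℝ), F (y, t)) (volume.restrict (Ioi (0:ℝ))) :=
    hF.integral_prod_left
  simp only [e1] at hA
  have hB' : IntegrableOn (fun y => -(U y * (n y * DD z y))) (Ioi 0) :=
    IntegrableOn.congr_fun hB (fun y hy => e2 y hy) measurableSet_Ioi
  refine ⟨hA, by simpa using hB'.neg, ?_⟩
  have h1 : ∫ y in Ioi (0:ℝ), ∫ t in Ioi (0:ℝ), F (y, t) = ∫ y in Ioi (0:ℝ), -(U y * (n y * DD z y)) :=
    setIntegral_congr_fun measurableSet_Ioi (fun y hy => e2 y hy)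
  have h2 : ∫ t in Ioi (0:ℝ), ∫ y in Ioi (0:ℝ), F (y, t) = ∫ t in Ioi (0:ℝ), VG n U t * z t := by
    simp only [e1]
  rw [h1, h2, integral_neg] at hswap
  linarith

end fubini

end Crest.Agent.R213.E
end
end

-- ▼ part R213/E/LinOrth
section

/-!
# Row 213, part E: the orthogonal complement of the range is zero
-/

set_option autoImplicit false

open Set MeasureTheory Filter Topology

noncomputable section

namespace Crest.Agent.R213.E

variable {n U : ℝ → ℝ} {n1 : ℝ}

/-- a fixed bump with nonzero first moment -/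
theorem exists_bump : ∃ z0 : ℝ → ℝ, Continuous z0 ∧ HasCompactSupport z0 ∧ tsupport z0 ⊆ Ioi 0 ∧
    ∫ t in Ioi (0:ℝ), t * z0 t = 1 := by
  let B : ContDiffBump (2:ℝ) := ⟨1/2, 1, by norm_num, by norm_num⟩
  have hts : tsupport B ⊆ Ioi 0 := by
    rw [B.tsupport_eq]
    intro x hx
    rw [Metric.mem_closedBall, Real.dist_eq, abs_le] at hx
    have : B.rOut = 1 := rfl
    rw [this] at hx
    simp only [mem_Ioi]; linarith [hx.1]
  have hcs : HasCompactSupport B := B.hasCompactSupport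
  have hcont : Continuous B := B.continuous
  have hint : Integrable (fun t => t * B t) :=
    (continuous_id.mul hcont).integrable_of_hasCompactSupport hcs.mul_left
  set m := ∫ t in Ioi (0:ℝ), t * B t with hm
  have hmpos : 0 < m := by
    have h1 : ∫ t in Icc (3/2:ℝ) (5/2), (3/2 : ℝ) ≤ ∫ t in Icc (3/2:ℝ) (5/2), t * B t := by
      refine setIntegral_mono_on (by simp) hint.integrableOn measurableSet_Icc fun t ht => ?_
      have : B t = 1 := B.one_of_mem_closedBall (by
        rw [Metric.mem_closedBall, Real.dist_eq, abs_le]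
        have : B.rIn = 1/2 := rfl
        rw [this]
        constructor <;> linarith [ht.1, ht.2])
      rw [this, mul_one]; exact ht.1
    have h2 : ∫ t in Icc (3/2:ℝ) (5/2), t * B t ≤ m := by
      refine setIntegral_mono_set hint.integrableOn ?_ ?_
      · refine (ae_restrict_iff' measurableSet_Ioi).2 (Eventually.of_forall fun t ht => ?_)
        exact mul_nonneg (le_of_lt ht) B.nonneg
      · exact LE.le.eventuallyLE (fun t ht => by
          simp only [mem_Ioi]; linarith [ht.1])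
    have h3 : ∫ t in Icc (3/2:ℝ) (5/2), (3/2 : ℝ) = 3/2 := by
      simp; norm_num
    linarith
  refine ⟨fun t => m⁻¹ * B t, continuous_const.mul hcont, hcs.mul_left, ?_, ?_⟩
  · refine (closure_mono ?_).trans hts
    intro t ht
    simp only [Function.mem_support] at ht ⊢
    exact right_ne_zero_of_mul ht
  · have : ∀ t : ℝ, t * (m⁻¹ * B t) = m⁻¹ * (t * B t) := fun t => by ring
    simp only [this]
    rw [integral_const_mul, ← hm, inv_mul_cancel₀ hmpos.ne']

theorem orth_zero (hn : Measurable n) (hn0 : ∀ y, 0 < y → 0 ≤ n y)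
    (hn1 : ∀ y, 0 < y → n y ≤ n1) (hUm : Measurable U) (hU : ∀ T, IntegrableOn U (Ioc 0 T))
    (horth : ∀ z, Adm z → ∫ y in Ioi (0:ℝ), U y * (z y + n y * DD z y) = 0)
    (hgrow : ∀ A : ℝ, 0 < A → ¬ ∀ᵐ t, 0 < t → A * t ≤ |U t|) : ∀ᵐ t, 0 < t → U t = 0 := by
  have hn1' : 0 ≤ n1 := (hn0 1 one_pos).trans (hn1 1 one_pos)
  set φ : ℝ → ℝ := fun t => U t - VG n U t with hφ
  -- integrability of φ
  have hφi : ∀ T, IntegrableOn φ (Ioc 0 T) := by
    intro T
    refine (hU T).sub ?_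
    refine Measure.integrableOn_of_bounded (M := T / 11 * n1 * ∫ y in Ioc 0 T, |U y|) (by simp)
      (VG_meas hn hUm).aestronglyMeasurable ?_
    refine (ae_restrict_iff' measurableSet_Ioc).2 (Eventually.of_forall fun t ht => ?_)
    rw [Real.norm_eq_abs]
    exact VG_bound hn0 hn1 hU ht.1 ht.2
  have hmulint : ∀ f : ℝ → ℝ, (∀ T, IntegrableOn f (Ioc 0 T)) → ∀ z : ℝ → ℝ, Continuous z →
      HasCompactSupport z → IntegrableOn (fun t => z t * f t) (Ioi 0) := by
    intro f hf z hzc hzs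
    obtain ⟨Z, hZ⟩ := hzc.bounded_above_of_compact_support hzs
    obtain ⟨R, hR⟩ := hzs.isCompact.bddAbove
    have hz0 : ∀ t, R < t → z t = 0 := fun t ht => image_eq_zero_of_notMem_tsupport fun h =>
      absurd (hR h) (not_le.2 ht)
    have h1 : IntegrableOn (fun t => z t * f t) (Ioc 0 (max R 1)) :=
      (hf _).bdd_mul hzc.aestronglyMeasurable (Eventually.of_forall hZ)
    have h2 : IntegrableOn (fun t => z t * f t) (Ioi (max R 1)) := by
      refine (integrableOn_zero).congr_fun (fun y hy => ?_) measurableSet_Ioi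
      have : R < y := lt_of_le_of_lt (le_max_left _ _) hy
      rw [hz0 y this, zero_mul]
    have := h1.union h2
    rwa [Ioc_union_Ioi_eq_Ioi (by positivity)] at this
  -- orthogonality
  have h1 : ∀ z, Adm z → ∫ t in Ioi (0:ℝ), z t * φ t = 0 := by
    intro z hz
    obtain ⟨f1, f2, f3⟩ := fub hn hn0 hn1 hUm hU hz
    have hUz : IntegrableOn (fun t => z t * U t) (Ioi 0) := hmulint U hU z hz.cont hz.supp
    have h := horth z hz
    have e : ∀ y, U y * (z y + n y * DD z y) = z y * U y + U y * (n y * DD z y) := fun y => by ring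
    simp only [e] at h
    rw [integral_add hUz f2, f3] at h
    have e2 : ∀ t, z t * φ t = z t * U t - VG n U t * z t := fun t => by simp only [hφ]; ring
    simp only [e2]
    rw [integral_sub hUz f1]
    linarith
  obtain ⟨z0, hz0c, hz0s, hz0p, hz0m⟩ := exists_bump
  set A := ∫ t in Ioi (0:ℝ), z0 t * φ t with hA
  have htint : ∀ T : ℝ, IntegrableOn (fun t : ℝ => t) (Ioc 0 T) := fun T =>
    (continuous_id.integrableOn_Icc (a := 0) (b := T)).mono_set Ioc_subset_Icc_self
  have h2 : ∀ ζ : ℝ → ℝ, Continuous ζ → HasCompactSupport ζ → tsupport ζ ⊆ Ioi 0 →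
      ∫ t in Ioi (0:ℝ), ζ t * (φ t - A * t) = 0 := by
    intro ζ hζc hζs hζp
    set m := ∫ t in Ioi (0:ℝ), t * ζ t with hm
    have ih : IntegrableOn (fun t => t * ζ t) (Ioi 0) := by
      have := hmulint (fun t => t) htint ζ hζc hζs
      exact this.congr_fun (fun t _ => by ring) measurableSet_Ioi
    have ih0 : IntegrableOn (fun t => t * z0 t) (Ioi 0) := by
      have := hmulint (fun t => t) htint z0 hz0c hz0s
      exact this.congr_fun (fun t _ => by ring) measurableSet_Ioi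
    have hadm : Adm (fun t => ζ t - m * z0 t) := by
      refine ⟨hζc.sub (continuous_const.mul hz0c), hζs.sub hz0s.mul_left, ?_, ?_⟩
      · refine (tsupport_sub _ _).trans (union_subset hζp ?_)
        refine (closure_mono ?_).trans hz0p
        intro t ht
        simp only [Function.mem_support] at ht ⊢
        exact right_ne_zero_of_mul ht
      · have e : ∀ t, t * (ζ t - m * z0 t) = t * ζ t - m * (t * z0 t) := fun t => by ring
        simp only [e]
        rw [integral_sub ih (ih0.const_mul m), integral_const_mul, hz0m, ← hm]; ring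
    have h := h1 _ hadm
    have i1 : IntegrableOn (fun t => ζ t * φ t) (Ioi 0) := hmulint φ hφi ζ hζc hζs
    have i2 : IntegrableOn (fun t => z0 t * φ t) (Ioi 0) := hmulint φ hφi z0 hz0c hz0s
    have e : ∀ t, (ζ t - m * z0 t) * φ t = ζ t * φ t - m * (z0 t * φ t) := fun t => by ring
    simp only [e] at h
    rw [integral_sub i1 (i2.const_mul m), integral_const_mul, ← hA] at h
    have e' : ∀ t, ζ t * (φ t - A * t) = ζ t * φ t - A * (t * ζ t) := fun t => by ring
    simp only [e']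
    rw [integral_sub i1 (ih.const_mul A), integral_const_mul, ← hm]
    linarith
  have hloc : LocallyIntegrableOn (fun t => φ t - A * t) (Ioi 0) := by
    rw [locallyIntegrableOn_iff isOpen_Ioi.isLocallyClosed]
    intro k hk hkc
    obtain ⟨R, hR⟩ := hkc.bddAbove
    refine IntegrableOn.mono_set ((hφi R).sub ((htint R).const_mul A)) ?_
    exact fun t ht => ⟨hk ht, hR ht⟩
  have h3 : ∀ᵐ t, t ∈ Ioi (0:ℝ) → φ t - A * t = 0 := by
    refine isOpen_Ioi.ae_eq_zero_of_integral_contDiff_smul_eq_zero hloc ?_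
    intro g hg hgs hgp
    have := h2 g hg.continuous hgs hgp
    rw [← this]
    symm
    refine setIntegral_eq_integral_of_forall_compl_eq_zero fun t ht => ?_
    rw [image_eq_zero_of_notMem_tsupport (fun h => ht (hgp h)), zero_mul]
  have hVG : ∀ᵐ t, 0 < t → U t = A * t + VG n U t := by
    filter_upwards [h3] with t ht ht0
    have := ht ht0
    simp only [hφ] at this
    linarith
  -- sign argument
  have hsign : ∀ s : ℝ, s = 1 ∨ s = -1 → 0 ≤ s * A → (∀ᵐ t, 0 < t → 0 ≤ s * U t) ∧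
      ∀ᵐ t, 0 < t → (s * A) * t ≤ s * U t := by
    intro s hs hsA
    have hUs : ∀ T, IntegrableOn (fun t => s * U t) (Ioc 0 T) := fun T => (hU T).const_mul s
    have hV : ∀ t, VG n (fun t => s * U t) t = s * VG n U t := by
      intro t
      simp only [VG]
      rw [← integral_const_mul]
      congr 1
      funext y; ring
    have hpos : ∀ᵐ t, 0 < t → 0 ≤ s * U t := by
      refine vol_nonneg hn hn0 hn1 hUs ?_
      filter_upwards [hVG] with t ht ht0
      rw [hV, ht ht0]
      have : 0 ≤ s * A * t := by positivity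
      nlinarith
    refine ⟨hpos, ?_⟩
    filter_upwards [hVG] with t ht ht0
    have hnn : 0 ≤ s * VG n U t := by
      rw [← hV]
      refine integral_nonneg_of_ae ?_
      rw [EventuallyLE, ae_restrict_iff' measurableSet_Ioc]
      filter_upwards [hpos] with y hy hy'
      exact mul_nonneg (gk_nonneg hy'.1.le ht0) (mul_nonneg (hn0 y hy'.1) (hy hy'.1))
    rw [ht ht0]
    nlinarith
  have hA0 : A = 0 := by
    by_contra hne
    rcases lt_or_gt_of_ne hne with h | h
    · have := (hsign (-1) (Or.inr rfl) (by linarith)).2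
      refine hgrow (-A) (by linarith) ?_
      filter_upwards [this] with t ht ht0
      have h1 := ht ht0
      have h2 := neg_le_abs (U t)
      linarith
    · have := (hsign 1 (Or.inl rfl) (by linarith)).2
      refine hgrow A h ?_
      filter_upwards [this] with t ht ht0
      have h1 := ht ht0
      have h2 := le_abs_self (U t)
      linarith
  have p1 := (hsign 1 (Or.inl rfl) (by rw [hA0]; simp)).1
  have p2 := (hsign (-1) (Or.inr rfl) (by rw [hA0]; simp)).1
  filter_upwards [p1, p2] with t h1 h2 ht0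
  have := h1 ht0
  have := h2 ht0
  linarith

end Crest.Agent.R213.E
end
end

-- ▼ part R213/E/LinSolve
section

/-!
# Row 213, part E: the linear solver in `L²(0,∞)` (for `û = p D`, `f̂ = q f`)
-/

set_option autoImplicit false

open Set MeasureTheory Filter Topology

noncomputable section

namespace Crest.Agent.R213.E

/-- Lebesgue measure on `(0,∞)` -/
abbrev mu0 : Measure ℝ := volume.restrict (Ioi (0:ℝ))

/-- the Hilbert space `L²(0,∞)` -/
abbrev HH : Type := Lp ℝ 2 mu0

theorem memLp_of_bdd_supp {f : ℝ → ℝ} {M R : ℝ} (hf : Measurable f)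
    (hM : ∀ y, 0 < y → y ≤ R → |f y| ≤ M) (hR : ∀ y, R < y → f y = 0) : MemLp f 2 mu0 := by
  rw [memLp_two_iff_integrable_sq hf.aestronglyMeasurable]
  have h1 : IntegrableOn (fun y => f y ^ 2) (Ioc 0 R) := by
    refine Measure.integrableOn_of_bounded (M := M ^ 2) (by simp) (hf.pow_const 2).aestronglyMeasurable ?_
    refine (ae_restrict_iff' measurableSet_Ioc).2 (Eventually.of_forall fun y hy => ?_)
    rw [Real.norm_of_nonneg (sq_nonneg _), ← sq_abs]
    exact pow_le_pow_left₀ (abs_nonneg _) (hM y hy.1 hy.2) 2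
  rcases le_or_gt R 0 with hR0 | hR0
  · have : IntegrableOn (fun y => f y ^ 2) (Ioi 0) := by
      refine (integrableOn_zero).congr_fun (fun y hy => ?_) measurableSet_Ioi
      rw [hR y (lt_of_le_of_lt hR0 hy)]; simp
    exact this
  · have h2 : IntegrableOn (fun y => f y ^ 2) (Ioi R) := by
      refine (integrableOn_zero).congr_fun (fun y hy => ?_) measurableSet_Ioi
      rw [hR y hy]; simp
    have := h1.union h2
    rw [Ioc_union_Ioi_eq_Ioi hR0.le] at this
    exact this

theorem DD_add {z w : ℝ → ℝ} (hz : Adm z) (hw : Adm w) (y : ℝ) :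
    DD (fun t => z t + w t) y = DD z y + DD w y := by
  have e1 : ∫ t in Ioi y, t * (z t + w t) = (∫ t in Ioi y, t * z t) + ∫ t in Ioi y, t * w t := by
    rw [← integral_add hz.tz_int.integrableOn hw.tz_int.integrableOn]
    congr 1; funext t; ring
  have e2 : ∫ t in Ioi y, (z t + w t) = (∫ t in Ioi y, z t) + ∫ t in Ioi y, w t :=
    integral_add hz.z_int.integrableOn hw.z_int.integrableOn
  have e3 : ∫ t in Ioi y, Adm.zm (fun t => z t + w t) t =
      (∫ t in Ioi y, Adm.zm z t) + ∫ t in Ioi y, Adm.zm w t := by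
    rw [← integral_add hz.zm_int.integrableOn hw.zm_int.integrableOn]
    congr 1; funext t; simp only [Adm.zm]; ring
  simp only [DD, e1, e2, e3]
  ring

theorem DD_smul {z : ℝ → ℝ} (c y : ℝ) :
    DD (fun t => c * z t) y = c * DD z y := by
  have e1 : ∫ t in Ioi y, t * (c * z t) = c * ∫ t in Ioi y, t * z t := by
    rw [← integral_const_mul]
    congr 1; funext t; ring
  have e2 : ∫ t in Ioi y, c * z t = c * ∫ t in Ioi y, z t := integral_const_mul _ _
  have e3 : ∫ t in Ioi y, Adm.zm (fun t => c * z t) t = c * ∫ t in Ioi y, Adm.zm z t := by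
    rw [← integral_const_mul]
    congr 1; funext t; simp only [Adm.zm]; ring
  simp only [DD, e1, e2, e3]
  ring

section

variable {b n1 cq Cq : ℝ} {n p : ℝ → ℝ}

namespace WData

theorem Cq_pos (hW : WData b n1 cq Cq n p) : 0 < Cq :=
  (div_pos (chi_pos b 1) (hW.p_pos 1 one_pos)).trans_le (hW.q_up 1 one_pos)

theorem q_pos (hW : WData b n1 cq Cq n p) {y : ℝ} (hy : 0 < y) : 0 < chi b y / p y :=
  div_pos (chi_pos b y) (hW.p_pos y hy)

theorem n1_nonneg (hW : WData b n1 cq Cq n p) : 0 ≤ n1 :=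
  (hW.n_nonneg 1 one_pos).trans (hW.n_le 1 one_pos)

/-- `1/q ≤ (1+y)^3/cq` -/
theorem inv_q_le (hW : WData b n1 cq Cq n p) {y : ℝ} (hy : 0 < y) :
    p y / chi b y ≤ (1 + y) ^ 3 / cq := by
  have h := hW.q_low y hy
  have hc := chi_pos b y
  have hp := hW.p_pos y hy
  rw [div_le_div_iff₀ hc hW.cq_pos]
  have : cq * p y ≤ chi b y * (1 + y) ^ 3 := by
    calc cq * p y ≤ (chi b y / p y * (1 + y) ^ 3) * p y := by gcongr
      _ = chi b y * (1 + y) ^ 3 := by field_simp
  linarith

theorem p_le (hW : WData b n1 cq Cq n p) {y : ℝ} (hy : 0 < y) : p y ≤ (1 + y) ^ 3 / cq := by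
  have h := hW.inv_q_le hy
  have hc := chi_pos b y
  have hc1 := chi_le_one b y
  have hp := hW.p_pos y hy
  refine le_trans ?_ h
  rw [le_div_iff₀ hc]
  nlinarith

theorem q_meas (hW : WData b n1 cq Cq n p) : Measurable (fun y => chi b y / p y) :=
  chi_cont.measurable.div hW.p_meas

end WData

theorem memLp_p (hW : WData b n1 cq Cq n p) {z : ℝ → ℝ} (hz : Adm z) :
    MemLp (fun y => p y * DD z y) 2 mu0 := by
  obtain ⟨K, hK, h⟩ := DD_lin_bound hz
  obtain ⟨R, hR, hR0⟩ := DD_zero_right hz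
  refine memLp_of_bdd_supp (M := ((1 + R) ^ 3 / cq) * (K * R)) (R := R)
    (hW.p_meas.mul (DD_cont hz).measurable) (fun y hy hyR => ?_) (fun y hy => ?_)
  · rw [abs_mul, abs_of_pos (hW.p_pos y hy)]
    have h1 : p y ≤ (1 + R) ^ 3 / cq := (hW.p_le hy).trans (by
      have := hW.cq_pos
      gcongr)
    have h2 : |DD z y| ≤ K * R := (h y hy.le).trans (by gcongr)
    have := hW.cq_pos
    exact mul_le_mul h1 h2 (abs_nonneg _) (by positivity)
  · rw [(hR0 y hy.le).1, mul_zero]

theorem memLp_q (hW : WData b n1 cq Cq n p) {z : ℝ → ℝ} (hz : Adm z) :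
    MemLp (fun y => chi b y / p y * (z y + n y * DD z y)) 2 mu0 := by
  obtain ⟨K, hK, h⟩ := DD_lin_bound hz
  obtain ⟨R, hR, hR0⟩ := DD_zero_right hz
  obtain ⟨Z, hZ, hz1⟩ := z_bound hz
  refine memLp_of_bdd_supp (M := Cq * (Z + n1 * (K * R))) (R := R)
    (hW.q_meas.mul (hz.cont.measurable.add (hW.n_meas.mul (DD_cont hz).measurable)))
    (fun y hy hyR => ?_) (fun y hy => ?_)
  · rw [abs_mul, abs_of_pos (hW.q_pos hy)]
    have h2 : |DD z y| ≤ K * R := (h y hy.le).trans (by gcongr)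
    have h3 : |z y + n y * DD z y| ≤ Z + n1 * (K * R) := by
      refine (abs_add_le _ _).trans (add_le_add (hz1 y) ?_)
      rw [abs_mul, abs_of_nonneg (hW.n_nonneg y hy)]
      exact mul_le_mul (hW.n_le y hy) h2 (abs_nonneg _) hW.n1_nonneg
    exact mul_le_mul (hW.q_up y hy) h3 (abs_nonneg _) hW.Cq_pos.le
  · rw [(hR0 y hy.le).1, (hR0 y hy.le).2.2.2]; simp

/-- the space of test pairs -/
def V0 (b : ℝ) (n p : ℝ → ℝ) : Submodule ℝ (HH × HH) where
  carrier := {v | ∃ z, Adm z ∧ (v.1 : ℝ → ℝ) =ᵐ[mu0] (fun y => p y * DD z y) ∧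
    (v.2 : ℝ → ℝ) =ᵐ[mu0] (fun y => chi b y / p y * (z y + n y * DD z y))}
  zero_mem' := by
    refine ⟨fun _ => 0, ⟨continuous_const, HasCompactSupport.zero, by simp, by simp⟩, ?_, ?_⟩
    · have : ∀ y, DD (fun _ => (0:ℝ)) y = 0 := fun y => by simp [DD, Adm.zm]
      filter_upwards [Lp.coeFn_zero ℝ 2 mu0] with y hy
      simp only [Prod.fst_zero]
      rw [hy, this]; simp
    · have : ∀ y, DD (fun _ => (0:ℝ)) y = 0 := fun y => by simp [DD, Adm.zm]
      filter_upwards [Lp.coeFn_zero ℝ 2 mu0] with y hy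
      simp only [Prod.snd_zero]
      rw [hy, this]; simp
  add_mem' := by
    rintro v w ⟨z, hz, h1, h2⟩ ⟨z', hz', h1', h2'⟩
    refine ⟨fun t => z t + z' t, hz.add hz', ?_, ?_⟩
    · filter_upwards [Lp.coeFn_add v.1 w.1, h1, h1'] with y e1 e2 e3
      rw [Prod.fst_add, e1, Pi.add_apply, e2, e3, DD_add hz hz']; ring
    · filter_upwards [Lp.coeFn_add v.2 w.2, h2, h2'] with y e1 e2 e3
      rw [Prod.snd_add, e1, Pi.add_apply, e2, e3, DD_add hz hz']; ring
  smul_mem' := by
    rintro c v ⟨z, hz, h1, h2⟩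
    refine ⟨fun t => c * z t, hz.smul c, ?_, ?_⟩
    · filter_upwards [Lp.coeFn_smul c v.1, h1] with y e1 e2
      rw [Prod.smul_fst, e1, Pi.smul_apply, e2, DD_smul, smul_eq_mul]; ring
    · filter_upwards [Lp.coeFn_smul c v.2, h2] with y e1 e2
      rw [Prod.smul_snd, e1, Pi.smul_apply, e2, DD_smul, smul_eq_mul]; ring

theorem coercive_int (hW : WData b n1 cq Cq n p) {z : ℝ → ℝ} (hz : Adm z) :
    ∫ y, (p y * DD z y) ^ 2 ∂mu0 ≤
      ∫ y, (p y * DD z y) * (chi b y / p y * (z y + n y * DD z y)) ∂mu0 := by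
  obtain ⟨K, hK, h⟩ := DD_lin_bound hz
  obtain ⟨R, hR, hR0⟩ := DD_zero_right hz
  have i1 := f1_int (b := b) hz
  have i2 := f2_int (b := b) hz
  have i3 : IntegrableOn (fun y => chi b y * (n y * (DD z y) ^ 2)) (Ioi 0) := by
    have hm : Measurable (fun y => chi b y * (n y * (DD z y) ^ 2)) :=
      chi_cont.measurable.mul (hW.n_meas.mul ((DD_cont hz).measurable.pow_const 2))
    have h1 : IntegrableOn (fun y => chi b y * (n y * (DD z y) ^ 2)) (Ioc 0 R) := by
      refine Measure.integrableOn_of_bounded (M := 1 * (n1 * (K * R) ^ 2)) (by simp)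
        hm.aestronglyMeasurable ?_
      refine (ae_restrict_iff' measurableSet_Ioc).2 (Eventually.of_forall fun y hy => ?_)
      have hn0 := hW.n_nonneg y hy.1
      have hc0 := (chi_pos b y).le
      rw [Real.norm_of_nonneg (by positivity)]
      have hD : (DD z y) ^ 2 ≤ (K * R) ^ 2 := by
        rw [← sq_abs]
        refine pow_le_pow_left₀ (abs_nonneg _) ((h y hy.1.le).trans ?_) 2
        have := hy.2
        gcongr
      have := hW.n_le y hy.1
      have := chi_le_one b y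
      have := hW.n1_nonneg
      gcongr
    have h2 : IntegrableOn (fun y => chi b y * (n y * (DD z y) ^ 2)) (Ioi R) := by
      refine (integrableOn_zero).congr_fun (fun y hy => ?_) measurableSet_Ioi
      rw [(hR0 y (le_of_lt hy)).1]; simp
    have := h1.union h2
    rwa [Ioc_union_Ioi_eq_Ioi hR.le] at this
  have hE := energy hW.b_pos hz
  have hL : ∫ y, (p y * DD z y) ^ 2 ∂mu0 ≤ ∫ y in Ioi (0:ℝ),
      (chi b y * (bet0 b y / y ^ 2) * (DD z y) ^ 2 + chi b y * (n y * (DD z y) ^ 2)) := by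
    refine integral_mono_ae ((memLp_p hW hz).integrable_sq) (i1.add i3) ?_
    refine (ae_restrict_iff' measurableSet_Ioi).2 (Eventually.of_forall fun y hy => ?_)
    have := hW.coer y hy
    calc (p y * DD z y) ^ 2 = p y ^ 2 * (DD z y) ^ 2 := by ring
      _ ≤ (chi b y * (bet0 b y / y ^ 2 + n y)) * (DD z y) ^ 2 := by gcongr
      _ = chi b y * (bet0 b y / y ^ 2) * (DD z y) ^ 2 + chi b y * (n y * (DD z y) ^ 2) := by ring
  have hRR : ∫ y, (p y * DD z y) * (chi b y / p y * (z y + n y * DD z y)) ∂mu0 =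
      ∫ y in Ioi (0:ℝ), (chi b y * (DD z y * z y) + chi b y * (n y * (DD z y) ^ 2)) := by
    refine setIntegral_congr_fun measurableSet_Ioi fun y hy => ?_
    have := (hW.p_pos y hy).ne'
    field_simp
  rw [hRR]
  refine hL.trans ?_
  rw [integral_add i1 i3, integral_add i2 i3]
  linarith

theorem V0_le (hW : WData b n1 cq Cq n p) {v : HH × HH} (hv : v ∈ V0 b n p) : ‖v.1‖ ≤ ‖v.2‖ := by
  obtain ⟨z, hz, h1, h2⟩ := hv
  have e1 : ‖v.1‖ ^ 2 = ∫ y, (p y * DD z y) ^ 2 ∂mu0 := by
    rw [← real_inner_self_eq_norm_sq, L2.inner_def]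
    refine integral_congr_ae ?_
    filter_upwards [h1] with y hy
    rw [real_inner_self_eq_norm_sq, hy, Real.norm_eq_abs, sq_abs]
  have e2 : inner ℝ v.1 v.2 = ∫ y, (p y * DD z y) * (chi b y / p y * (z y + n y * DD z y)) ∂mu0 := by
    rw [L2.inner_def]
    refine integral_congr_ae ?_
    filter_upwards [h1, h2] with y hy hy2
    rw [hy, hy2]; simp [mul_comm]
  have h3 : ‖v.1‖ ^ 2 ≤ ‖v.1‖ * ‖v.2‖ := by
    rw [e1]
    refine (coercive_int hW hz).trans ?_
    rw [← e2]
    exact real_inner_le_norm _ _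
  rcases (norm_nonneg v.1).eq_or_lt with h0 | h0
  · rw [← h0]; exact norm_nonneg _
  · rw [sq] at h3
    exact le_of_mul_le_mul_left h3 h0

theorem V_le (hW : WData b n1 cq Cq n p) {v : HH × HH} (hv : v ∈ (V0 b n p).topologicalClosure) :
    ‖v.1‖ ≤ ‖v.2‖ := by
  have hcl : IsClosed {v : HH × HH | ‖v.1‖ ≤ ‖v.2‖} :=
    isClosed_le (continuous_fst.norm) (continuous_snd.norm)
  have : closure (V0 b n p : Set (HH × HH)) ⊆ {v | ‖v.1‖ ≤ ‖v.2‖} :=
    closure_minimal (fun v hv => V0_le hW hv) hcl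
  exact this hv

theorem not_lin_growth (hW : WData b n1 cq Cq n p) (u : HH) {A : ℝ} (hA : 0 < A) :
    ¬ ∀ᵐ t, 0 < t → A * t ≤ |chi b t / p t * u t| := by
  intro h
  have h1 : Integrable (fun t => (u t) ^ 2) mu0 := (Lp.memLp u).integrable_sq
  have h2 : IntegrableOn (fun _ : ℝ => (A / Cq) ^ 2) (Ioi (1:ℝ)) := by
    have h1' : IntegrableOn (fun t => (u t) ^ 2) (Ioi (1:ℝ)) :=
      IntegrableOn.mono_set (s := Ioi 1) (t := Ioi 0) h1 (Ioi_subset_Ioi zero_le_one)
    refine Integrable.mono' h1' aestronglyMeasurable_const ?_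
    refine (ae_restrict_iff' measurableSet_Ioi).2 ?_
    filter_upwards [h] with t ht ht1
    have ht0 : 0 < t := lt_trans one_pos ht1
    have h3 := ht ht0
    rw [abs_mul, abs_of_pos (hW.q_pos ht0)] at h3
    have h4 : A * t ≤ Cq * |u t| := h3.trans (by have := hW.q_up t ht0; gcongr)
    have h5 : A / Cq ≤ |u t| := by
      rw [div_le_iff₀ hW.Cq_pos]
      have ht1' : (1:ℝ) < t := ht1
      nlinarith
    rw [Real.norm_of_nonneg (sq_nonneg _), ← sq_abs (u t)]
    exact pow_le_pow_left₀ (div_pos hA hW.Cq_pos).le h5 2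
  rw [integrableOn_const_iff] at h2
  rcases h2 with h2 | h2
  · have h3 : (A / Cq) ^ 2 ≠ 0 := by have := hW.Cq_pos; positivity
    exact h3 (enorm_eq_zero.1 h2)
  · simp at h2

theorem dense_range (hW : WData b n1 cq Cq n p) :
    ((V0 b n p).map (LinearMap.snd ℝ HH HH)).topologicalClosure = ⊤ := by
  rw [Submodule.topologicalClosure_eq_top_iff, Submodule.eq_bot_iff]
  intro u hu
  rw [Submodule.mem_orthogonal] at hu
  have hum : Measurable (u : ℝ → ℝ) := (Lp.stronglyMeasurable u).measurable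
  set U : ℝ → ℝ := fun y => chi b y / p y * u y with hUd
  have hUm : Measurable U := hW.q_meas.mul hum
  have hU2 : MemLp U 2 mu0 := by
    refine MemLp.of_le_mul (g := (u : ℝ → ℝ)) (c := Cq) (Lp.memLp u) hUm.aestronglyMeasurable ?_
    refine (ae_restrict_iff' measurableSet_Ioi).2 (Eventually.of_forall fun y hy => ?_)
    rw [hUd, norm_mul, Real.norm_of_nonneg (hW.q_pos hy).le]
    exact mul_le_mul_of_nonneg_right (hW.q_up y hy) (norm_nonneg _)
  have hU : ∀ T, IntegrableOn U (Ioc 0 T) := by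
    intro T
    have h1 : MemLp U 2 (volume.restrict (Ioc 0 T)) :=
      MemLp.mono_measure (Measure.restrict_mono Ioc_subset_Ioi_self le_rfl) hU2
    exact MemLp.integrable (q := 2) (by norm_num) h1
  have horth : ∀ z, Adm z → ∫ y in Ioi (0:ℝ), U y * (z y + n y * DD z y) = 0 := by
    intro z hz
    have hm : (show HH from (memLp_q hW hz).toLp _) ∈ (V0 b n p).map (LinearMap.snd ℝ HH HH) := by
      refine ⟨((memLp_p hW hz).toLp _, (memLp_q hW hz).toLp _), ⟨z, hz, ?_, ?_⟩, rfl⟩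
      · exact (memLp_p hW hz).coeFn_toLp
      · exact (memLp_q hW hz).coeFn_toLp
    have h := hu _ hm
    rw [L2.inner_def] at h
    refine Eq.trans ?_ h
    refine integral_congr_ae ?_
    filter_upwards [(memLp_q hW hz).coeFn_toLp] with y hy
    rw [hy]
    simp only [hUd, RCLike.inner_apply, conj_trivial]
    ring
  have hz := orth_zero hW.n_meas hW.n_nonneg hW.n_le hUm hU horth
    (fun A hA => not_lin_growth hW u hA)
  refine Lp.ext ?_
  have h2 : ∀ᵐ t ∂mu0, U t = 0 := (ae_restrict_iff' measurableSet_Ioi).2 hz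
  have h3 : ∀ᵐ t ∂mu0, t ∈ Ioi (0:ℝ) := ae_restrict_mem measurableSet_Ioi
  filter_upwards [h2, h3, Lp.coeFn_zero ℝ 2 mu0] with t ht ht0 h0
  rw [h0]
  simp only [Pi.zero_apply]
  rcases mul_eq_zero.1 ht with h | h
  · exact absurd h (hW.q_pos ht0).ne'
  · exact h

/-- **linear solver** -/
theorem exists_solver (hW : WData b n1 cq Cq n p) :
    ∃ S : HH →L[ℝ] HH, (∀ f, ‖S f‖ ≤ ‖f‖) ∧ ∀ f, (S f, f) ∈ (V0 b n p).topologicalClosure := by
  set V := (V0 b n p).topologicalClosure with hV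
  have hVc : IsClosed (V : Set (HH × HH)) := (V0 b n p).isClosed_topologicalClosure
  have : CompleteSpace V := hVc.completeSpace_coe
  let Φ : V →ₗᵢ[ℝ] HH :=
    { toLinearMap := (LinearMap.snd ℝ HH HH).comp V.subtype
      norm_map' := by
        intro v
        have h := V_le hW v.2
        show ‖(v : HH × HH).2‖ = ‖(v : HH × HH)‖
        rw [Prod.norm_def, max_eq_right h] }
  have hcl : IsClosed (LinearMap.range Φ.toLinearMap : Set HH) := by
    have := Φ.isometry.isClosedEmbedding.isClosed_range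
    exact this
  have hsurj : Function.Surjective Φ := by
    refine (LinearMap.range_eq_top (f := Φ.toLinearMap)).1 ?_
    rw [eq_top_iff, ← dense_range hW]
    refine Submodule.topologicalClosure_minimal _ ?_ hcl
    rintro _ ⟨v, hv, rfl⟩
    exact ⟨⟨v, subset_closure hv⟩, rfl⟩
  let E := LinearIsometryEquiv.ofSurjective Φ hsurj
  refine ⟨(ContinuousLinearMap.fst ℝ HH HH).comp
    ((V.subtypeL).comp (E.symm : HH →L[ℝ] V)), ?_, ?_⟩
  · intro f
    have h1 := V_le hW (E.symm f).2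
    have h2 : ((E.symm f : V) : HH × HH).2 = f := E.apply_symm_apply f
    rw [h2] at h1
    exact h1
  · intro f
    have h2 : ((E.symm f : V) : HH × HH).2 = f := E.apply_symm_apply f
    have h3 : (((E.symm f : V) : HH × HH).1, f) = ((E.symm f : V) : HH × HH) :=
      Prod.ext rfl h2.symm
    show (((E.symm f : V) : HH × HH).1, f) ∈ V
    rw [h3]
    exact (E.symm f).2

end

end Crest.Agent.R213.E
end
end

-- ▼ part R213/E/LinRep
section

/-!
# Row 213, part E: representation of solutions `D = κ y - ∫_0^y (y-s) s^9 Q(s) ds`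
-/

set_option autoImplicit false

open Set MeasureTheory Filter Topology

noncomputable section

namespace Crest.Agent.R213.E

/-- weight -/
def wk (s : ℝ) : ℝ := (1 + s) ^ 6 * (√s)⁻¹

theorem wk_nonneg {s : ℝ} (hs : 0 ≤ s) : 0 ≤ wk s := by unfold wk; positivity

theorem wk_int {T : ℝ} (hT : 0 ≤ T) : IntervalIntegrable wk volume 0 T := by
  have h : IntervalIntegrable (fun x : ℝ => x ^ (-(1/2) : ℝ)) volume 0 T :=
    intervalIntegral.intervalIntegrable_rpow' (by norm_num)
  have h2 : IntervalIntegrable (fun x : ℝ => (1 + x) ^ 6 * x ^ (-(1/2) : ℝ)) volume 0 T :=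
    h.continuousOn_mul (by fun_prop)
  refine IntervalIntegrable.congr (fun s hs => ?_) h2
  rw [uIoc_of_le hT] at hs
  simp only [wk]
  rw [Real.rpow_neg hs.1.le, ← Real.sqrt_eq_rpow]

/-- `s^9 Q(s)` -/
def GG (z : ℝ → ℝ) (s : ℝ) : ℝ := s ^ 9 * QQ z s

def WW (y : ℝ) : ℝ := ∫ s in (0:ℝ)..y, wk s

def KK (z : ℝ → ℝ) (y : ℝ) : ℝ := y * (∫ s in (0:ℝ)..y, GG z s) - ∫ s in (0:ℝ)..y, s * GG z s

/-- tail bound -/
structure TB (C : ℝ) (z : ℝ → ℝ) : Prop where
  int : ∀ y, 0 < y → IntegrableOn (fun t => (t ^ 10)⁻¹ * z t) (Ioi y)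
  bd : ∀ y, 0 < y → |GG z y| ≤ C * wk y

theorem WW_nonneg {y : ℝ} (hy : 0 ≤ y) : 0 ≤ WW y :=
  intervalIntegral.integral_nonneg hy fun _ hs => wk_nonneg hs.1

theorem WW_mono {x y : ℝ} (hx : 0 ≤ x) (hxy : x ≤ y) : WW x ≤ WW y := by
  have h1 := wk_int hx
  have h3 := wk_int (hx.trans hxy)
  have h2 : IntervalIntegrable wk volume x y := h1.symm.trans h3
  have := intervalIntegral.integral_add_adjacent_intervals h1 h2
  have h4 : 0 ≤ ∫ s in x..y, wk s := intervalIntegral.integral_nonneg hxy fun _ hs =>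
    wk_nonneg (hx.trans hs.1)
  simp only [WW]
  linarith

namespace TB

variable {C C' : ℝ} {z w : ℝ → ℝ}

theorem congr (h : TB C z) (hzw : z =ᵐ[mu0] w) : TB C w := by
  have hae : ∀ y, 0 < y → z =ᵐ[volume.restrict (Ioi y)] w := fun y hy =>
    hzw.filter_mono (ae_mono (Measure.restrict_mono (Ioi_subset_Ioi hy.le) le_rfl))
  have hQ : ∀ y, 0 < y → QQ z y = QQ w y := fun y hy => by
    refine integral_congr_ae ?_
    filter_upwards [hae y hy] with t ht
    rw [ht]
  refine ⟨fun y hy => ?_, fun y hy => ?_⟩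
  · refine (h.int y hy).congr ?_
    filter_upwards [hae y hy] with t ht
    rw [ht]
  · have := h.bd y hy
    rwa [GG, hQ y hy] at this

theorem cont (h : TB C z) {y : ℝ} (hy : 0 < y) : ContinuousAt (QQ z) y := by
  have ha : 0 < y / 2 := by positivity
  have h1 : ∀ x, 0 < x → QQ z x = QQ z (y / 2) - ∫ t in (y/2)..x, (t ^ 10)⁻¹ * z t := by
    intro x hx
    have := intervalIntegral.integral_Ioi_sub_Ioi' (h.int _ ha) (h.int x hx)
    simp only [QQ]
    linarith
  have hI : IntervalIntegrable (fun t => (t ^ 10)⁻¹ * z t) volume (y/2) (y+1) := by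
    rw [intervalIntegrable_iff_integrableOn_Ioc_of_le (by linarith)]
    exact (h.int _ ha).mono_set Ioc_subset_Ioi_self
  have h2 : ContinuousOn (fun x => ∫ t in (y/2)..x, (t ^ 10)⁻¹ * z t) (uIcc (y/2) (y+1)) :=
    intervalIntegral.continuousOn_primitive_interval' hI left_mem_uIcc
  have h3 : ContinuousAt (fun x => ∫ t in (y/2)..x, (t ^ 10)⁻¹ * z t) y := by
    refine h2.continuousAt ?_
    rw [uIcc_of_le (by linarith)]
    exact Icc_mem_nhds (by linarith) (by linarith)
  have h4 : ContinuousAt (fun x => QQ z (y / 2) - ∫ t in (y/2)..x, (t ^ 10)⁻¹ * z t) y :=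
    continuousAt_const.sub h3
  refine h4.congr ?_
  filter_upwards [Ioi_mem_nhds hy] with x hx
  exact (h1 x hx).symm

theorem GG_cont (h : TB C z) : ContinuousOn (GG z) (Ioi 0) := fun y hy =>
  ((continuousAt_id.pow 9).mul (h.cont hy)).continuousWithinAt

theorem GG_int (h : TB C z) {y : ℝ} (hy : 0 ≤ y) : IntervalIntegrable (GG z) volume 0 y := by
  have h1 := (wk_int hy).const_mul C
  rw [intervalIntegrable_iff_integrableOn_Ioc_of_le hy] at h1 ⊢
  refine Integrable.mono' h1 ?_ ?_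
  · exact (h.GG_cont.mono fun s hs => hs.1).aestronglyMeasurable measurableSet_Ioc
  · refine (ae_restrict_iff' measurableSet_Ioc).2 (Eventually.of_forall fun s hs => ?_)
    exact h.bd s hs.1

theorem sGG_int (h : TB C z) {y : ℝ} (hy : 0 ≤ y) :
    IntervalIntegrable (fun s => s * GG z s) volume 0 y :=
  (h.GG_int hy).continuousOn_mul (by fun_prop)

theorem KK_bd (h : TB C z) {y : ℝ} (hy : 0 ≤ y) : |KK z y| ≤ C * (y * WW y) := by
  have e : KK z y = ∫ s in (0:ℝ)..y, (y - s) * GG z s := by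
    rw [KK, ← intervalIntegral.integral_const_mul,
      ← intervalIntegral.integral_sub ((h.GG_int hy).const_mul y) (h.sGG_int hy)]
    congr 1; funext s; ring
  have e2 : C * (y * WW y) = ∫ s in (0:ℝ)..y, (C * y) * wk s := by
    rw [intervalIntegral.integral_const_mul, WW]; ring
  rw [e, e2, ← Real.norm_eq_abs]
  refine intervalIntegral.norm_integral_le_of_norm_le hy ?_ ((wk_int hy).const_mul _)
  refine Eventually.of_forall fun s hs => ?_
  rw [Real.norm_eq_abs, abs_mul, abs_of_nonneg (by linarith [hs.2] : 0 ≤ y - s)]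
  have h1 := h.bd s hs.1
  have h2 : 0 ≤ C * wk s := (abs_nonneg _).trans h1
  calc (y - s) * |GG z s| ≤ y * (C * wk s) := by
        refine mul_le_mul (by linarith [hs.1]) h1 (abs_nonneg _) hy
    _ = C * y * wk s := by ring

theorem QQ_sub (hz : TB C z) (hw : TB C' w) {y : ℝ} (hy : 0 < y) :
    QQ (fun t => z t - w t) y = QQ z y - QQ w y := by
  simp only [QQ]
  rw [← integral_sub (hz.int y hy) (hw.int y hy)]
  congr 1; funext t; ring

theorem GG_sub (hz : TB C z) (hw : TB C' w) {y : ℝ} (hy : 0 < y) :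
    GG (fun t => z t - w t) y = GG z y - GG w y := by
  simp only [GG]; rw [QQ_sub hz hw hy]; ring

theorem KK_sub (hz : TB C z) (hw : TB C' w) {y : ℝ} (hy : 0 ≤ y) :
    KK (fun t => z t - w t) y = KK z y - KK w y := by
  have e1 : ∫ s in (0:ℝ)..y, GG (fun t => z t - w t) s =
      (∫ s in (0:ℝ)..y, GG z s) - ∫ s in (0:ℝ)..y, GG w s := by
    rw [← intervalIntegral.integral_sub (hz.GG_int hy) (hw.GG_int hy)]
    refine intervalIntegral.integral_congr_ae (Eventually.of_forall fun s hs => ?_)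
    rw [uIoc_of_le hy] at hs
    exact GG_sub hz hw hs.1
  have e2 : ∫ s in (0:ℝ)..y, s * GG (fun t => z t - w t) s =
      (∫ s in (0:ℝ)..y, s * GG z s) - ∫ s in (0:ℝ)..y, s * GG w s := by
    rw [← intervalIntegral.integral_sub (hz.sGG_int hy) (hw.sGG_int hy)]
    refine intervalIntegral.integral_congr_ae (Eventually.of_forall fun s hs => ?_)
    rw [uIoc_of_le hy] at hs
    show s * GG (fun t => z t - w t) s = s * GG z s - s * GG w s
    rw [GG_sub hz hw hs.1]; ring
  simp only [KK]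
  rw [e1, e2]; ring

end TB

theorem QQ_congr {z w : ℝ → ℝ} (hzw : z =ᵐ[mu0] w) {y : ℝ} (hy : 0 < y) : QQ z y = QQ w y := by
  refine integral_congr_ae ?_
  have hae : z =ᵐ[volume.restrict (Ioi y)] w :=
    hzw.filter_mono (ae_mono (Measure.restrict_mono (Ioi_subset_Ioi hy.le) le_rfl))
  filter_upwards [hae] with t ht
  rw [ht]

theorem KK_congr {z w : ℝ → ℝ} (hzw : z =ᵐ[mu0] w) {y : ℝ} (hy : 0 ≤ y) : KK z y = KK w y := by
  have e1 : ∫ s in (0:ℝ)..y, GG z s = ∫ s in (0:ℝ)..y, GG w s := by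
    refine intervalIntegral.integral_congr_ae (Eventually.of_forall fun s hs => ?_)
    rw [uIoc_of_le hy] at hs
    simp only [GG]; rw [QQ_congr hzw hs.1]
  have e2 : ∫ s in (0:ℝ)..y, s * GG z s = ∫ s in (0:ℝ)..y, s * GG w s := by
    refine intervalIntegral.integral_congr_ae (Eventually.of_forall fun s hs => ?_)
    rw [uIoc_of_le hy] at hs
    simp only [GG]; rw [QQ_congr hzw hs.1]
  simp only [KK]
  rw [e1, e2]

/-- representation from the bound -/
theorem rep_of_TB {C κ : ℝ} {z : ℝ → ℝ} (h : TB C z) :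
    Rep κ z (fun y => κ * y - KK z y) (fun y => κ - ∫ s in (0:ℝ)..y, GG z s) where
  int := h.int
  hD := by
    intro y hy
    have h1 : HasDerivAt (fun u => ∫ s in (0:ℝ)..u, GG z s) (GG z y) y :=
      intervalIntegral.integral_hasDerivAt_right (h.GG_int hy.le)
        (h.GG_cont.stronglyMeasurableAtFilter isOpen_Ioi y hy)
        (h.GG_cont.continuousAt (Ioi_mem_nhds hy))
    have h2c : ContinuousOn (fun s => s * GG z s) (Ioi 0) := continuousOn_id.mul h.GG_cont
    have h2 : HasDerivAt (fun u => ∫ s in (0:ℝ)..u, s * GG z s) (y * GG z y) y :=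
      intervalIntegral.integral_hasDerivAt_right (h.sGG_int hy.le)
        (h2c.stronglyMeasurableAtFilter isOpen_Ioi y hy)
        (h2c.continuousAt (Ioi_mem_nhds hy))
    have h3 := ((hasDerivAt_id y).const_mul κ).sub (((hasDerivAt_id y).mul h1).sub h2)
    refine (h3.congr_deriv ?_)
    simp only [id]; ring
  hD1 := by
    intro y hy
    have h1 : HasDerivAt (fun u => ∫ s in (0:ℝ)..u, GG z s) (GG z y) y :=
      intervalIntegral.integral_hasDerivAt_right (h.GG_int hy.le)
        (h.GG_cont.stronglyMeasurableAtFilter isOpen_Ioi y hy)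
        (h.GG_cont.continuousAt (Ioi_mem_nhds hy))
    exact h1.const_sub κ
  lim0 := by
    have c1 : ContinuousOn (fun u => ∫ s in (0:ℝ)..u, GG z s) (uIcc 0 1) :=
      intervalIntegral.continuousOn_primitive_interval' (h.GG_int zero_le_one) left_mem_uIcc
    have c2 : ContinuousOn (fun u => ∫ s in (0:ℝ)..u, s * GG z s) (uIcc 0 1) :=
      intervalIntegral.continuousOn_primitive_interval' (h.sGG_int zero_le_one) left_mem_uIcc
    have c3 : ContinuousOn (fun y => κ * y - KK z y) (uIcc 0 1) := by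
      unfold KK
      fun_prop
    have := c3 0 left_mem_uIcc
    rw [uIcc_of_le zero_le_one] at this
    have h2 : Tendsto (fun y => κ * y - KK z y) (𝓝[>] 0) (𝓝 (κ * 0 - KK z 0)) := by
      refine (this.tendsto).mono_left ?_
      have : Icc (0:ℝ) 1 ∈ 𝓝[>] (0:ℝ) := by
        filter_upwards [Ioo_mem_nhdsGT (zero_lt_one : (0:ℝ) < 1)] with t ht
        exact ⟨ht.1.le, ht.2.le⟩
      exact nhdsWithin_le_iff.2 this
    simpa [KK] using h2
  lim1 := by
    have c1 : ContinuousOn (fun u => ∫ s in (0:ℝ)..u, GG z s) (uIcc 0 1) :=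
      intervalIntegral.continuousOn_primitive_interval' (h.GG_int zero_le_one) left_mem_uIcc
    have c3 : ContinuousOn (fun y => κ - ∫ s in (0:ℝ)..y, GG z s) (uIcc 0 1) := by
      fun_prop
    have := c3 0 left_mem_uIcc
    rw [uIcc_of_le zero_le_one] at this
    have h2 : Tendsto (fun y => κ - ∫ s in (0:ℝ)..y, GG z s) (𝓝[>] 0)
        (𝓝 (κ - ∫ s in (0:ℝ)..0, GG z s)) := by
      refine (this.tendsto).mono_left ?_
      have : Icc (0:ℝ) 1 ∈ 𝓝[>] (0:ℝ) := by
        filter_upwards [Ioo_mem_nhdsGT (zero_lt_one : (0:ℝ) < 1)] with t ht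
        exact ⟨ht.1.le, ht.2.le⟩
      exact nhdsWithin_le_iff.2 this
    simpa using h2

/-- representation of test functions -/
theorem DD_rep {z : ℝ → ℝ} (hz : Adm z) {y : ℝ} (hy : 0 ≤ y) :
    DD z y = ((1 / 10) * ∫ t in Ioi (0:ℝ), z t) * y - KK z y := by
  set κ := (1 / 10) * ∫ t in Ioi (0:ℝ), z t with hκ
  have hG : ∀ s, DD2 z s = -GG z s := fun s => rfl
  have hGc : Continuous (GG z) := by
    have : GG z = fun s => -DD2 z s := by funext s; rw [hG]; ring
    rw [this]; exact (DD2_cont hz).neg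
  have h1 : ∀ x, 0 ≤ x → DD1 z x = κ - ∫ s in (0:ℝ)..x, GG z s := by
    intro x hx
    have := intervalIntegral.integral_eq_sub_of_hasDeriv_right_of_le hx (DD1_cont hz).continuousOn
      (fun s hs => (DD1_hasDeriv hz hs.1).hasDerivWithinAt) ((DD2_cont hz).intervalIntegrable 0 x)
    have e0 : DD1 z 0 = κ := by simp [DD1, hκ]
    have e1 : ∫ s in (0:ℝ)..x, DD2 z s = - ∫ s in (0:ℝ)..x, GG z s := by
      rw [← intervalIntegral.integral_neg]; rfl
    linarith
  have hI : Continuous (fun u => ∫ s in (0:ℝ)..u, GG z s) :=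
    continuous_iff_continuousAt.2 fun u =>
      (intervalIntegral.integral_hasDerivAt_right (hGc.intervalIntegrable 0 u)
        hGc.aestronglyMeasurable.stronglyMeasurableAtFilter hGc.continuousAt).continuousAt
  have hI1 : ∀ u, HasDerivAt (fun u => ∫ s in (0:ℝ)..u, GG z s) (GG z u) u := fun u =>
      (intervalIntegral.integral_hasDerivAt_right (hGc.intervalIntegrable 0 u)
        hGc.aestronglyMeasurable.stronglyMeasurableAtFilter hGc.continuousAt)
  have hsG : Continuous (fun s => s * GG z s) := continuous_id.mul hGc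
  have hI2 : ∀ u, HasDerivAt (fun u => ∫ s in (0:ℝ)..u, s * GG z s) (u * GG z u) u := fun u =>
      (intervalIntegral.integral_hasDerivAt_right (hsG.intervalIntegrable 0 u)
        hsG.aestronglyMeasurable.stronglyMeasurableAtFilter hsG.continuousAt)
  have hd : ∀ u, 0 < u → HasDerivAt (fun y => DD z y - (κ * y - KK z y)) 0 u := by
    intro u hu
    have h3 := (DD_hasDeriv hz hu).sub
      (((hasDerivAt_id u).const_mul κ).sub (((hasDerivAt_id u).mul (hI1 u)).sub (hI2 u)))
    refine (h3.congr_deriv ?_)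
    rw [h1 u hu.le]
    simp only [id]; ring
  have hc : Continuous (fun y => DD z y - (κ * y - KK z y)) := by
    have c1 := DD_cont hz
    have c2 : Continuous (fun u => ∫ s in (0:ℝ)..u, s * GG z s) :=
      continuous_iff_continuousAt.2 fun u => (hI2 u).continuousAt
    unfold KK
    fun_prop
  have := intervalIntegral.integral_eq_sub_of_hasDeriv_right_of_le hy hc.continuousOn
      (fun s hs => (hd s hs.1).hasDerivWithinAt) (by simp)
  have e0 : DD z 0 = 0 := by
    obtain ⟨K, hK, h⟩ := DD_lin_bound hz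
    have := h 0 le_rfl
    rw [mul_zero] at this
    exact abs_eq_zero.1 (le_antisymm this (abs_nonneg _))
  simp only [intervalIntegral.integral_zero, e0, KK, intervalIntegral.integral_same] at this
  simp only [KK]
  linarith

end Crest.Agent.R213.E
end
end

-- ▼ part R213/E/LinRep2

/-!
# Row 213, part E: representation of the limits of test pairs
-/

set_option autoImplicit false

open Set MeasureTheory Filter Topology

noncomputable section

namespace Crest.Agent.R213.E

theorem HH_norm_sq (f : HH) : ‖f‖ ^ 2 = ∫ y, (f y) ^ 2 ∂mu0 := by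
  rw [← real_inner_self_eq_norm_sq, L2.inner_def]
  refine integral_congr_ae (Eventually.of_forall fun y => ?_)
  simp only [RCLike.inner_apply, conj_trivial]
  ring

theorem toLp_norm_sq {g : ℝ → ℝ} (hg : MemLp g 2 mu0) : ‖(hg.toLp g : HH)‖ ^ 2 = ∫ y, (g y) ^ 2 ∂mu0 := by
  rw [HH_norm_sq]
  refine integral_congr_ae ?_
  filter_upwards [hg.coeFn_toLp] with y hy
  rw [hy]

/-- Cauchy–Schwarz -/
theorem HH_cs {k : ℝ → ℝ} (hk : MemLp k 2 mu0) {A : ℝ} (hA : 0 ≤ A) (hkA : ∫ y, (k y) ^ 2 ∂mu0 ≤ A ^ 2)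
    (g : HH) : Integrable (fun t => |k t| * |g t|) mu0 ∧ ∫ t, |k t| * |g t| ∂mu0 ≤ A * ‖g‖ := by
  set K : HH := |(hk.toLp k : HH)| with hK
  set G : HH := |g| with hG
  have hKn : ‖K‖ ≤ A := by
    rw [hK, norm_abs_eq_norm]
    have := toLp_norm_sq hk
    exact abs_le_of_sq_le_sq' (by rw [this]; exact hkA) hA |>.2
  have hGn : ‖G‖ = ‖g‖ := by rw [hG, norm_abs_eq_norm]
  have hKc : (K : ℝ → ℝ) =ᵐ[mu0] fun t => |k t| := by
    filter_upwards [Lp.coeFn_abs (hk.toLp k : HH), hk.coeFn_toLp] with t h1 h2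
    rw [hK, h1, h2]
  have hGc : (G : ℝ → ℝ) =ᵐ[mu0] fun t => |g t| := by
    filter_upwards [Lp.coeFn_abs g] with t h1
    rw [hG, h1]
  have hI := L2.integrable_inner (𝕜 := ℝ) K G
  have hae : (fun t => inner ℝ (K t) (G t)) =ᵐ[mu0] fun t => |k t| * |g t| := by
    filter_upwards [hKc, hGc] with t h1 h2
    rw [h1, h2]
    simp only [RCLike.inner_apply, conj_trivial]
    ring
  refine ⟨hI.congr hae, ?_⟩
  rw [← integral_congr_ae hae, ← L2.inner_def]
  refine (real_inner_le_norm K G).trans ?_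
  rw [hGn]
  exact mul_le_mul_of_nonneg_right hKn (norm_nonneg _)

theorem tail8 {y : ℝ} (hy : 0 < y) : IntegrableOn (fun t : ℝ => (t ^ 8)⁻¹) (Ioi y) ∧
    ∫ t in Ioi y, (t ^ 8)⁻¹ = (y ^ 7)⁻¹ / 7 := by
  have h1 := integrableOn_Ioi_rpow_of_lt (a := -8) (c := y) (by norm_num) hy
  have h2 := integral_Ioi_rpow_of_lt (a := -8) (by norm_num) hy
  have e : ∀ t ∈ Ioi y, t ^ (-8 : ℝ) = (t ^ 8)⁻¹ := by
    intro t ht
    have ht0 : 0 ≤ t := hy.le.trans (le_of_lt ht)
    rw [show (-8 : ℝ) = -((8 : ℕ) : ℝ) by norm_num, Real.rpow_neg ht0, Real.rpow_natCast]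
  refine ⟨h1.congr_fun e measurableSet_Ioi, ?_⟩
  rw [← setIntegral_congr_fun measurableSet_Ioi e, h2]
  rw [show ((-8 : ℝ) + 1) = -((7 : ℕ) : ℝ) by norm_num, Real.rpow_neg hy.le, Real.rpow_natCast]
  norm_num

theorem k_bound {y : ℝ} (hy : 0 < y) :
    IntegrableOn (fun t => ((t ^ 10)⁻¹ * (1 + t) ^ 6) ^ 2) (Ioi y) ∧
    ∫ t in Ioi y, ((t ^ 10)⁻¹ * (1 + t) ^ 6) ^ 2 ≤ ((1 + y) ^ 6 * (y ^ 9 * √y)⁻¹) ^ 2 := by
  obtain ⟨h1, h2⟩ := tail8 hy
  have hb : ∀ t ∈ Ioi y, ((t ^ 10)⁻¹ * (1 + t) ^ 6) ^ 2 ≤ ((1 + y) / y) ^ 12 * (t ^ 8)⁻¹ := by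
    intro t ht
    have ht' : y < t := ht
    have ht0 : 0 < t := hy.trans ht
    have e : ((t ^ 10)⁻¹ * (1 + t) ^ 6) ^ 2 = ((1 + t) / t) ^ 12 * (t ^ 8)⁻¹ := by
      field_simp
    rw [e]
    have : (1 + t) / t ≤ (1 + y) / y := by
      rw [div_le_div_iff₀ ht0 hy]; nlinarith
    gcongr
  have hi : IntegrableOn (fun t => ((t ^ 10)⁻¹ * (1 + t) ^ 6) ^ 2) (Ioi y) := by
    refine Integrable.mono' (h1.const_mul (((1 + y) / y) ^ 12)) ?_ ?_
    · exact Measurable.aestronglyMeasurable (by fun_prop)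
    · refine (ae_restrict_iff' measurableSet_Ioi).2 (Eventually.of_forall fun t ht => ?_)
      rw [Real.norm_of_nonneg (sq_nonneg _)]
      exact hb t ht
  refine ⟨hi, ?_⟩
  calc ∫ t in Ioi y, ((t ^ 10)⁻¹ * (1 + t) ^ 6) ^ 2
      ≤ ∫ t in Ioi y, ((1 + y) / y) ^ 12 * (t ^ 8)⁻¹ :=
        setIntegral_mono_on hi (h1.const_mul _) measurableSet_Ioi hb
    _ = ((1 + y) / y) ^ 12 * ((y ^ 7)⁻¹ / 7) := by rw [integral_const_mul, h2]
    _ ≤ ((1 + y) / y) ^ 12 * ((y ^ 7)⁻¹) := by
        gcongr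
        have : 0 < (y ^ 7)⁻¹ := by positivity
        linarith
    _ = ((1 + y) ^ 6 * (y ^ 9 * √y)⁻¹) ^ 2 := by
        have hs : √y ^ 2 = y := Real.sq_sqrt hy.le
        have hs0 : 0 < √y := Real.sqrt_pos.2 hy
        field_simp
        rw [hs]

/-- the right-hand side `z = f̂/q - n û/p` -/
def ZZ (b : ℝ) (n p u w : ℝ → ℝ) (t : ℝ) : ℝ := w t / (chi b t / p t) - n t * (u t / p t)

variable {b n1 cq Cq : ℝ} {n p : ℝ → ℝ}

def C1 (b n1 cq Cq : ℝ) : ℝ := 1 / cq + n1 * (Cq * (1 + 1 / b ^ 2) ^ 3)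

theorem WData.inv_p_le (hW : WData b n1 cq Cq n p) {y : ℝ} (hy : 0 < y) :
    1 / p y ≤ Cq * (1 + 1 / b ^ 2) ^ 3 * (1 + y) ^ 6 := by
  have hc := chi_pos b y
  have hp := hW.p_pos y hy
  have h := hW.q_up y hy
  have hb := hW.b_pos
  have hCq := hW.Cq_pos
  have e : 1 / p y = (chi b y / p y) * (1 / chi b y) := by field_simp
  have e2 : 1 / chi b y = (1 + y ^ 2 / b ^ 2) ^ 3 := by
    simp only [chi, uu]
    rw [inv_pow, one_div, inv_inv]
  have e3 : 1 + y ^ 2 / b ^ 2 ≤ (1 + 1 / b ^ 2) * (1 + y) ^ 2 := by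
    have h1 : 0 < 1 / b ^ 2 := by positivity
    have : y ^ 2 / b ^ 2 = y ^ 2 * (1 / b ^ 2) := by ring
    rw [this]
    nlinarith [mul_pos h1 hy, sq_nonneg y]
  rw [e, e2]
  calc chi b y / p y * (1 + y ^ 2 / b ^ 2) ^ 3 ≤ Cq * ((1 + 1 / b ^ 2) * (1 + y) ^ 2) ^ 3 := by
        have h0 : 0 ≤ chi b y / p y := (div_pos hc hp).le
        gcongr
    _ = Cq * (1 + 1 / b ^ 2) ^ 3 * (1 + y) ^ 6 := by ring

theorem WData.C1_nonneg (hW : WData b n1 cq Cq n p) : 0 ≤ C1 b n1 cq Cq := by
  have := hW.cq_pos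
  have := hW.Cq_pos
  have := hW.n1_nonneg
  unfold C1; positivity

theorem ZZ_bound (hW : WData b n1 cq Cq n p) (u w : ℝ → ℝ) {t : ℝ} (ht : 0 < t) :
    |ZZ b n p u w t| ≤ C1 b n1 cq Cq * ((1 + t) ^ 6 * |u t| + (1 + t) ^ 6 * |w t|) := by
  have hq := hW.q_pos ht
  have hp := hW.p_pos t ht
  have h1 : |w t / (chi b t / p t)| ≤ (1 / cq) * ((1 + t) ^ 6 * |w t|) := by
    rw [abs_div, abs_of_pos hq, div_eq_mul_inv, inv_div]
    have h2 := hW.inv_q_le ht
    have hcq := hW.cq_pos
    calc |w t| * (p t / chi b t) ≤ |w t| * ((1 + t) ^ 3 / cq) := by gcongr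
      _ ≤ |w t| * ((1 + t) ^ 6 / cq) := by
        gcongr
        · linarith
        · norm_num
      _ = (1 / cq) * ((1 + t) ^ 6 * |w t|) := by ring
  have h2 : |n t * (u t / p t)| ≤ n1 * (Cq * (1 + 1 / b ^ 2) ^ 3) * ((1 + t) ^ 6 * |u t|) := by
    rw [abs_mul, abs_of_nonneg (hW.n_nonneg t ht), abs_div, abs_of_pos hp]
    have h3 := hW.inv_p_le ht
    have h4 := hW.n_le t ht
    have h5 := hW.n_nonneg t ht
    have h6 := hW.n1_nonneg
    calc n t * (|u t| / p t) = n t * (|u t| * (1 / p t)) := by ring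
      _ ≤ n1 * (|u t| * (Cq * (1 + 1 / b ^ 2) ^ 3 * (1 + t) ^ 6)) := by gcongr
      _ = _ := by ring
  have hCq := hW.Cq_pos
  have hcq := hW.cq_pos
  have h6 := hW.n1_nonneg
  have a1 : 0 ≤ (1 / cq) * ((1 + t) ^ 6 * |u t|) := by positivity
  have a2 : 0 ≤ n1 * (Cq * (1 + 1 / b ^ 2) ^ 3) * ((1 + t) ^ 6 * |w t|) := by positivity
  refine (abs_sub' _ _).trans ?_
  unfold C1
  nlinarith

theorem ZZ_meas (hW : WData b n1 cq Cq n p) {u w : ℝ → ℝ} (hu : Measurable u) (hw : Measurable w) :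
    Measurable (ZZ b n p u w) := by
  unfold ZZ
  exact (hw.div hW.q_meas).sub (hW.n_meas.mul (hu.div hW.p_meas))

theorem HH_meas (f : HH) : Measurable (f : ℝ → ℝ) := (Lp.stronglyMeasurable f).measurable

theorem TB_ZZ (hW : WData b n1 cq Cq n p) (v : HH × HH) :
    TB (C1 b n1 cq Cq * (‖v.1‖ + ‖v.2‖)) (ZZ b n p v.1 v.2) := by
  have hC := hW.C1_nonneg
  have key : ∀ y, 0 < y → IntegrableOn (fun t => (t ^ 10)⁻¹ * ZZ b n p v.1 v.2 t) (Ioi y) ∧
      |QQ (ZZ b n p v.1 v.2) y| ≤ C1 b n1 cq Cq * (((1 + y) ^ 6 * (y ^ 9 * √y)⁻¹) * ‖v.1‖ +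
        ((1 + y) ^ 6 * (y ^ 9 * √y)⁻¹) * ‖v.2‖) := by
    intro y hy
    obtain ⟨k1, k2⟩ := k_bound hy
    set k : ℝ → ℝ := (Ioi y).indicator (fun t => (t ^ 10)⁻¹ * (1 + t) ^ 6) with hk
    have hkm : Measurable k := Measurable.indicator (by fun_prop) measurableSet_Ioi
    have hk2 : (fun t => k t ^ 2) = (Ioi y).indicator (fun t => ((t ^ 10)⁻¹ * (1 + t) ^ 6) ^ 2) := by
      funext t
      by_cases h : t ∈ Ioi y
      · simp [hk, h]
      · simp [hk, h]
    have hki : Integrable (fun t => k t ^ 2) mu0 := by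
      rw [hk2, integrable_indicator_iff measurableSet_Ioi]
      have : IntegrableOn (fun t => ((t ^ 10)⁻¹ * (1 + t) ^ 6) ^ 2) (Ioi y) mu0 := by
        rw [IntegrableOn, Measure.restrict_restrict measurableSet_Ioi,
          inter_eq_self_of_subset_left (Ioi_subset_Ioi hy.le)]
        exact k1
      exact this
    have hkL : MemLp k 2 mu0 := (memLp_two_iff_integrable_sq hkm.aestronglyMeasurable).2 hki
    have hkv : ∫ t, k t ^ 2 ∂mu0 ≤ ((1 + y) ^ 6 * (y ^ 9 * √y)⁻¹) ^ 2 := by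
      rw [hk2, integral_indicator measurableSet_Ioi, Measure.restrict_restrict measurableSet_Ioi,
          inter_eq_self_of_subset_left (Ioi_subset_Ioi hy.le)]
      exact k2
    have hA : 0 ≤ (1 + y) ^ 6 * (y ^ 9 * √y)⁻¹ := by positivity
    obtain ⟨i1, j1⟩ := HH_cs hkL hA hkv v.1
    obtain ⟨i2, j2⟩ := HH_cs hkL hA hkv v.2
    have hdom : Integrable (fun t => C1 b n1 cq Cq * (|k t| * |v.1 t| + |k t| * |v.2 t|)) mu0 :=
      (i1.add i2).const_mul _
    have hm := ZZ_meas hW (HH_meas v.1) (HH_meas v.2)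
    have hle : ∀ t, 0 < t → ‖(Ioi y).indicator (fun t => (t ^ 10)⁻¹ * ZZ b n p v.1 v.2 t) t‖ ≤
        C1 b n1 cq Cq * (|k t| * |v.1 t| + |k t| * |v.2 t|) := by
      intro t ht
      by_cases h : t ∈ Ioi y
      · rw [indicator_of_mem h, hk, indicator_of_mem h, norm_mul,
          Real.norm_of_nonneg (by positivity : 0 ≤ (t ^ 10)⁻¹), Real.norm_eq_abs,
          abs_of_nonneg (by positivity : 0 ≤ (t ^ 10)⁻¹ * (1 + t) ^ 6)]
        calc (t ^ 10)⁻¹ * |ZZ b n p v.1 v.2 t|
            ≤ (t ^ 10)⁻¹ * (C1 b n1 cq Cq * ((1 + t) ^ 6 * |v.1 t| + (1 + t) ^ 6 * |v.2 t|)) := by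
              have := ZZ_bound hW v.1 v.2 ht
              gcongr
          _ = _ := by ring
      · rw [indicator_of_notMem h, norm_zero]
        positivity
    have hI : Integrable ((Ioi y).indicator (fun t => (t ^ 10)⁻¹ * ZZ b n p v.1 v.2 t)) mu0 := by
      refine Integrable.mono' hdom ?_ ?_
      · refine (Measurable.indicator ?_ measurableSet_Ioi).aestronglyMeasurable
        exact (by fun_prop : Measurable fun t : ℝ => (t ^ 10)⁻¹).mul hm
      · exact (ae_restrict_iff' measurableSet_Ioi).2 (Eventually.of_forall fun t ht => hle t ht)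
    constructor
    · rw [integrable_indicator_iff measurableSet_Ioi, IntegrableOn,
        Measure.restrict_restrict measurableSet_Ioi,
        inter_eq_self_of_subset_left (Ioi_subset_Ioi hy.le)] at hI
      exact hI
    · have e : QQ (ZZ b n p v.1 v.2) y =
          ∫ t, (Ioi y).indicator (fun t => (t ^ 10)⁻¹ * ZZ b n p v.1 v.2 t) t ∂mu0 := by
        rw [integral_indicator measurableSet_Ioi, Measure.restrict_restrict measurableSet_Ioi,
          inter_eq_self_of_subset_left (Ioi_subset_Ioi hy.le)]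
        rfl
      rw [e, ← Real.norm_eq_abs]
      refine (norm_integral_le_of_norm_le hdom
        ((ae_restrict_iff' measurableSet_Ioi).2 (Eventually.of_forall fun t ht => hle t ht))).trans ?_
      rw [integral_const_mul, integral_add i1 i2]
      exact mul_le_mul_of_nonneg_left (add_le_add j1 j2) hC
  refine ⟨fun y hy => (key y hy).1, fun y hy => ?_⟩
  have h := (key y hy).2
  have hs0 : 0 < √y := Real.sqrt_pos.2 hy
  calc |GG (ZZ b n p v.1 v.2) y| = y ^ 9 * |QQ (ZZ b n p v.1 v.2) y| := by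
        rw [GG, abs_mul, abs_of_pos (by positivity)]
    _ ≤ y ^ 9 * (C1 b n1 cq Cq * (((1 + y) ^ 6 * (y ^ 9 * √y)⁻¹) * ‖v.1‖ +
        ((1 + y) ^ 6 * (y ^ 9 * √y)⁻¹) * ‖v.2‖)) := by gcongr
    _ = C1 b n1 cq Cq * (‖v.1‖ + ‖v.2‖) * wk y := by
        unfold wk
        field_simp

end Crest.Agent.R213.E
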