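import Crest.Agent.R213.E.PsiLib_Mg
import Crest.Agent.R213.E.EDefs

/-!
# Row 213, part E: the adjoint function — kernel check and cell facts (helper110)
-/

set_option autoImplicit false

open Set MeasureTheory

namespace Crest.Agent.R213.E.C.Ps

/-- cells together with the `ψ` data (the first 33 cells, up to `y = 16`). -/
def pz : List (Cell × PD) := cells.zip pd

/-- piece of `ψ` -/
def psiP (x : Cell × PD) : Pc := ⟨x.1.H, x.1.M, x.2.P⟩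

def psiL : List Pc := pz.map psiP

/-- `r`-th derivative of `ψ` -/
noncomputable def psi (r : ℕ) (y : ℝ) : ℝ := pw KE 64 psiL (fun _ _ => 0) r y
/-- `r`-th derivative of `g0` (with tail `T`) -/
noncomputable def gf (T : ℕ → ℝ → ℝ) (r : ℕ) (y : ℝ) : ℝ := pw KE SE (cells.map Cell.gP) T r y
/-- `r`-th derivative of `k` (with tail `T`) -/
noncomputable def kf (T : ℕ → ℝ → ℝ) (r : ℕ) (y : ℝ) : ℝ := pw KE SE (cells.map Cell.kP) T r y

/-- `c0` -/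
noncomputable def c0R : ℝ := (C0 : ℝ) / 2 ^ 60

/-- `(M+t) p''' + 12 p''` -/
def tL (M : Int) (p : List Int) : List Int := add (mt M (der (der (der p)))) (smul 12 (der (der p)))

/-- numerator of `2 g0² (y ψ''' + 12 ψ'') - ψ` -/
def eL (x : Cell × PD) : List Int :=
  sub (smul 128 (mul (mul x.1.Gi x.1.Gi) (tL x.1.M x.2.P)))
    (smul ((x.1.H : Int) ^ 2 * 4 ^ (SE - x.1.eG)) x.2.P)

def cE (x : Cell × PD) : Int :=
  ((x.2.eb : Int) * 4 ^ (SE - x.1.eG) * (x.1.H : Int) ^ 2 * 2 ^ 64 * 2 * (x.1.gl4 : Int) ^ 2) / 10 ^ 20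

/-- numerator of `2 c0 g0 resid(c0)` -/
def zL (c : Cell) : List Int :=
  add (smul (2 ^ 7 * (C0 : Int)) (mul c.Gi (add (Pth c.M c.Gi) [90 * 2 ^ (SE - c.eG)])))
    (smul ((c.H : Int) ^ 2 * 2 ^ (SE - c.eG))
      (mt c.M (mt c.M (sub (smul (2 ^ 60) c.Gi) [(C0 : Int) * 2 ^ (SE - c.eG)]))))

def chk (x : Cell × PD) : Bool :=
  decide (0 < x.1.H) && decide (x.1.eG ≤ SE) && decide (x.1.eK ≤ SE) && decide (0 < x.1.gl4) &&
  decide (l1 x.2.P * 10 ^ 9 ≤ x.2.sp * 2 ^ 64) &&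
  decide ((x.1.gl4 : Int) * 2 ^ (SE - x.1.eG) ≤ lo x.1.Gi * 10 ^ 4) &&
  decide (l1 x.1.Ki * 1000 ≤ x.1.kb3 * 2 ^ (SE - x.1.eK)) &&
  posB x.2.n (add [cE x] (eL x)) && posB x.2.n (sub [cE x] (eL x)) &&
  decide (l1 (zL x.1) * 10 ^ 22 * 2 ^ 60 ≤ x.2.rb * 2 ^ (66 + 2 * (SE - x.1.eG)) * (2 * C0 * x.1.gl4))

theorem all_chk : pz.all chk = true := by decide +kernel

theorem chain_g : chain (cells.map Cell.gP) = true := by decide +kernel
theorem chain_k : chain (cells.map Cell.kP) = true := by decide +kernel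
theorem chain_psi : chain psiL = true := by decide +kernel

theorem chk_of_mem {x : Cell × PD} (hx : x ∈ pz) : chk x = true := List.all_eq_true.1 all_chk x hx

/-! ### from lists to functions -/

theorem derAux_smul (c k : Int) (p : List Int) : derAux k (smul c p) = smul c (derAux k p) := by
  induction p generalizing k with
  | nil => rfl
  | cons a p ih => simp only [smul, derAux, ih]; rw [mul_left_comm]

theorem der_smul (c : Int) (p : List Int) : der (smul c p) = smul c (der p) := by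
  cases p with
  | nil => rfl
  | cons a p => simp only [smul, der, derAux_smul]

theorem dern_smul (c : Int) (r : ℕ) (p : List Int) : dern r (smul c p) = smul c (dern r p) := by
  induction r generalizing p with
  | zero => rfl
  | succ r ih => simp only [dern, der_smul, ih]

theorem gP_f (c : Cell) (h : c.eG ≤ SE) (r : ℕ) (y : ℝ) :
    c.gP.f KE SE r y = ev (dern r c.Gi) (y / c.gP.h KE - c.M) / c.gP.h KE ^ r / 2 ^ (SE - c.eG) := by
  have e : (2 : ℝ) ^ SE = 2 ^ c.eG * 2 ^ (SE - c.eG) := by rw [← pow_add]; congr 1; omega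
  simp only [Pc.f, Cell.gP, Cell.G, dern_smul, ev_smul]
  rw [e]
  push_cast
  field_simp

theorem kP_f (c : Cell) (h : c.eK ≤ SE) (r : ℕ) (y : ℝ) :
    c.kP.f KE SE r y = ev (dern r c.Ki) (y / c.kP.h KE - c.M) / c.kP.h KE ^ r / 2 ^ (SE - c.eK) := by
  have e : (2 : ℝ) ^ SE = 2 ^ c.eK * 2 ^ (SE - c.eK) := by rw [← pow_add]; congr 1; omega
  simp only [Pc.f, Cell.kP, Cell.Kd, dern_smul, ev_smul]
  rw [e]
  push_cast
  field_simp

theorem abs_t_le {K : ℕ} {p : Pc} (hH : 0 < p.H) {y : ℝ} (h1 : p.a K < y) (h2 : y ≤ p.b K) :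
    |y / p.h K - p.M| ≤ 1 := by
  have hh := Pc.h_pos (K := K) hH
  have e1 : y / p.h K - p.M = (y - p.h K * p.M) / p.h K := by field_simp
  rw [e1, abs_le]
  unfold Pc.a at h1
  unfold Pc.b at h2
  constructor
  · rw [le_div_iff₀ hh]; linarith
  · rw [div_le_iff₀ hh]; linarith

theorem mem_cells_of_mem_pz {x : Cell × PD} (hx : x ∈ pz) : x.1 ∈ cells :=
  (List.of_mem_zip hx).1

/-- positivity check gives an absolute bound -/
theorem abs_ev_le_of_posB {n : Nat} {C : Int} {p : List Int} (h1 : posB n (add [C] p) = true)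
    (h2 : posB n (sub [C] p) = true) {t : ℝ} (ht : |t| ≤ 1) : |ev p t| ≤ C := by
  have a1 := posB_sound n _ h1 ht
  have a2 := posB_sound n _ h2 ht
  rw [ev_add] at a1
  rw [ev_sub] at a2
  simp only [ev_cons, ev_nil, mul_zero, add_zero] at a1 a2
  rw [abs_le]; constructor <;> linarith

theorem ev_tL (M : Int) (p : List Int) (t : ℝ) :
    ev (tL M p) t = (M + t) * ev (dern 3 p) t + 12 * ev (dern 2 p) t := by
  simp [tL, dern]

/-- facts on one cell -/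
structure CellFacts (Tg Tk : ℕ → ℝ → ℝ) (x : Cell × PD) (y : ℝ) : Prop where
  psi_le : |psi 0 y| ≤ (x.2.sp : ℝ) / 10 ^ 9
  gl_pos : (0 : ℝ) < (x.1.gl4 : ℝ) / 10 ^ 4
  g_ge : (x.1.gl4 : ℝ) / 10 ^ 4 ≤ gf Tg 0 y
  k_le : |kf Tk 0 y| ≤ (x.1.kb3 : ℝ) / 1000
  e_le : |y * psi 3 y + 12 * psi 2 y - psi 0 y / (2 * gf Tg 0 y ^ 2)| ≤ (x.2.eb : ℝ) / 10 ^ 12
  r_le : |resid c0R y (gf Tg 0 y) (gf Tg 1 y) (gf Tg 2 y) (gf Tg 3 y)| ≤ (x.2.rb : ℝ) / 10 ^ 18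

theorem cell_facts (Tg Tk : ℕ → ℝ → ℝ) {x : Cell × PD} (hx : x ∈ pz) {y : ℝ}
    (h1 : x.1.gP.a KE < y) (h2 : y ≤ x.1.gP.b KE) : CellFacts Tg Tk x y := by
  have hc := chk_of_mem hx
  simp only [chk, Bool.and_eq_true, decide_eq_true_eq] at hc
  obtain ⟨⟨⟨⟨⟨⟨⟨⟨⟨hH, heG⟩, heK⟩, hgl⟩, hsp⟩, hlo⟩, hk⟩, hE1⟩, hE2⟩, hz⟩ := hc
  have hmem := mem_cells_of_mem_pz hx
  have hgP : x.1.gP ∈ cells.map Cell.gP := List.mem_map_of_mem hmem
  have hkP : x.1.kP ∈ cells.map Cell.kP := List.mem_map_of_mem hmem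
  have hpP : psiP x ∈ psiL := List.mem_map_of_mem hx
  have hHg : 0 < x.1.gP.H := hH
  have hh := Pc.h_pos (K := KE) hHg
  set h := x.1.gP.h KE with hh_def
  have hhk : x.1.kP.h KE = h := rfl
  have hhp : (psiP x).h KE = h := rfl
  set t := y / h - x.1.M with ht_def
  have ht : |t| ≤ 1 := abs_t_le (K := KE) hHg h1 h2
  have hy : y = h * (x.1.M + t) := by rw [ht_def]; field_simp; ring
  have hHR : (0 : ℝ) < x.1.H := by exact_mod_cast hH
  have hh8 : h = x.1.H / 8 := by rw [hh_def]; simp only [Pc.h, KE, Cell.gP]; norm_num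
  -- values
  have vg : ∀ r, gf Tg r y = ev (dern r x.1.Gi) t / h ^ r / 2 ^ (SE - x.1.eG) := by
    intro r
    rw [gf, pw_eq_f _ chain_g _ hgP y h1 h2 r, gP_f _ heG]
  have vk : kf Tk 0 y = ev x.1.Ki t / 2 ^ (SE - x.1.eK) := by
    rw [kf, pw_eq_f _ chain_k _ hkP y h1 h2 0, kP_f _ heK]
    simp only [dern, hhk, pow_zero, div_one]
    rfl
  have vp : ∀ r, psi r y = ev (dern r x.2.P) t / h ^ r / 2 ^ 64 := by
    intro r
    rw [psi, pw_eq_f _ chain_psi _ hpP y h1 h2 r]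
    rfl
  -- g
  have hglR : (0 : ℝ) < x.1.gl4 / 10 ^ 4 := by positivity
  have hg : (x.1.gl4 : ℝ) / 10 ^ 4 ≤ gf Tg 0 y := by
    rw [vg 0]
    simp only [dern, pow_zero, div_one]
    have a1 := lo_le x.1.Gi ht
    have a2 : ((x.1.gl4 : ℝ)) * 2 ^ (SE - x.1.eG) ≤ lo x.1.Gi * 10 ^ 4 := by exact_mod_cast hlo
    rw [div_le_div_iff₀ (by positivity) (by positivity)]
    nlinarith
  have hgpos : 0 < gf Tg 0 y := hglR.trans_le hg
  have hψ : |psi 0 y| ≤ x.2.sp / 10 ^ 9 := by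
    rw [vp 0]
    simp only [dern, pow_zero, div_one]
    have a1 := abs_ev_le x.2.P ht
    have a2 : ((l1 x.2.P : ℕ) : ℝ) * 10 ^ 9 ≤ x.2.sp * 2 ^ 64 := by exact_mod_cast hsp
    rw [abs_div, abs_of_pos (show (0 : ℝ) < 2 ^ 64 by positivity), div_le_div_iff₀ (by positivity)
      (by positivity)]
    nlinarith
  have hkb : |kf Tk 0 y| ≤ x.1.kb3 / 1000 := by
    rw [vk]
    have a1 := abs_ev_le x.1.Ki ht
    have a2 : ((l1 x.1.Ki : ℕ) : ℝ) * 1000 ≤ x.1.kb3 * 2 ^ (SE - x.1.eK) := by exact_mod_cast hk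
    rw [abs_div, abs_of_pos (show (0 : ℝ) < 2 ^ (SE - x.1.eK) by positivity),
      div_le_div_iff₀ (by positivity) (by positivity)]
    nlinarith
  refine ⟨hψ, hglR, hg, hkb, ?_, ?_⟩
  · -- e
    have a1 := abs_ev_le_of_posB hE1 hE2 ht
    have a2 : (cE x : ℝ) * 10 ^ 20 ≤
        (x.2.eb : ℝ) * 4 ^ (SE - x.1.eG) * (x.1.H : ℝ) ^ 2 * 2 ^ 64 * 2 * (x.1.gl4 : ℝ) ^ 2 := by
      have := Int.ediv_mul_le ((x.2.eb : Int) * 4 ^ (SE - x.1.eG) * (x.1.H : Int) ^ 2 * 2 ^ 64 * 2 *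
        (x.1.gl4 : Int) ^ 2) (show (10 ^ 20 : Int) ≠ 0 by norm_num)
      have h3 : cE x * 10 ^ 20 ≤ (x.2.eb : Int) * 4 ^ (SE - x.1.eG) * (x.1.H : Int) ^ 2 * 2 ^ 64 * 2 *
        (x.1.gl4 : Int) ^ 2 := this
      exact_mod_cast h3
    have e4 : (4 : ℝ) ^ (SE - x.1.eG) = (2 ^ (SE - x.1.eG)) ^ 2 := by
      rw [← pow_mul, mul_comm, pow_mul]; norm_num
    set Q : ℝ := 2 ^ (SE - x.1.eG) with hQ
    have hQpos : 0 < Q := by rw [hQ]; positivity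
    have e5 : y * psi 3 y + 12 * psi 2 y - psi 0 y / (2 * gf Tg 0 y ^ 2) =
        ev (eL x) t / (Q ^ 2 * (x.1.H : ℝ) ^ 2 * 2 ^ 64 * (2 * gf Tg 0 y ^ 2)) := by
      have hg0 : gf Tg 0 y = ev x.1.Gi t / Q := by rw [vg 0]; simp [dern]
      have hGne : ev x.1.Gi t ≠ 0 := by
        intro h0; rw [h0] at hg0; simp at hg0; exact hgpos.ne' hg0
      rw [vp 3, vp 2, vp 0, hg0]
      simp only [eL, ev_sub, ev_smul, ev_mul, ev_tL]
      push_cast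
      rw [e4, hh8]
      have hy8 : y = x.1.H / 8 * (x.1.M + t) := by rw [hy, hh8]
      rw [hy8]
      simp only [dern]
      field_simp
      ring
    rw [e5, abs_div, abs_of_pos (show (0 : ℝ) < Q ^ 2 * (x.1.H : ℝ) ^ 2 * 2 ^ 64 *
      (2 * gf Tg 0 y ^ 2) by positivity), div_le_iff₀ (by positivity)]
    rw [e4] at a2
    have b1 : ((x.1.gl4 : ℝ) / 10 ^ 4) ^ 2 ≤ gf Tg 0 y ^ 2 := by gcongr
    have b2 : (x.2.eb : ℝ) / 10 ^ 12 * (Q ^ 2 * (x.1.H : ℝ) ^ 2 * 2 ^ 64 *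
        (2 * ((x.1.gl4 : ℝ) / 10 ^ 4) ^ 2)) ≤ (x.2.eb : ℝ) / 10 ^ 12 * (Q ^ 2 * (x.1.H : ℝ) ^ 2 *
        2 ^ 64 * (2 * gf Tg 0 y ^ 2)) := by gcongr
    refine a1.trans (le_trans ?_ b2)
    have b3 : (x.2.eb : ℝ) / 10 ^ 12 * (Q ^ 2 * (x.1.H : ℝ) ^ 2 * 2 ^ 64 *
        (2 * ((x.1.gl4 : ℝ) / 10 ^ 4) ^ 2)) = ((x.2.eb : ℝ) * Q ^ 2 * (x.1.H : ℝ) ^ 2 * 2 ^ 64 * 2 *
        (x.1.gl4 : ℝ) ^ 2) / 10 ^ 20 := by field_simp
    rw [b3, le_div_iff₀ (by positivity)]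
    exact a2
  · -- r
    have hC0 : (0 : ℝ) < C0 := by norm_num [C0]
    have a1 := abs_ev_le (zL x.1) ht
    have a2 : ((l1 (zL x.1) : ℕ) : ℝ) * 10 ^ 22 * 2 ^ 60 ≤
        x.2.rb * 2 ^ (66 + 2 * (SE - x.1.eG)) * (2 * C0 * x.1.gl4) := by exact_mod_cast hz
    set Q : ℝ := 2 ^ (SE - x.1.eG) with hQ
    have hQpos : 0 < Q := by rw [hQ]; positivity
    have e6 : (2 : ℝ) ^ (66 + 2 * (SE - x.1.eG)) = 2 ^ 66 * Q ^ 2 := by
      rw [pow_add, hQ, ← pow_mul, mul_comm 2 (SE - x.1.eG)]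
    have hg0 : gf Tg 0 y = ev x.1.Gi t / Q := by rw [vg 0]; simp [dern]
    have hGne : ev x.1.Gi t ≠ 0 := by
      intro h0; rw [h0] at hg0; simp at hg0; exact hgpos.ne' hg0
    have e5 : resid c0R y (gf Tg 0 y) (gf Tg 1 y) (gf Tg 2 y) (gf Tg 3 y) =
        ev (zL x.1) t / (2 ^ 66 * Q ^ 2 * (2 * c0R * gf Tg 0 y)) := by
      rw [vg 1, vg 2, vg 3, hg0]
      simp only [zL, ev_add, ev_smul, ev_mul, ev_mt, ev_sub, ev_Pth, resid, c0R, ev_cons, ev_nil]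
      push_cast
      rw [← hQ, hh8]
      have hy8 : y = x.1.H / 8 * (x.1.M + t) := by rw [hy, hh8]
      rw [hy8]
      simp only [dern]
      field_simp
      ring
    have hc0R : 0 < c0R := by unfold c0R; positivity
    rw [e5, abs_div, abs_of_pos (show (0 : ℝ) < 2 ^ 66 * Q ^ 2 * (2 * c0R * gf Tg 0 y) by positivity),
      div_le_iff₀ (by positivity)]
    rw [e6] at a2
    have b2 : (x.2.rb : ℝ) / 10 ^ 18 * (2 ^ 66 * Q ^ 2 * (2 * c0R * ((x.1.gl4 : ℝ) / 10 ^ 4))) ≤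
        (x.2.rb : ℝ) / 10 ^ 18 * (2 ^ 66 * Q ^ 2 * (2 * c0R * gf Tg 0 y)) := by gcongr
    refine a1.trans (le_trans ?_ b2)
    have b3 : (x.2.rb : ℝ) / 10 ^ 18 * (2 ^ 66 * Q ^ 2 * (2 * c0R * ((x.1.gl4 : ℝ) / 10 ^ 4))) =
        (x.2.rb * (2 ^ 66 * Q ^ 2) * (2 * C0 * x.1.gl4)) / (10 ^ 22 * 2 ^ 60) := by
      unfold c0R; field_simp
    rw [b3, le_div_iff₀ (by positivity)]
    linarith

end Crest.Agent.R213.E.C.Ps
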