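import Crest.Agent.R213.E.CertData
import Crest.Agent.R213.E.CSpl

-- ▼ part R213/E/PsiData
section

/-!
# Row 213, part E: DATA of the adjoint function `ψ` (helper110)

Same cells as `cells` (the first 33, up to `y = 16`), `ψ = ev P t / 2^64` on a cell, `ψ = 0` for `y ≥ 16`.
`sp`: bound of `|ψ|` (×10⁹); `eb`: bound of `|y ψ''' + 12 ψ'' - ψ/(2 g0²)|` (×10¹²); `rb`: bound of
`|resid c0|` (×10¹⁸); `n`: bisection depth used for `eb`.
-/

set_option autoImplicit false

namespace Crest.Agent.R213.E.C

structure PD where
  P : List Int
  sp : Nat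
  eb : Nat
  rb : Nat
  n : Nat

def pd : List PD := [
  ⟨[13743572353047291904, -4325704860483130880, 374129215935151104, -3296973408843264, 28501372870656, -13497853702656, -1490247820288, -161856365056], 1000000162, 6397936, 51, 0⟩,
  ⟨[9345985290180678715, -437049564223475515, 5671628222438511, -6623651662575, -20640570255, -880606833, -13022491, -182117], 530647202, 173, 15361, 0⟩,
  ⟨[8494519326124736027, -414443268683269885, 5631317240302431, -6826188796377, -30280965903, -1053068631, -15837803, -227795], 483261477, 387, 35153, 0⟩,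
  ⟨[7688102928972613556, -392000970366986382, 5589545164311540, -7113221751078, -41826705156, -1262913546, -19264676, -265794], 438326708, 381, 76622, 0⟩,
  ⟨[6926401552213996566, -369729591678398716, 5545756153096638, -7501588510284, -55689920958, -1518052980, -23419926, -324164], 395825108, 363, 160471, 0⟩,
  ⟨[6209064439604352104, -347638494293621750, 5499282776710488, -8011764027726, -72370212840, -1827998082, -28426712, -395578], 355738134, 617, 324726, 0⟩,
  ⟨[5535719269722264326, -325739972077943944, 5449321976837598, -8668618839000, -92469322446, -2203756728, -34399766, -460520], 318046226, 580, 636084, 0⟩,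
  ⟨[4905965712232616235, -304049849729172647, 5394906128432751, -9502292327067, -116704648287, -2657357013, -41415483, -537577], 282728490, 532, 1204319, 0⟩,
  ⟨[4319367663919775051, -282588208055478153, 5334868568481279, -10549157259237, -145917958623, -3201403803, -49455467, -607479], 249762312, 426, 2192902, 0⟩,
  ⟨[3775443888449210490, -261380258924816356, 5267803200545778, -11852814444372, -181072513362, -3847248300, -58311450, -653084], 219122897, 257, 3793587, 0⟩,
  ⟨[3273656736798526352, -240457393484644802, 5192018359962912, -13464980254026, -223226686704, -4601841702, -67414976, -641230], 190782711, 784, 6088551, 0⟩,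
  ⟨[2813398580145060880, -219858424437079898, 5105486286846096, -15446004802674, -273463714128, -5461994766, -75567952, -503590], 164710814, 2067, 8565890, 0⟩,
  ⟨[2393975553276974746, -199631033873862768, 5005791709735410, -17864548234032, -332744543154, -6404340816, -80516314, -155664], 140872047, 5048, 8854927, 0⟩,
  ⟨[2014588201960261813, -179833417301417977, 4890086807313777, -20795608177605, -401632562433, -7369324683, -78338341, 537673], 119226076, 9155, 929857, 0⟩,
  ⟨[1674308682842202520, -160536073930174652, 4755066055038600, -24315595339356, -479816782296, -8236787988, -62662216, 1806380], 99726251, 16965, 2722691, 0⟩,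
  ⟨[1372054330022901237, -141823621109546287, 4596984218268753, -28492483862019, -565340900481, -8791410285, -23903685, 3883423], 82318267, 27874, 6323123, 0⟩,
  ⟨[1106557757006867993, -123796391042373761, 4411754857002309, -33368314647693, -653451543765, -8682187107, 50864503, 6968945], 66938639, 39907, 11511498, 0⟩,
  ⟨[876334318944369818, -106571383424724622, 4195184678334498, -38930888953830, -735060380178, -7389938826, 176045398, 11035390], 53512998, 50053, 13332917, 0⟩,
  ⟨[679648858954066149, -90281889642145103, 3943416636756705, -45072290680035, -795063691377, -4239958605, 361221291, 15348863], 41954290, 47251, 5552584, 0⟩,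
  ⟨[514485336295001440, -75074795488682242, 3653659395160032, -51535739464890, -811298193888, 1468931706, 597646496, 17911618], 32161022, 14760, 6456913, 0⟩,
  ⟨[378525203760018964, -61104308037083822, 3325246780015620, -57861731529462, -755756242500, 10126666230, 837786668, 15215534], 24015804, 95218, 7367538, 0⟩,
  ⟨[269142968434297524, -48520868305548094, 2960959170271860, -63360772959222, -600433799940, 21230097318, 978906588, 3238798], 17384574, 237939, 9205347, 0⟩,
  ⟨[183429317715154711, -37454687476775379, 2568318493721451, -67158027365559, -329551981083, 32754466023, 879120281, -18814557], 12117036, 344776, 44953938, 0⟩,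
  ⟨[118251781554881131, -27995075471507113, 2160278209928031, -68356079445477, 44049059841, 41078123973, 437113397, -43714871], 8048878, 297947, 44839081, 0⟩,
  ⟨[70357936379437069, -20169475959710993, 1754559499848825, -66316549037805, 467779101927, 42203479821, -285446509, -56228623], 5006239, 53487, 58838107, 0⟩,
  ⟨[23897811988496928, -22731506849027744, 4774947179570016, -457716328092768, 16177721348832, 870738443424, -79990118496, -3673469344], 2812373, 17777929, 1841900392, 0⟩,
  ⟨[-5845981638917064, -8553733265081288, 2465445712373400, -307656711687912, 19545500882472, -177678583512, -72427995384, 4014545288], 932014, 8960478, 2210729078, 0⟩,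
  ⟨[-15249983156908832, -1784620324502416, 1059860958551904, -167553340040784, 14670152353440, -665657623728, -10066072288, 3704555152], 990819, 9110318, 1408742850, 0⟩,
  ⟨[-15706972212286544, 860011830106432, 353240441070192, -76607202049344, 8261148145680, -559174986048, 18980100560, 633646400], 921880, 5802517, 341774059, 0⟩,
  ⟨[-11468133675621120, 3212699857158784, -66008329867008, -135477301956480, 40618611134208, -7177624275072, 893617847040, -69151181440], 809416, 12974039, 8093953, 0⟩,
  ⟨[-5921894796919488, 2189894435114560, -308391312732864, 9034458446400, 5005993371072, -1314090325824, 215712010176, -25210745152], 457305, 17294231, 1118150, 0⟩,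
  ⟨[-1687792311992832, 1601343559892480, -597265183652352, 127320085510656, -15426381583872, -363937746432, 1014397776384, -294375328256], 218512, 73159513, 14427013, 0⟩,
  ⟨[-87259483780096, 263152104615424, -223009711718400, -2945798816256, 32920152443904, 34179042900480, -8383030507520, -8653275137536], 35806, 767700708, 2295113, 4⟩]

end Crest.Agent.R213.E.C
end

-- ▼ part R213/E/PsiLib

/-!
# Row 213, part E, certificate tooling: localisation and integrals along a chain of cells (helper110)
-/

set_option autoImplicit false

open Set MeasureTheory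

namespace Crest.Agent.R213.E.C

/-! ### localisation -/

theorem chain_b_le_a {K : ℕ} : ∀ (l : List Pc) (p : Pc), chain (p :: l) = true → ∀ q ∈ l,
    p.b K ≤ q.a K := by
  intro l
  induction l with
  | nil => intro p _ q hq; simp at hq
  | cons r l ih =>
    intro p hc q hq
    have hc' := hc
    simp only [chain, Bool.and_eq_true, decide_eq_true_eq] at hc
    obtain ⟨⟨hp, hj⟩, ⟨hr, _⟩, _⟩ := hc
    have e := joint_ends (K := K) hj
    rcases List.mem_cons.1 hq with h | h
    · subst h; exact e.le
    · have h1 := ih r (chain_tail hc') q h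
      have h2 := b_lt_b (K := K) hr hj
      linarith

theorem chain_pos {l : List Pc} (hc : chain l = true) : ∀ p ∈ l, 0 < p.H := by
  induction l with
  | nil => intro p hp; simp at hp
  | cons q l ih =>
    intro p hp
    rcases List.mem_cons.1 hp with h | h
    · subst h; exact chain_head hc
    · exact ih (chain_tail hc) p h

/-- on the half open cell the spline is the piece (all orders). -/
theorem pw_eq_f {K S : ℕ} {T : ℕ → ℝ → ℝ} : ∀ (l : List Pc), chain l = true → ∀ p ∈ l, ∀ y : ℝ,
    p.a K < y → y ≤ p.b K → ∀ r, pw K S l T r y = p.f K S r y := by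
  intro l
  induction l with
  | nil => intro _ p hp; simp at hp
  | cons q l ih =>
    intro hc p hp y hy1 hy2 r
    rcases List.mem_cons.1 hp with h | h
    · subst h; rw [pw, if_pos hy2]
    · have h1 := chain_b_le_a (K := K) l q hc p h
      rw [pw, if_neg (not_le.2 (h1.trans_lt hy1))]
      exact ih (chain_tail hc) p h y hy1 hy2 r

/-- the spline of order `r ≤ 3` is continuous. -/
theorem pw_cont {K S : ℕ} {T : ℕ → ℝ → ℝ} : ∀ (l : List Pc), l ≠ [] → chain l = true →
    (∀ q, l.getLast? = some q → LastOK K S q T) → (∀ q, l.getLast? = some q →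
      ContinuousOn (T 3) (Ici (q.b K))) → ∀ y : ℝ, ContinuousAt (pw K S l T 3) y := by
  intro l
  induction l with
  | nil => intro h; exact absurd rfl h
  | cons p l ih =>
    intro _ hc hT hTc y
    have hp := chain_head hc
    have hjet := pw_next hc hT
    have hfc : ∀ z, ContinuousAt (p.f K S 3) z := fun z => (p.hasDerivAt_f K S hp 3 z).continuousAt
    have hrest : ∀ y, p.b K ≤ y → ContinuousWithinAt (pw K S l T 3) (Ici (p.b K)) y := by
      intro y hy
      cases l with
      | nil => exact hTc p rfl y hy
      | cons q l' =>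
        exact (ih (by simp) (chain_tail hc) (fun q' hq' => hT q' (by simpa using hq'))
          (fun q' hq' => hTc q' (by simpa using hq')) y).continuousWithinAt
    rcases lt_trichotomy y (p.b K) with h | h | h
    · have e : pw K S (p :: l) T 3 =ᶠ[nhds y] p.f K S 3 := by
        filter_upwards [Iio_mem_nhds h] with z hz
        rw [pw, if_pos (le_of_lt hz)]
      exact (hfc y).congr e.symm
    · subst h
      rw [continuousAt_iff_continuous_left_right]
      constructor
      · refine (hfc (p.b K)).continuousWithinAt.congr (fun z hz => ?_) ?_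
        · rw [pw, if_pos (mem_Iic.1 hz)]
        · rw [pw, if_pos le_rfl]
      · refine (hrest (p.b K) le_rfl).congr (fun z hz => ?_) ?_
        · rcases eq_or_lt_of_le (mem_Ici.1 hz) with h | h
          · rw [← h, pw, if_pos le_rfl, hjet 3 le_rfl]
          · rw [pw, if_neg (not_le.2 h)]
        · rw [pw, if_pos le_rfl, hjet 3 le_rfl]
    · have e : pw K S (p :: l) T 3 =ᶠ[nhds y] pw K S l T 3 := by
        filter_upwards [Ioi_mem_nhds h] with z hz
        rw [pw, if_neg (not_le.2 hz)]
      have h2 : ContinuousAt (pw K S l T 3) y :=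
        (hrest y h.le).continuousAt (Ici_mem_nhds h)
      exact h2.congr e.symm

/-! ### integrals along the chain -/

/-- right end of the chain (`a` if empty). -/
noncomputable def lend (K : ℕ) : ℝ → List Pc → ℝ
  | a, [] => a
  | _, p :: l => lend K (p.b K) l

/-- the chain starts at `a` and consecutive cells are adjacent. -/
def adj (K : ℕ) : ℝ → List Pc → Prop
  | _, [] => True
  | a, p :: l => p.a K = a ∧ 0 < p.H ∧ adj K (p.b K) l


theorem Pc.a_lt_b {K : ℕ} {p : Pc} (h : 0 < p.H) : p.a K < p.b K := by
  have := Pc.h_pos (K := K) h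
  unfold Pc.a Pc.b; nlinarith

theorem Pc.b_sub_a {K : ℕ} (p : Pc) : p.b K - p.a K = 2 * p.h K := by
  unfold Pc.a Pc.b; ring

theorem le_lend {K : ℕ} : ∀ (l : List Pc) (a : ℝ), adj K a l → a ≤ lend K a l := by
  intro l
  induction l with
  | nil => intro a _; exact le_rfl
  | cons p l ih =>
    intro a h
    obtain ⟨h1, h2, h3⟩ := h
    exact (h1 ▸ (Pc.a_lt_b h2).le).trans (ih _ h3)


/-- additivity of the integral along a chain: if the integral over each cell is known. -/
theorem int_eq_chain {K : ℕ} {f : ℝ → ℝ} {B : Pc → ℝ} : ∀ (l : List Pc) (a : ℝ), adj K a l →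
    (∀ p ∈ l, ∫ y in p.a K..p.b K, f y = B p) →
    IntervalIntegrable f volume a (lend K a l) →
    ∫ y in a..lend K a l, f y = (l.map B).sum := by
  intro l
  induction l with
  | nil => intro a _ _ _; simp [lend]
  | cons p l ih =>
    intro a hadj hb hi
    obtain ⟨h1, h2, h3⟩ := hadj
    have hab := Pc.a_lt_b (K := K) h2
    have hle := le_lend l _ h3
    simp only [lend] at hi ⊢
    have hi1 : IntervalIntegrable f volume a (p.b K) := by
      refine hi.mono_set ?_
      rw [uIcc_of_le (h1 ▸ hab.le), uIcc_of_le ((h1 ▸ hab.le).trans hle)]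
      exact Icc_subset_Icc_right hle
    have hi2 : IntervalIntegrable f volume (p.b K) (lend K (p.b K) l) := by
      refine hi.mono_set ?_
      rw [uIcc_of_le hle, uIcc_of_le ((h1 ▸ hab.le).trans hle)]
      exact Icc_subset_Icc_left (h1 ▸ hab.le)
    rw [← intervalIntegral.integral_add_adjacent_intervals hi1 hi2]
    simp only [List.map_cons, List.sum_cons]
    rw [ih _ h3 (fun q hq => hb q (List.mem_cons_of_mem _ hq)) hi2, ← hb p (List.mem_cons_self ..), h1]

/-! ### exact integration over `[-1,1]` -/

/-- `∫_{-1}^1 (t^k p(t)) dt` times `L`, if `L` is divisible by `k+1, …`. -/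
def itg (L : Int) : Nat → List Int → Int
  | _, [] => 0
  | k, a :: p => (if k % 2 = 0 then 2 * a * (L / (k + 1)) else 0) + itg L (k + 1) p

/-- divisibility check -/
def dvdB (L : Int) : Nat → List Int → Bool
  | _, [] => true
  | k, _ :: p => decide (L / (k + 1) * (k + 1) = L) && dvdB L (k + 1) p

theorem integral_pow_mul_ev (L : Int) : ∀ (p : List Int) (k : ℕ), dvdB L k p = true →
    (L : ℝ) * ∫ t in (-1 : ℝ)..1, t ^ k * ev p t = (itg L k p : ℝ) := by
  intro p
  induction p with
  | nil => intro k _; simp [itg]
  | cons a p ih =>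
    intro k h
    simp only [dvdB, Bool.and_eq_true, decide_eq_true_eq] at h
    obtain ⟨h1, h2⟩ := h
    have h3 := ih (k + 1) h2
    have e : (fun t : ℝ => t ^ k * ev (a :: p) t) = fun t => (a : ℝ) * t ^ k + t ^ (k + 1) * ev p t := by
      funext t; simp only [ev_cons]; ring
    have hc := continuous_ev p
    rw [e, intervalIntegral.integral_add (by apply Continuous.intervalIntegrable; fun_prop)
      (by apply Continuous.intervalIntegrable; fun_prop), intervalIntegral.integral_const_mul,
      integral_pow, mul_add, h3]
    simp only [itg]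
    have hk : ((k : ℝ) + 1) ≠ 0 := by positivity
    have hL : (L : ℝ) = ((L / (k + 1) : Int) : ℝ) * ((k : ℝ) + 1) := by
      have : ((L / (k + 1) * (k + 1) : Int) : ℝ) = (L : ℝ) := by rw [h1]
      push_cast at this
      linarith
    push_cast
    congr 1
    rcases Nat.even_or_odd k with hev | hod
    · have h4 : k % 2 = 0 := Nat.even_iff.1 hev
      have h5 : (-1 : ℝ) ^ (k + 1) = -1 := (hev.add_one).neg_one_pow
      rw [if_pos h4, h5, one_pow, hL]
      field_simp
      ring
    · have h4 : ¬ k % 2 = 0 := by rw [Nat.odd_iff.1 hod]; decide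
      have h5 : (-1 : ℝ) ^ (k + 1) = 1 := (hod.add_one).neg_one_pow
      rw [if_neg h4, h5, one_pow]
      simp

theorem integral_ev (L : Int) (p : List Int) (h : dvdB L 0 p = true) :
    (L : ℝ) * ∫ t in (-1 : ℝ)..1, ev p t = (itg L 0 p : ℝ) := by
  have := integral_pow_mul_ev L p 0 h
  simpa using this

/-- `(M+t) p` -/
def mt (M : Int) (p : List Int) : List Int := add (smul M p) (0 :: p)

@[simp] theorem ev_mt (M : Int) (p : List Int) (t : ℝ) : ev (mt M p) t = (M + t) * ev p t := by
  simp [mt]; ring

/-- `(M+t)^n p` -/
def mtn (M : Int) : Nat → List Int → List Int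
  | 0, p => p
  | n + 1, p => mt M (mtn M n p)

@[simp] theorem ev_mtn (M : Int) (n : Nat) (p : List Int) (t : ℝ) :
    ev (mtn M n p) t = (M + t) ^ n * ev p t := by
  induction n with
  | zero => simp [mtn]
  | succ n ih => simp only [mtn, ev_mt, ih]; ring

/-- change of variables to the cell. -/
theorem Pc.integral_cell {K : ℕ} {p : Pc} (hH : 0 < p.H) (F : ℝ → ℝ) :
    ∫ y in p.a K..p.b K, F (y / p.h K - p.M) = p.h K * ∫ t in (-1 : ℝ)..1, F t := by
  have hh := Pc.h_pos (K := K) hH
  have e1 : (-1 : ℝ) = p.a K / p.h K - p.M := by unfold Pc.a; field_simp; ring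
  have e2 : (1 : ℝ) = p.b K / p.h K - p.M := by unfold Pc.b; field_simp; ring
  have := intervalIntegral.integral_comp_sub_right (a := p.a K / p.h K) (b := p.b K / p.h K) F
    (p.M : ℝ)
  rw [← e1, ← e2] at this
  rw [← this]
  have h2 := intervalIntegral.integral_comp_div (a := p.a K) (b := p.b K)
    (fun x => F (x - p.M)) hh.ne'
  rw [h2, smul_eq_mul]

/-- `∫ y^n (piece)` over the cell. -/
theorem Pc.integral_pow_mul {K S : ℕ} {p : Pc} (hH : 0 < p.H) (n : ℕ) (L : Int) (hL : 0 < L)
    (h : dvdB L 0 (mtn p.M n p.P) = true) :
    ∫ y in p.a K..p.b K, p.f K S 0 y * y ^ n =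
      p.h K ^ (n + 1) * (itg L 0 (mtn p.M n p.P) : ℝ) / (L * 2 ^ S) := by
  have hh := Pc.h_pos (K := K) hH
  have hLR : (0 : ℝ) < L := by exact_mod_cast hL
  have e : (fun y => p.f K S 0 y * y ^ n) =
      fun y => (fun t => p.h K ^ n / 2 ^ S * ev (mtn p.M n p.P) t) (y / p.h K - p.M) := by
    funext y
    simp only [Pc.f, dern, ev_mtn, pow_zero, div_one]
    have : ((p.M : Int) : ℝ) + (y / p.h K - p.M) = y / p.h K := by push_cast; ring
    rw [this, div_pow]
    field_simp
  rw [e, Pc.integral_cell hH (fun t => p.h K ^ n / 2 ^ S * ev (mtn p.M n p.P) t),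
    intervalIntegral.integral_const_mul]
  have h2 := integral_ev L (mtn p.M n p.P) h
  have h3 : ∫ t in (-1 : ℝ)..1, ev (mtn p.M n p.P) t = (itg L 0 (mtn p.M n p.P) : ℝ) / L := by
    field_simp; linarith
  rw [h3]
  field_simp
  ring

end Crest.Agent.R213.E.C
private theorem rz_08f506b3b7 : type_of% @_root_.Crest.Agent.R213.E.C.dvdB.eq_def := @_root_.Crest.Agent.R213.E.C.dvdB.eq_def -- L207
private theorem rz_ec0d17f5c1 : type_of% @_root_.Crest.Agent.R213.E.C.dvdB.eq_1 := @_root_.Crest.Agent.R213.E.C.dvdB.eq_1 -- L207
private theorem rz_c3511ba302 : type_of% @_root_.Crest.Agent.R213.E.C.itg.eq_def := @_root_.Crest.Agent.R213.E.C.itg.eq_def -- L202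
private theorem rz_e0bb5a3926 : type_of% @_root_.Crest.Agent.R213.E.C.itg.eq_1 := @_root_.Crest.Agent.R213.E.C.itg.eq_1 -- L202
private theorem rz_79815c9c40 : type_of% @_root_.Crest.Agent.R213.E.C.lend.eq_def := @_root_.Crest.Agent.R213.E.C.lend.eq_def -- L100
private theorem rz_1e59269233 : type_of% @_root_.Crest.Agent.R213.E.C.lend.eq_1 := @_root_.Crest.Agent.R213.E.C.lend.eq_1 -- L100
private theorem rz_e1c30daa16 : type_of% @_root_.Crest.Agent.R213.E.C.mtn.eq_def := @_root_.Crest.Agent.R213.E.C.mtn.eq_def -- L258
private theorem rz_2b486ea9f6 : type_of% @_root_.Crest.Agent.R213.E.C.mtn.eq_1 := @_root_.Crest.Agent.R213.E.C.mtn.eq_1 -- L258
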